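import Vale.Agent.P032.H240.W.GenA

/-!
# P032: the faster check of certificates (unit clauses in a mask)

`chkU` is `chkG` with the checker `ck` of `H820/K/Lr`.
-/

namespace Vale.Agent.P032.H240.W

open Vale.Agent.P032.H139.Lrat (Db build)
open Vale.Agent.P032.H820.K (nbf unL mpl dmk mpl_mem ck ck_sound)
open Vale.Agent.P032.H993 (MdE)
open Vale.Agent.P032.H254 (DZ)

/-- the check with the tree of atoms `A` -/
noncomputable def chkU1 (gen : ℕ → List ℕ) (B mB HB d : ℕ) (C D H : List ℕ) (A : Db) : Bool :=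
  ck HB 100000 (build d (mpl (inG gen B mB A) (unL C) (mpl (dmk B mB 100000) (unL D) [])) 0 (fun t _ => t))
    (mpl (inG gen B mB A) (unL C) []) (unL H)

/-- **The check of a certificate.** -/
noncomputable def chkU (gen : ℕ → List ℕ) (B HB dA d : ℕ) (A C D H : List ℕ) : Bool :=
  chkU1 gen B (Nat.sub (Nat.shiftLeft 1 B) 1) HB d C D H (build dA (unL A) 0 (fun t _ => t))

/-- **Soundness.** -/
theorem chkU_sound {gen : ℕ → List ℕ} {B HB dA d : ℕ} {A C D H : List ℕ}
    (h : chkU gen B HB dA d A C D H = true) {v : ℕ → Prop} (hg : ∀ n, Ho v (gen n)) : False := by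
  unfold chkU chkU1 at h
  refine ck_sound h (aV v (build dA (unL A) 0 fun t _ => t)) fun K hK => ?_
  obtain ⟨x, rfl⟩ := mpl_mem hK
  exact inC_sat _ _ _ (hg _)

section
variable {K NP NW TB : ℕ} {M : MdW K NP NW (nbf K TB)}

theorem chkWU_sound {e : List (List ℕ)} {t : ℕ → List ℕ} {B HB dA d : ℕ} {A C D H : List ℕ}
    (h : chkU (genX (gen K NP NW TB) e t) B HB dA d A C D H = true) (he : ∀ c ∈ e, Ho (vx M.bv t) c) : False :=
  chkU_sound h fun n => genX_ho (fun n => gen_ho (ag_vx M t) n) he n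

theorem chkEU_sound {e : List (List ℕ)} {t : ℕ → List ℕ} {B HB dA d : ℕ} {A C D H : List ℕ}
    (h : chkU (genX (genE K NP NW TB) e t) B HB dA d A C D H = true) (hE : MdE M)
    (he : ∀ c ∈ e, Ho (vx M.bv t) c) : False :=
  chkU_sound h fun n => genX_ho (fun n => genE_ho hE (ag_vx M t) n) he n

theorem chkZU_sound {e : List (List ℕ)} {t : ℕ → List ℕ} {B HB dA d : ℕ} {A C D H : List ℕ}
    (h : chkU (genX (genZ K NP NW TB) e t) B HB dA d A C D H = true) (hE : MdE M) {Z : DZ M} (hb : BZ M Z)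
    (he : ∀ c ∈ e, Ho (vx M.bv t) c) : False :=
  chkU_sound h fun n => genX_ho (fun n => genZ_ho hE hb (ag_vx M t) n) he n

end

end Vale.Agent.P032.H240.W
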