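import Vale.Agent.P032.H240.W.MdW

/-!
# P032: the atoms of the wild model of germs
-/

namespace Vale.Agent.P032.H240.W

open Vale.Agent.P032.H820.K (df ad hcell gk gt nbf a0 a1 a2 a3 a4 En dec mp ps ng trv cd lb lb_iff fx fa fb fc fd fe)

variable {K NP NW : ℕ} {nb : ℕ → ℕ → ℕ}

namespace MdW

variable (M : MdW K NP NW nb)

/-- colour of the letter outside `T x` -/
def LE (x t sd q : ℕ) : Prop := M.LU x t sd q ∧ ¬ M.T x q

/-- colour of `T x` outside the letter -/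
def OD (x t sd q : ℕ) : Prop := M.T x q ∧ ¬ M.LU x t sd q

/-- colour of the neighbour which is not at `x` -/
def Df (x s q : ℕ) : Prop := M.T (nb x s) q ∧ ¬ M.T x q

/-- the meaning of the atoms -/
def bv (n : ℕ) : Prop :=
  if a0 n = 0 then M.V (a3 n) (a1 n) (a2 n) (a4 n) else
  if a0 n = 1 then M.PV (a3 n) (a1 n) (a2 n) (a4 n) else
  if a0 n = 2 then M.H (a1 n) (a2 n) (a4 n) else
  if a0 n = 3 then M.PH (a1 n) (a2 n) (a4 n) else
  if a0 n = 4 then M.T (a1 n) (a4 n) else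
  if a0 n = 5 then M.P (a1 n) (a4 n) else
  if a0 n = 6 then M.X (a1 n) else
  if a0 n = 7 then (if a3 n = 0 then M.NS (a1 n) (a2 n) (a4 n) else M.OD (a1 n) (a2 n) (a3 n - 1) (a4 n)) else
  if a0 n = 8 then M.Pu (a3 n) (a1 n) (a2 n) (a4 n) else
  if a0 n = 9 then M.W (a1 n) (a2 n) (a3 n / 2) (a3 n % 2) = a4 n else
  if a0 n = 10 then M.L (a1 n) (a2 n) (a3 n / 2) (a3 n % 2) = a4 n else
  if a0 n = 11 then (if a3 n < 4 then M.LT (a1 n) (a2 n) (a3 n / 2) (a3 n % 2) (a4 n) else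
    if a3 n < 6 then M.LU (a1 n) (a2 n) (a3 n - 4) (a4 n) else M.LE (a1 n) (a2 n) (a3 n - 6) (a4 n)) else
  if a0 n = 12 then (if a3 n = 0 then M.S60 (a1 n) (a2 n) (a4 n) else if a3 n = 1 then M.Ap (a1 n) (a2 n) (a4 n) else
    if a3 n = 2 then M.Bm (a1 n) (a2 n) (a4 n) else if a3 n = 3 then M.AR (a1 n) (a2 n) (a4 n) else
    if a3 n = 4 then M.AL (a1 n) (a2 n) (a4 n) else if a3 n = 5 then M.Fn (a1 n) (a2 n) else
      M.Df (a1 n) (a2 n) (a4 n)) else
  if a0 n = 13 then M.J (a3 n) (a1 n) (a2 n) = a4 n else M.B (a1 n) (a2 n) (a3 n) (a4 n)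

end MdW

/-- agreement with the model away from the defined atoms -/
def Ag (M : MdW K NP NW nb) (v : ℕ → Prop) : Prop := ∀ n, n % 16 ≠ 15 → (v n ↔ M.bv n)

theorem ag_bv (M : MdW K NP NW nb) : Ag M M.bv := fun _ _ => Iff.rfl

theorem ag_vx (M : MdW K NP NW nb) (t : ℕ → List ℕ) : Ag M (vx M.bv t) := fun n hn => by
  unfold vx
  rw [if_neg hn]

section
variable {M : MdW K NP NW nb} {v : ℕ → Prop} (hv : Ag M v) {x j k q : ℕ}
include hv

theorem ag {kd : ℕ} (h0 : kd < 15) : v (En kd x j k q) ↔ M.bv (En kd x j k q) := by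
  refine hv _ ?_
  rw [Vale.Agent.P032.H820.K.en_eq]
  omega

theorem bV (h1 : x < 4096) (h2 : j < 256) (h3 : k < 8) : v (En 0 x j k q) ↔ M.V k x j q := by
  obtain ⟨e0, e1, e2, e3, e4⟩ := dec (kd := 0) (q := q) (by norm_num) h1 h2 h3
  rw [ag hv (by norm_num)]; unfold MdW.bv; rw [e0, e1, e2, e3, e4]; simp
theorem bPV (h1 : x < 4096) (h2 : j < 256) (h3 : k < 8) : v (En 1 x j k q) ↔ M.PV k x j q := by
  obtain ⟨e0, e1, e2, e3, e4⟩ := dec (kd := 1) (q := q) (by norm_num) h1 h2 h3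
  rw [ag hv (by norm_num)]; unfold MdW.bv; rw [e0, e1, e2, e3, e4]; simp
theorem bH (h1 : x < 4096) (h2 : j < 256) : v (En 2 x j 0 q) ↔ M.H x j q := by
  obtain ⟨e0, e1, e2, e3, e4⟩ := dec (kd := 2) (k := 0) (q := q) (by norm_num) h1 h2 (by norm_num)
  rw [ag hv (by norm_num)]; unfold MdW.bv; rw [e0, e1, e2, e4]; simp
theorem bPH (h1 : x < 4096) (h2 : j < 256) : v (En 3 x j 0 q) ↔ M.PH x j q := by
  obtain ⟨e0, e1, e2, e3, e4⟩ := dec (kd := 3) (k := 0) (q := q) (by norm_num) h1 h2 (by norm_num)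
  rw [ag hv (by norm_num)]; unfold MdW.bv; rw [e0, e1, e2, e4]; simp
theorem bT (h1 : x < 4096) : v (En 4 x 0 0 q) ↔ M.T x q := by
  obtain ⟨e0, e1, e2, e3, e4⟩ := dec (kd := 4) (j := 0) (k := 0) (q := q) (by norm_num) h1 (by norm_num) (by norm_num)
  rw [ag hv (by norm_num)]; unfold MdW.bv; rw [e0, e1, e4]; simp
theorem bP (h1 : x < 4096) : v (En 5 x 0 0 q) ↔ M.P x q := by
  obtain ⟨e0, e1, e2, e3, e4⟩ := dec (kd := 5) (j := 0) (k := 0) (q := q) (by norm_num) h1 (by norm_num) (by norm_num)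
  rw [ag hv (by norm_num)]; unfold MdW.bv; rw [e0, e1, e4]; simp
theorem bX (h1 : x < 4096) : v (En 6 x 0 0 0) ↔ M.X x := by
  obtain ⟨e0, e1, e2, e3, e4⟩ := dec (kd := 6) (j := 0) (k := 0) (q := 0) (by norm_num) h1 (by norm_num) (by norm_num)
  rw [ag hv (by norm_num)]; unfold MdW.bv; rw [e0, e1]; simp
theorem bNS (h1 : x < 4096) (h2 : j < 256) : v (En 7 x j 0 q) ↔ M.NS x j q := by
  obtain ⟨e0, e1, e2, e3, e4⟩ := dec (kd := 7) (k := 0) (q := q) (by norm_num) h1 h2 (by norm_num)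
  rw [ag hv (by norm_num)]; unfold MdW.bv; rw [e0, e1, e2, e3, e4]; simp
theorem bOD (h1 : x < 4096) (h2 : j < 256) (h3 : k < 2) : v (En 7 x j (k + 1) q) ↔ M.OD x j k q := by
  obtain ⟨e0, e1, e2, e3, e4⟩ := dec (kd := 7) (k := k + 1) (q := q) (by norm_num) h1 h2 (by omega)
  rw [ag hv (by norm_num)]; unfold MdW.bv; rw [e0, e1, e2, e3, e4]; simp
theorem bPu (h1 : x < 4096) (h2 : j < 256) (h3 : k < 8) : v (En 8 x j k q) ↔ M.Pu k x j q := by
  obtain ⟨e0, e1, e2, e3, e4⟩ := dec (kd := 8) (q := q) (by norm_num) h1 h2 h3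
  rw [ag hv (by norm_num)]; unfold MdW.bv; rw [e0, e1, e2, e3, e4]; simp
theorem bW (h1 : x < 4096) (h2 : j < 256) (h3 : k < 8) : v (En 9 x j k q) ↔ M.W x j (k / 2) (k % 2) = q := by
  obtain ⟨e0, e1, e2, e3, e4⟩ := dec (kd := 9) (q := q) (by norm_num) h1 h2 h3
  rw [ag hv (by norm_num)]; unfold MdW.bv; rw [e0, e1, e2, e3, e4]; simp
theorem bL (h1 : x < 4096) (h2 : j < 256) (h3 : k < 8) : v (En 10 x j k q) ↔ M.L x j (k / 2) (k % 2) = q := by
  obtain ⟨e0, e1, e2, e3, e4⟩ := dec (kd := 10) (q := q) (by norm_num) h1 h2 h3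
  rw [ag hv (by norm_num)]; unfold MdW.bv; rw [e0, e1, e2, e3, e4]; simp
theorem bLT (h1 : x < 4096) (h2 : j < 256) (h3 : k < 4) :
    v (En 11 x j k q) ↔ M.LT x j (k / 2) (k % 2) q := by
  obtain ⟨e0, e1, e2, e3, e4⟩ := dec (kd := 11) (k := k) (q := q) (by norm_num) h1 h2 (by omega)
  rw [ag hv (by norm_num)]; unfold MdW.bv; rw [e0, e1, e2, e3, e4]
  simp [h3]
theorem bLU (h1 : x < 4096) (h2 : j < 256) (h3 : k < 2) : v (En 11 x j (k + 4) q) ↔ M.LU x j k q := by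
  obtain ⟨e0, e1, e2, e3, e4⟩ := dec (kd := 11) (k := k + 4) (q := q) (by norm_num) h1 h2 (by omega)
  rw [ag hv (by norm_num)]; unfold MdW.bv; rw [e0, e1, e2, e3, e4]
  have h4 : k + 4 < 6 := by omega
  simp [h4]
theorem bLE (h1 : x < 4096) (h2 : j < 256) (h3 : k < 2) : v (En 11 x j (k + 6) q) ↔ M.LE x j k q := by
  obtain ⟨e0, e1, e2, e3, e4⟩ := dec (kd := 11) (k := k + 6) (q := q) (by norm_num) h1 h2 (by omega)
  rw [ag hv (by norm_num)]; unfold MdW.bv; rw [e0, e1, e2, e3, e4]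
  simp
theorem bS60 (h1 : x < 4096) (h2 : j < 256) : v (En 12 x j 0 q) ↔ M.S60 x j q := by
  obtain ⟨e0, e1, e2, e3, e4⟩ := dec (kd := 12) (k := 0) (q := q) (by norm_num) h1 h2 (by norm_num)
  rw [ag hv (by norm_num)]; unfold MdW.bv; rw [e0, e1, e2, e3, e4]; simp
theorem bAp (h1 : x < 4096) (h2 : j < 256) : v (En 12 x j 1 q) ↔ M.Ap x j q := by
  obtain ⟨e0, e1, e2, e3, e4⟩ := dec (kd := 12) (k := 1) (q := q) (by norm_num) h1 h2 (by norm_num)
  rw [ag hv (by norm_num)]; unfold MdW.bv; rw [e0, e1, e2, e3, e4]; simp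
theorem bBm (h1 : x < 4096) (h2 : j < 256) : v (En 12 x j 2 q) ↔ M.Bm x j q := by
  obtain ⟨e0, e1, e2, e3, e4⟩ := dec (kd := 12) (k := 2) (q := q) (by norm_num) h1 h2 (by norm_num)
  rw [ag hv (by norm_num)]; unfold MdW.bv; rw [e0, e1, e2, e3, e4]; simp
theorem bAR (h1 : x < 4096) (h2 : j < 256) : v (En 12 x j 3 q) ↔ M.AR x j q := by
  obtain ⟨e0, e1, e2, e3, e4⟩ := dec (kd := 12) (k := 3) (q := q) (by norm_num) h1 h2 (by norm_num)
  rw [ag hv (by norm_num)]; unfold MdW.bv; rw [e0, e1, e2, e3, e4]; simp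
theorem bAL (h1 : x < 4096) (h2 : j < 256) : v (En 12 x j 4 q) ↔ M.AL x j q := by
  obtain ⟨e0, e1, e2, e3, e4⟩ := dec (kd := 12) (k := 4) (q := q) (by norm_num) h1 h2 (by norm_num)
  rw [ag hv (by norm_num)]; unfold MdW.bv; rw [e0, e1, e2, e3, e4]; simp
theorem bF (h1 : x < 4096) (h2 : j < 256) : v (En 12 x j 5 0) ↔ M.Fn x j := by
  obtain ⟨e0, e1, e2, e3, e4⟩ := dec (kd := 12) (k := 5) (q := 0) (by norm_num) h1 h2 (by norm_num)
  rw [ag hv (by norm_num)]; unfold MdW.bv; rw [e0, e1, e2, e3, e4]; simp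
theorem bD (h1 : x < 4096) (h2 : j < 256) : v (En 12 x j 6 q) ↔ M.Df x j q := by
  obtain ⟨e0, e1, e2, e3, e4⟩ := dec (kd := 12) (k := 6) (q := q) (by norm_num) h1 h2 (by norm_num)
  rw [ag hv (by norm_num)]; unfold MdW.bv; rw [e0, e1, e2, e3, e4]; simp
theorem bJ (h1 : x < 4096) (h2 : j < 256) (h3 : k < 8) : v (En 13 x j k q) ↔ M.J k x j = q := by
  obtain ⟨e0, e1, e2, e3, e4⟩ := dec (kd := 13) (q := q) (by norm_num) h1 h2 h3
  rw [ag hv (by norm_num)]; unfold MdW.bv; rw [e0, e1, e2, e3, e4]; simp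
theorem bB (h1 : x < 4096) (h2 : j < 256) (h3 : k < 8) : v (En 14 x j k q) ↔ M.B x j k q := by
  obtain ⟨e0, e1, e2, e3, e4⟩ := dec (kd := 14) (q := q) (by norm_num) h1 h2 h3
  rw [ag hv (by norm_num)]; unfold MdW.bv; rw [e0, e1, e2, e3, e4]; simp

end

/-! ### lists of colours -/

/-- the literals `f i`, `i < n`, with `c i`, then `r` -/
def mf (c : ℕ → Bool) (f : ℕ → ℕ) (n : ℕ) (r : List ℕ) : List ℕ :=
  @Nat.rec (fun _ => List ℕ) r (fun i ih => bif c i then f i :: ih else ih) n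

/-- the literals `f i` for the colours `i ≠ q` -/
def ne (f : ℕ → ℕ) (q : ℕ) (r : List ℕ) : List ℕ := mf (fun i => !(Nat.beq i q)) f 6 r

/-- membership in a mask -/
def inm (m i : ℕ) : Bool := Nat.beq (Nat.land (Nat.shiftRight m i) 1) 1

/-- the literals `f i` for the colours of the mask -/
def im (f : ℕ → ℕ) (m : ℕ) (r : List ℕ) : List ℕ := mf (inm m) f 6 r

/-- the literals `f i` for the colours outside the mask -/
def om (f : ℕ → ℕ) (m : ℕ) (r : List ℕ) : List ℕ := mf (fun i => !(inm m i)) f 6 r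

/-- number of elements -/
def pc (m : ℕ) : ℕ := @Nat.rec (fun _ => ℕ) 0 (fun i ih => bif inm m i then Nat.succ ih else ih) 6

/-- the set of a mask -/
def sm (m : ℕ) : Finset ℕ := (Finset.range 6).filter fun i => inm m i = true

theorem mem_sm {m i : ℕ} : i ∈ sm m ↔ i < 6 ∧ inm m i = true := by
  unfold sm; rw [Finset.mem_filter, Finset.mem_range]

theorem sm_card (m : ℕ) : (sm m).card = pc m := by
  have key : ∀ n, ((Finset.range n).filter fun i => inm m i = true).card =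
      @Nat.rec (fun _ => ℕ) 0 (fun i ih => bif inm m i then Nat.succ ih else ih) n := by
    intro n
    induction n with
    | zero => rfl
    | succ n ih =>
      rw [Finset.range_add_one, Finset.filter_insert]
      show _ = bif inm m n then Nat.succ _ else _
      cases h : inm m n
      · rw [if_neg (by simp), cond_false, ih]
      · rw [if_pos rfl, cond_true, Finset.card_insert_of_notMem (by simp), ih]
  exact key 6

section
variable {v : ℕ → Prop} {f : ℕ → ℕ} {q m i n : ℕ} {r : List ℕ} {c : ℕ → Bool}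

theorem ho_mf_r (h : Ho v r) : Ho v (mf c f n r) := by
  induction n with
  | zero => exact h
  | succ n ih =>
    show Ho v (bif c n then f n :: mf c f n r else mf c f n r)
    cases c n
    · exact ih
    · exact ht ih

theorem ho_mf (hi : i < n) (hc : c i = true) (h : lv v (f i)) : Ho v (mf c f n r) := by
  induction n with
  | zero => exact absurd hi (Nat.not_lt_zero _)
  | succ n ih =>
    show Ho v (bif c n then f n :: mf c f n r else mf c f n r)
    rcases Nat.lt_succ_iff_lt_or_eq.1 hi with h1 | h1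
    · cases c n
      · exact ih h1
      · exact ht (ih h1)
    · subst h1; rw [hc, cond_true]; exact hh h

/-- either one of the literals is true or the rest -/
theorem ho_mf_or (h : (∀ i < n, c i = true → ¬ lv v (f i)) → Ho v r) : Ho v (mf c f n r) := by
  by_cases h1 : ∃ i < n, c i = true ∧ lv v (f i)
  · obtain ⟨i, hi, h2, h3⟩ := h1
    exact ho_mf hi h2 h3
  · push Not at h1
    exact ho_mf_r (h h1)

theorem nb_ne : (!(Nat.beq i q)) = true ↔ i ≠ q := by
  rw [Bool.not_eq_true', Bool.eq_false_iff, ne_eq, Nat.beq_eq]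

theorem ho_ne (hi : i < 6) (hq : i ≠ q) (h : lv v (f i)) : Ho v (ne f q r) := ho_mf hi (nb_ne.2 hq) h

/-- either a literal of another colour is true or the rest -/
theorem ho_ne_or (h : (∀ i < 6, i ≠ q → ¬ lv v (f i)) → Ho v r) : Ho v (ne f q r) :=
  ho_mf_or fun h1 => h fun i hi hq => h1 i hi (nb_ne.2 hq)

theorem ho_ne_r (h : Ho v r) : Ho v (ne f q r) := ho_mf_r h

theorem ho_im (hi : i < 6) (hm : inm m i = true) (h : lv v (f i)) : Ho v (im f m r) := ho_mf hi hm h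

theorem ho_im_or (h : (∀ i < 6, inm m i = true → ¬ lv v (f i)) → Ho v r) : Ho v (im f m r) := ho_mf_or h

theorem ho_om (hi : i < 6) (hm : inm m i = false) (h : lv v (f i)) : Ho v (om f m r) :=
  ho_mf hi (by rw [hm]; rfl) h

theorem ho_om_or (h : (∀ i < 6, inm m i = false → ¬ lv v (f i)) → Ho v r) : Ho v (om f m r) :=
  ho_mf_or fun h1 => h fun i hi hq => h1 i hi (by rw [hq]; rfl)

end

/-! ### small facts about the model -/

namespace MdW

variable {M : MdW K NP NW nb} {x n : ℕ}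

theorem not_fn (h : ¬ M.Fn x (n + 1)) : ∃ S : Finset ℕ, S.card ≤ n ∧ ∀ q < 6, M.T x q → q ∈ S := by
  classical
  refine ⟨(Finset.range 6).filter fun q => M.T x q, ?_, fun q hq h1 => ?_⟩
  · by_contra hcon
    refine h ⟨(Finset.range 6).filter fun q => M.T x q, by omega, fun q hq => ?_⟩
    rw [Finset.mem_filter, Finset.mem_range] at hq
    exact hq
  · rw [Finset.mem_filter, Finset.mem_range]; exact ⟨hq, h1⟩

theorem fn_le {S : Finset ℕ} (h : M.Fn x n) (hS : ∀ q < 6, M.T x q → q ∈ S) : n ≤ S.card := by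
  obtain ⟨S', h1, h2⟩ := h
  exact h1.trans (Finset.card_le_card fun q hq => hS q (h2 q hq).1 (h2 q hq).2)

end MdW

end Vale.Agent.P032.H240.W
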