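import Vale.Agent.P032.H240.W.GenA
import Vale.Agent.P032.H254.GenG
import Vale.Agent.P032.H374.MdG
import Vale.Agent.P032.H993.MdJ
import Vale.Agent.P032.H993.MdP

/-!
# P032: auxiliary bits of the wild model

The places `B x j k q` with `8 ≤ q`, `2 ≤ k ≤ 5` and `J k x j` with `4 ≤ k` are free for auxiliary bits.

* `MdW.setX` : the model with other bits there; `MdE`, `MdG`, `MdP`, `MdJ`, `WG`, `DZ` with their bits are preserved,
* `Law` : all rules, `LawZ` : also the zone block; `Ax` : the meaning of the auxiliary bits; `exists_ax`.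
-/

namespace Vale.Agent.P032.H240.W

open Vale.Agent.P032.H820.K (df ad hcell gk gt)
open Vale.Agent.P032.H993 (MdE MdP MdJ gcell)
open Vale.Agent.P032.H254 (DZ Exl NS2 WG BitW)
open Vale.Agent.P032.H374 (MdG nk nj)

variable {K NP NW : ℕ} {nb : ℕ → ℕ → ℕ}

/-- the model with other auxiliary bits -/
def MdW.setX (M : MdW K NP NW nb) (J' : ℕ → ℕ → ℕ → ℕ) (B' : ℕ → ℕ → ℕ → ℕ → Prop) : MdW K NP NW nb :=
  { M with
    J := fun k x j => if k < 4 then M.J k x j else J' k x j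
    B := fun x j k q => if 8 ≤ q ∧ 2 ≤ k ∧ k ≤ 5 then B' x j k q else M.B x j k q
    jlt := fun {k x j} hk hx hj => by
      show (if k < 4 then M.J k x j else J' k x j) < 6
      rw [if_pos hk]; exact M.jlt hk hx hj
    jv := fun {k x j} hk hx hj => by
      show M.V k x j (if k < 4 then M.J k x j else J' k x j)
      rw [if_pos hk]; exact M.jv hk hx hj
    jne := fun {k x j s} hk hx hj hs hn => by
      show (if k < 4 then M.J k x j else J' k x j) ≠ (if k < 4 then M.J k (nb x s) j else J' k (nb x s) j)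
      rw [if_pos hk, if_pos hk]; exact M.jne hk hx hj hs hn }

variable {M : MdW K NP NW nb} {J' : ℕ → ℕ → ℕ → ℕ} {B' : ℕ → ℕ → ℕ → ℕ → Prop}

theorem setX_B {x j k q : ℕ} (h : ¬ (8 ≤ q ∧ 2 ≤ k ∧ k ≤ 5)) : (M.setX J' B').B x j k q ↔ M.B x j k q := by
  show (if 8 ≤ q ∧ 2 ≤ k ∧ k ≤ 5 then B' x j k q else M.B x j k q) ↔ _
  rw [if_neg h]

theorem setX_B' {x j k q : ℕ} (h : 8 ≤ q ∧ 2 ≤ k ∧ k ≤ 5) : (M.setX J' B').B x j k q ↔ B' x j k q := by
  show (if 8 ≤ q ∧ 2 ≤ k ∧ k ≤ 5 then B' x j k q else M.B x j k q) ↔ _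
  rw [if_pos h]

theorem setX_J {k x j : ℕ} (h : 4 ≤ k) : (M.setX J' B').J k x j = J' k x j := by
  show (if k < 4 then M.J k x j else J' k x j) = _
  rw [if_neg (by omega)]

/-- bits of the graphs -/
theorem sB {x j k q : ℕ} (h : q < 6) : (M.setX J' B').B x j k q ↔ M.B x j k q := setX_B (by omega)

theorem mde_setX (he : MdE M) : MdE (M.setX J' B') where
  weq := he.weq
  noov := he.noov
  lX := he.lX
  l3 := he.l3
  w2l := he.w2l
  w2ll := he.w2ll
  esym := fun hx hi hj h => (sB hi).2 (he.esym hx hi hj ((sB hj).1 h))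
  eL := fun hx ht hs hi hj hij h1 h2 h3 => (sB hj).2 (he.eL hx ht hs hi hj hij h1 h2 h3)
  eN := fun hx hs hi hj hij hy h1 h2 h3 => (sB hj).2 (he.eN hx hs hi hj hij hy h1 h2 h3)
  eP := fun hx hs hi hj hij hy h1 h2 h3 => (sB hj).2 (he.eP hx hs hi hj hij hy h1 h2 h3)
  edeg := fun S hx hi h1 h2 h3 => by
    obtain ⟨d, hd, e, he', h4, h5, h6, h7, h8, h9, h10⟩ := he.edeg S hx hi h1 h2 h3
    exact ⟨d, hd, e, he', h4, h5, h6, h7, h8, fun h => h9 ((sB hd).1 h), fun h => h10 ((sB he').1 h)⟩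
  wsym := fun hx hi hj h => (sB hi).2 (he.wsym hx hi hj ((sB hj).1 h))
  wE := fun hx hi hj h h' => he.wE hx hi hj ((sB hj).1 h) ((sB hj).1 h')
  wL := fun hx ht hs hi hj h => he.wL hx ht hs hi hj ((sB hj).1 h)
  wN := fun hx hs hi hj hy h => he.wN hx hs hi hj hy ((sB hj).1 h)
  wdeg := fun S hx hi h1 h2 h3 => by
    obtain ⟨d, hd, e, he', h4, h5, h6, h7, h8, h9, h10⟩ := he.wdeg S hx hi h1 h2 h3
    exact ⟨d, hd, e, he', h4, h5, h6, h7, h8, (sB hd).2 h9, (sB he').2 h10⟩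

theorem mdg_setX (hg : MdG M) : MdG (M.setX J' B') where
  xr := hg.xr
  wc := fun S hk hx hj hi hl hiS hlS h1 h2 => by
    rcases hg.wc S hk hx hj hi hl hiS hlS h1 h2 with ⟨i', hi', l', hl', h3, h4, h5, h6, h7⟩ | h3
    · exact Or.inl ⟨i', hi', l', hl', h3, h4, h5, h6, (sB hl').2 h7⟩
    · exact Or.inr h3
  wu := fun S hk hx hj hi hl hiS hlS h1 h2 => by
    rcases hg.wu S hk hx hj hi hl hiS hlS h1 h2 with ⟨i', hi', l', hl', h3, h4, h5, h6, h7⟩ | h3
    · exact Or.inl ⟨i', hi', l', hl', h3, h4, h5, h6, (sB hl').2 h7⟩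
    · exact Or.inr h3

theorem mdp_setX (hp : MdP M) : MdP (M.setX J' B') where
  part := hp.part
  z1a := hp.z1a
  z1b := hp.z1b
  aro := hp.aro
  alo := hp.alo

/-- the joint colourings of the model with other auxiliary bits -/
def jset (Jd : MdJ M) (J' : ℕ → ℕ → ℕ → ℕ) (B' : ℕ → ℕ → ℕ → ℕ → Prop) : MdJ (M.setX J' B') where
  JE := Jd.JE
  jlt := Jd.jlt
  jne := Jd.jne
  jv := Jd.jv
  jl := Jd.jl
  jn := Jd.jn
  jx := Jd.jx

/-- the wedges of the model with other auxiliary bits -/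
def gset (G : WG M) (J' : ℕ → ℕ → ℕ → ℕ) (B' : ℕ → ℕ → ℕ → ℕ → Prop) : WG (M.setX J' B') where
  MW := G.MW
  ne := G.ne
  tw := G.tw
  secR := G.secR
  secL := G.secL
  disj := G.disj
  disj' := G.disj'
  both := G.both
  both' := G.both'
  kin := G.kin
  kout := G.kout
  oin := G.oin
  oout := G.oout
  hin := G.hin
  hout := G.hout

theorem bitw_setX {G : WG M} (h : BitW M G) : BitW (M.setX J' B') (gset G J' B') :=
  ⟨fun hx ht hs hq => (sB hq).trans (h.bw hx ht hs hq)⟩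

theorem ns2_setX {y t i j : ℕ} (h : NS2 M y t i j) : NS2 (M.setX J' B') y t i j := ⟨h.far, h.m1, h.m2, h.near⟩

theorem exl_setX {t sd i j : ℕ} (h : Exl M t sd i j) : Exl (M.setX J' B') t sd i j := ⟨h.l1, h.l2, h.f4, h.f5⟩

theorem exl_setX' {t sd i j : ℕ} (h : Exl (M.setX J' B') t sd i j) : Exl M t sd i j := ⟨h.l1, h.l2, h.f4, h.f5⟩

/-- the zone block of the model with other auxiliary bits -/
def zsetX (Z : DZ M) (J' : ℕ → ℕ → ℕ → ℕ) (B' : ℕ → ℕ → ℕ → ℕ → Prop) : DZ (M.setX J' B') where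
  Zc := Z.Zc
  Za := Z.Za
  E := Z.E
  MW := Z.MW
  t0 := Z.t0
  x0 := Z.x0
  zlt := Z.zlt
  zhalf := Z.zhalf
  za0 := Z.za0
  zatop := Z.zatop
  zamono := Z.zamono
  zcza := Z.zcza
  zeven := Z.zeven
  lA := Z.lA
  lB := Z.lB
  lC := Z.lC
  lC' := Z.lC'
  lD := Z.lD
  lD' := Z.lD'
  lex := fun ht hs h4 h5 => (Z.lex ht hs h4 h5).imp exl_setX exl_setX
  lex1 := fun ht hs hq h => Z.lex1 ht hs hq (exl_setX' h)
  lex2 := fun ht hs hq h => Z.lex2 ht hs hq (exl_setX' h)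
  lAB := fun ht hs h => Z.lAB ht hs (exl_setX' h)
  lCD := fun ht hs h => Z.lCD ht hs (exl_setX' h)
  nA := fun ht hn h => ns2_setX (Z.nA ht hn h)
  nB := fun ht hn h h' => ns2_setX (Z.nB ht hn h h')
  nC := fun ht hn h h' => ns2_setX (Z.nC ht hn h h')
  nC' := fun ht hn h h' => ns2_setX (Z.nC' ht hn h h')
  nD := fun ht hn h h' => ns2_setX (Z.nD ht hn h h')
  nD' := fun ht hn h h' => ns2_setX (Z.nD' ht hn h h')
  pCD := Z.pCD
  pAB := Z.pAB
  mR := Z.mR
  mL := Z.mL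
  mne := Z.mne
  d0 := fun ht hs hq h => Z.d0 ht hs hq (exl_setX' h)
  d0' := fun ht hs hq h => Z.d0' ht hs hq (exl_setX' h)
  d4 := fun ht hs hq h => Z.d4 ht hs hq (exl_setX' h)
  d4' := fun ht hs hq h => Z.d4' ht hs hq (exl_setX' h)
  d2 := fun ht hs hq h => Z.d2 ht hs hq (exl_setX' h)
  d6 := fun ht hs hq h => Z.d6 ht hs hq (exl_setX' h)
  mdis := Z.mdis
  mdis' := Z.mdis'

theorem bz_setX {Z : DZ M} (h : BZ M Z) : BZ (M.setX J' B') (zsetX Z J' B') where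
  w0 := h.w0
  zc := fun ht hk hc => (setX_B (by omega)).trans (h.zc ht hk hc)
  za := fun hi => (setX_B (by omega)).trans (h.za hi)
  ze := (setX_B (by omega)).trans h.ze
  zx0 := fun ht hs => ((setX_B (by omega)).trans (h.zx0 ht hs)).trans ⟨exl_setX, exl_setX'⟩
  zx1 := fun ht hs => ((setX_B (by omega)).trans (h.zx1 ht hs)).trans ⟨exl_setX, exl_setX'⟩
  zm := fun ht hs hq => (sB hq).trans (h.zm ht hs hq)

/-! ### the rules together -/

/-- all rules -/
structure Law (M : MdW K NP NW nb) : Prop where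
  e : MdE M
  g : MdG M
  p : MdP M
  j : Nonempty (MdJ M)
  w : ∃ G : WG M, BitW M G

/-- all rules and the zone block -/
structure LawZ (M : MdW K NP NW nb) : Prop extends Law M where
  z : ∃ Z : DZ M, BZ M Z

section
variable (M)

/-- partner outside -/
def PO (x s q : ℕ) : Prop :=
  (∀ k < 4, ∀ j < 6 * K, hcell K k j s = true → ∃ r < 6, r ≠ q ∧ M.V k x j r) ∧
    (nb x s < NP → M.P (nb x s) q ∧ ∃ k < 4, ∃ j < 6 * K, hcell K k j (ad K s (3 * K)) = false ∧ M.PV k (nb x s) j q) ∧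
    (∃ r < 6, r ≠ q ∧ (M.V 1 x s r ∨ M.V 2 x s r)) ∧
    ∃ r < 6, r ≠ q ∧ (M.V 3 x (ad K s (3 * K)) r ∨ M.V 2 x (ad K s (3 * K)) r)

/-- partner inside -/
def PI (x s q : ℕ) : Prop :=
  (∀ k < 4, ∀ j < 6 * K, hcell K k j s = false → ∃ r < 6, r ≠ q ∧ M.V k x j r) ∧
    (nb x s < NP → M.P (nb x s) q ∧ ∃ k < 4, ∃ j < 6 * K, hcell K k j (ad K s (3 * K)) = true ∧ M.PV k (nb x s) j q) ∧
    (∃ r < 6, r ≠ q ∧ (M.V 1 x s r ∨ M.V 2 x s r)) ∧
    ∃ r < 6, r ≠ q ∧ (M.V 3 x (ad K s (3 * K)) r ∨ M.V 2 x (ad K s (3 * K)) r)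

/-- partner between the directions -/
def PF (x s q : ℕ) : Prop :=
  (∀ k < 4, ∀ j < 6 * K, gcell K k j s = true → ∃ r < 6, r ≠ q ∧ M.V k x j r) ∧
    (∃ r < 6, r ≠ q ∧ M.V 0 x s r) ∧ ∃ r < 6, r ≠ q ∧ M.V 0 x (ad K s (3 * K)) r

/-- the auxiliary bits -/
def xb (x j k q : ℕ) : Prop :=
  if k = 4 then
    (if q / 8 = 1 then PO M x j (q % 8) else if q / 8 = 2 then PI M x j (q % 8) else PF M x j (q % 8))
  else
    (if q / 64 < 5 then
      (if q / 8 % 8 = 6 then ∀ r < 6, M.V (q / 64 - 1) x j r else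
        M.V (q / 64 - 1) x j (q / 8 % 8) ∧ M.V (q / 64 - 1) x j (q % 8) ∧ M.B x (q / 8 % 8) 5 (q % 8))
    else if q / 64 < 9 then
      (if q / 8 % 8 = 6 then ∀ r < 6, M.V (q / 64 - 5) x j r ∨ M.V (nk (q / 64 - 5)) x (nj K (q / 64 - 5) j) r else
       if q / 8 % 8 = 7 then M.V (q / 64 - 5) x j (q % 8) ∧ M.V (nk (q / 64 - 5)) x (nj K (q / 64 - 5) j) (q % 8) else
        (M.V (q / 64 - 5) x j (q / 8 % 8) ∨ M.V (nk (q / 64 - 5)) x (nj K (q / 64 - 5) j) (q / 8 % 8)) ∧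
        (M.V (q / 64 - 5) x j (q % 8) ∨ M.V (nk (q / 64 - 5)) x (nj K (q / 64 - 5) j) (q % 8)) ∧
          M.B x (q / 8 % 8) 5 (q % 8))
    else
      M.V (q / 64 - 9) x j (q / 8 % 8) ∧ M.V (nk (q / 64 - 9)) x (nj K (q / 64 - 9) j) (q % 8) ∧
        M.B x (q / 8 % 8) 5 (q % 8))

end

/-- the meaning of the auxiliary bits -/
structure Ax (M : MdW K NP NW nb) (Jd : MdJ M) : Prop where
  je : ∀ {t sd io x}, sd < 2 → io < 2 → M.J (2 * sd + io + 4) x t = Jd.JE t sd io x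
  po : ∀ {x s q}, q < 6 → (M.B x s 4 (8 + q) ↔ PO M x s q)
  pi : ∀ {x s q}, q < 6 → (M.B x s 4 (16 + q) ↔ PI M x s q)
  pf : ∀ {x s q}, q < 6 → (M.B x s 4 (24 + q) ↔ PF M x s q)
  ed : ∀ {k x j i l}, k < 4 → i < 6 → l < 6 →
    (M.B x j 5 (64 * (k + 1) + (8 * i + l)) ↔ M.V k x j i ∧ M.V k x j l ∧ M.B x i 5 l)
  al : ∀ {k x j}, k < 4 → (M.B x j 5 (64 * (k + 1) + 48) ↔ ∀ r < 6, M.V k x j r)
  eu : ∀ {k x j i l}, k < 4 → i < 6 → l < 6 → (M.B x j 5 (64 * (k + 5) + (8 * i + l)) ↔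
    (M.V k x j i ∨ M.V (nk k) x (nj K k j) i) ∧ (M.V k x j l ∨ M.V (nk k) x (nj K k j) l) ∧ M.B x i 5 l)
  au : ∀ {k x j}, k < 4 → (M.B x j 5 (64 * (k + 5) + 48) ↔ ∀ r < 6, M.V k x j r ∨ M.V (nk k) x (nj K k j) r)
  cu : ∀ {k x j l}, k < 4 → l < 6 → (M.B x j 5 (64 * (k + 5) + (56 + l)) ↔ M.V k x j l ∧ M.V (nk k) x (nj K k j) l)
  aw : ∀ {k x j i l}, k < 4 → i < 6 → l < 6 → (M.B x j 5 (64 * (k + 9) + (8 * i + l)) ↔
    M.V k x j i ∧ M.V (nk k) x (nj K k j) l ∧ M.B x i 5 l)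

/-- the colourings at the places `4 ≤ k` -/
def jx' (Jd : MdJ M) (k x j : ℕ) : ℕ := Jd.JE j ((k - 4) / 2) ((k - 4) % 2) x

theorem exists_ax (Jd : MdJ M) : Ax (M.setX (jx' Jd) (xb M)) (jset Jd (jx' Jd) (xb M)) where
  je := fun {t sd io x} hs hi => by
    rw [setX_J (by omega)]
    show Jd.JE t ((2 * sd + io + 4 - 4) / 2) ((2 * sd + io + 4 - 4) % 2) x = Jd.JE t sd io x
    rw [show (2 * sd + io + 4 - 4) / 2 = sd by omega, show (2 * sd + io + 4 - 4) % 2 = io by omega]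
  po := fun {x s q} hq => by
    rw [setX_B' (by omega)]
    unfold xb
    rw [if_pos rfl, if_pos (by omega), show (8 + q) % 8 = q by omega]
    exact Iff.rfl
  pi := fun {x s q} hq => by
    rw [setX_B' (by omega)]
    unfold xb
    rw [if_pos rfl, if_neg (by omega), if_pos (by omega), show (16 + q) % 8 = q by omega]
    exact Iff.rfl
  pf := fun {x s q} hq => by
    rw [setX_B' (by omega)]
    unfold xb
    rw [if_pos rfl, if_neg (by omega), if_neg (by omega), show (24 + q) % 8 = q by omega]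
    exact Iff.rfl
  ed := fun {k x j i l} hk hi hl => by
    rw [setX_B' (by omega)]
    unfold xb
    rw [if_neg (by norm_num), if_pos (by omega), if_neg (by omega), sB hl,
      show (64 * (k + 1) + (8 * i + l)) / 64 - 1 = k by omega, show (64 * (k + 1) + (8 * i + l)) / 8 % 8 = i by omega,
      show (64 * (k + 1) + (8 * i + l)) % 8 = l by omega]
    exact Iff.rfl
  al := fun {k x j} hk => by
    rw [setX_B' (by omega)]
    unfold xb
    rw [if_neg (by norm_num), if_pos (by omega), if_pos (by omega), show (64 * (k + 1) + 48) / 64 - 1 = k by omega]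
    exact Iff.rfl
  eu := fun {k x j i l} hk hi hl => by
    rw [setX_B' (by omega)]
    unfold xb
    rw [if_neg (by norm_num), if_neg (by omega), if_pos (by omega), if_neg (by omega), if_neg (by omega), sB hl,
      show (64 * (k + 5) + (8 * i + l)) / 64 - 5 = k by omega, show (64 * (k + 5) + (8 * i + l)) / 8 % 8 = i by omega,
      show (64 * (k + 5) + (8 * i + l)) % 8 = l by omega]
    exact Iff.rfl
  au := fun {k x j} hk => by
    rw [setX_B' (by omega)]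
    unfold xb
    rw [if_neg (by norm_num), if_neg (by omega), if_pos (by omega), if_pos (by omega),
      show (64 * (k + 5) + 48) / 64 - 5 = k by omega]
    exact Iff.rfl
  cu := fun {k x j l} hk hl => by
    rw [setX_B' (by omega)]
    unfold xb
    rw [if_neg (by norm_num), if_neg (by omega), if_pos (by omega), if_neg (by omega), if_pos (by omega),
      show (64 * (k + 5) + (56 + l)) / 64 - 5 = k by omega, show (64 * (k + 5) + (56 + l)) % 8 = l by omega]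
    exact Iff.rfl
  aw := fun {k x j i l} hk hi hl => by
    rw [setX_B' (by omega)]
    unfold xb
    rw [if_neg (by norm_num), if_neg (by omega), if_neg (by omega), sB hl,
      show (64 * (k + 9) + (8 * i + l)) / 64 - 9 = k by omega, show (64 * (k + 9) + (8 * i + l)) / 8 % 8 = i by omega,
      show (64 * (k + 9) + (8 * i + l)) % 8 = l by omega]
    exact Iff.rfl

/-- legal atoms of external clauses: not auxiliary, not defined -/
def okA (n : ℕ) : Bool :=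
  !(Nat.beq (Nat.mod n 16) 15) && !(Nat.beq (Nat.mod n 16) 13 && Nat.ble 4 (Nat.mod (Nat.div n 16777216) 8)) &&
    !(Nat.beq (Nat.mod n 16) 14 && Nat.ble 8 (Nat.div n 134217728) && Nat.ble 2 (Nat.mod (Nat.div n 16777216) 8) &&
      Nat.ble (Nat.mod (Nat.div n 16777216) 8) 5)

/-- legal external clauses -/
def okC (e : List (List ℕ)) : Bool := e.all fun c => c.all fun l => okA (l / 2)

theorem bv_setX {n : ℕ} (h : okA n = true) : (M.setX J' B').bv n ↔ M.bv n := by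
  unfold okA at h
  rw [Bool.and_eq_true, Bool.and_eq_true, nbne, Bool.not_eq_true', Bool.not_eq_true', Bool.eq_false_iff,
    Bool.eq_false_iff] at h
  obtain ⟨⟨h15, h13'⟩, h14'⟩ := h
  change ¬ (n % 16 = 15) at h15
  have h13 : ¬ (n % 16 = 13 ∧ 4 ≤ n / 16777216 % 8) := fun hc => h13' (by
    rw [Bool.and_eq_true, nbeq, Nat.ble_eq]; exact hc)
  have h14 : ¬ (((n % 16 = 14 ∧ 8 ≤ n / 134217728) ∧ 2 ≤ n / 16777216 % 8) ∧ n / 16777216 % 8 ≤ 5) := fun hc => h14' (by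
    rw [Bool.and_eq_true, Bool.and_eq_true, Bool.and_eq_true, nbeq, Nat.ble_eq, Nat.ble_eq, Nat.ble_eq]; exact hc)
  have e : Vale.Agent.P032.H820.K.a0 n = n % 16 := rfl
  have e3 : Vale.Agent.P032.H820.K.a3 n = n / 16777216 % 8 := rfl
  have e4 : Vale.Agent.P032.H820.K.a4 n = n / 134217728 := rfl
  have hlt := Nat.mod_lt n (show 0 < 16 by norm_num)
  by_cases c13 : n % 16 = 13
  · have hk : n / 16777216 % 8 < 4 := by
      by_contra h1
      exact h13 ⟨c13, by omega⟩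
    unfold MdW.bv
    rw [e, e3, c13]
    show (M.setX J' B').J (n / 16777216 % 8) _ _ = _ ↔ M.J (n / 16777216 % 8) _ _ = _
    show (if n / 16777216 % 8 < 4 then M.J (n / 16777216 % 8) _ _ else _) = _ ↔ M.J (n / 16777216 % 8) _ _ = _
    rw [if_pos hk]
  by_cases c14 : n % 16 = 14
  · unfold MdW.bv
    rw [e, e3, e4, c14]
    exact setX_B fun h1 => h14 ⟨⟨⟨c14, h1.1⟩, h1.2.1⟩, h1.2.2⟩
  unfold MdW.bv
  rw [e]
  generalize n % 16 = m at h15 c13 c14 hlt
  interval_cases m <;> first | exact Iff.rfl | exact absurd rfl h15 | exact absurd rfl c13 | exact absurd rfl c14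

theorem ho_setX {e : List (List ℕ)} {t : ℕ → List ℕ} (h : okC e = true) (he : ∀ c ∈ e, Ho M.bv c) :
    ∀ c ∈ e, Ho (vx (M.setX J' B').bv t) c := by
  intro c hc
  obtain ⟨l, hl, h1⟩ := he c hc
  have h2 : okA (l / 2) = true := List.all_eq_true.1 (List.all_eq_true.1 h c hc) l hl
  refine ⟨l, hl, ?_⟩
  have h3 := bv_setX (J' := J') (B' := B') (M := M) h2
  have h4 : l / 2 % 16 ≠ 15 := by
    intro h5
    unfold okA at h2
    rw [Bool.and_eq_true, Bool.and_eq_true, nbne] at h2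
    exact h2.1.1 h5
  have h5 : vx (M.setX J' B').bv t (l / 2) ↔ (M.setX J' B').bv (l / 2) := by
    unfold vx
    rw [if_neg h4]
  unfold lv at h1 ⊢
  rw [h5, h3]
  exact h1

end Vale.Agent.P032.H240.W
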