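import Vale.Agent.P032.H240.W.GenZ2

/-!
# P032: a model whose bits carry the zone block

* `MdW.setB` : the model with other bits,
* `exists_bz` : for a model `M` with a zone block there are bits `b` which agree with `M.B` except at the places of the
  zone block, and a zone block `Z'` of `M.setB b` (the same data) with `BZ (M.setB b) Z'`.
-/

namespace Vale.Agent.P032.H240.W

open Vale.Agent.P032.H820.K (df ad)
open Vale.Agent.P032.H254 (DZ Exl NS2)

variable {K NP NW : ℕ} {nb : ℕ → ℕ → ℕ}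

/-- the model with other bits -/
def MdW.setB (M : MdW K NP NW nb) (b : ℕ → ℕ → ℕ → ℕ → Prop) : MdW K NP NW nb := { M with B := b }

variable {M : MdW K NP NW nb} {b : ℕ → ℕ → ℕ → ℕ → Prop}

theorem ns2_setB {y t i j : ℕ} (h : NS2 M y t i j) : NS2 (M.setB b) y t i j := ⟨h.far, h.m1, h.m2, h.near⟩

theorem exl_setB {t sd i j : ℕ} (h : Exl M t sd i j) : Exl (M.setB b) t sd i j := ⟨h.l1, h.l2, h.f4, h.f5⟩

theorem exl_setB' {t sd i j : ℕ} (h : Exl (M.setB b) t sd i j) : Exl M t sd i j := ⟨h.l1, h.l2, h.f4, h.f5⟩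

/-- the zone block of the model with other bits -/
def zset (Z : DZ M) (b : ℕ → ℕ → ℕ → ℕ → Prop) : DZ (M.setB b) where
  Zc := Z.Zc
  Za := Z.Za
  E := Z.E
  MW := Z.MW
  t0 := Z.t0
  x0 := Z.x0
  zlt := Z.zlt
  zhalf := Z.zhalf
  za0 := Z.za0
  zatop := Z.zatop
  zamono := Z.zamono
  zcza := Z.zcza
  zeven := Z.zeven
  lA := Z.lA
  lB := Z.lB
  lC := Z.lC
  lC' := Z.lC'
  lD := Z.lD
  lD' := Z.lD'
  lex := fun ht hs h4 h5 => (Z.lex ht hs h4 h5).imp exl_setB exl_setB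
  lex1 := fun ht hs hq h => Z.lex1 ht hs hq (exl_setB' h)
  lex2 := fun ht hs hq h => Z.lex2 ht hs hq (exl_setB' h)
  lAB := fun ht hs h => Z.lAB ht hs (exl_setB' h)
  lCD := fun ht hs h => Z.lCD ht hs (exl_setB' h)
  nA := fun ht hn h => ns2_setB (Z.nA ht hn h)
  nB := fun ht hn h h' => ns2_setB (Z.nB ht hn h h')
  nC := fun ht hn h h' => ns2_setB (Z.nC ht hn h h')
  nC' := fun ht hn h h' => ns2_setB (Z.nC' ht hn h h')
  nD := fun ht hn h h' => ns2_setB (Z.nD ht hn h h')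
  nD' := fun ht hn h h' => ns2_setB (Z.nD' ht hn h h')
  pCD := Z.pCD
  pAB := Z.pAB
  mR := Z.mR
  mL := Z.mL
  mne := Z.mne
  d0 := fun ht hs hq h => Z.d0 ht hs hq (exl_setB' h)
  d0' := fun ht hs hq h => Z.d0' ht hs hq (exl_setB' h)
  d4 := fun ht hs hq h => Z.d4 ht hs hq (exl_setB' h)
  d4' := fun ht hs hq h => Z.d4' ht hs hq (exl_setB' h)
  d2 := fun ht hs hq h => Z.d2 ht hs hq (exl_setB' h)
  d6 := fun ht hs hq h => Z.d6 ht hs hq (exl_setB' h)
  mdis := Z.mdis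
  mdis' := Z.mdis'

/-- the bits of the zone block, elsewhere `b` -/
def zb (Z : DZ M) (b : ℕ → ℕ → ℕ → ℕ → Prop) (x j k q : ℕ) : Prop :=
  if k = 6 then Z.Zc (x / 3) (x % 3) = q else
  if k = 7 then (if j = 0 then q ≤ Z.Za x else if j = 1 then Z.E else Exl M x (j - 2) (2 * q) (2 * q + 1)) else
  if x = 0 ∧ k < 2 then Z.MW j k q else b x j k q

theorem bz_zb (Z : DZ M) (h : 0 < NW) (b : ℕ → ℕ → ℕ → ℕ → Prop) : BZ (M.setB (zb Z b)) (zset Z (zb Z b)) := by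
  refine ⟨h, ?_, ?_, ?_, ?_, ?_, ?_⟩
  · intro t k c ht hk hc
    show zb Z b (3 * t + k) 0 6 c ↔ Z.Zc t k = c
    unfold zb
    rw [if_pos rfl, show (3 * t + k) / 3 = t by omega, show (3 * t + k) % 3 = k by omega]
  · intro i n hi
    exact Iff.rfl
  · exact Iff.rfl
  · intro t sd ht hs
    show zb Z b t (sd + 2) 7 0 ↔ Exl (M.setB (zb Z b)) t sd 0 1
    unfold zb
    rw [if_neg (by norm_num), if_pos rfl, if_neg (by omega), if_neg (by omega), show sd + 2 - 2 = sd by omega]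
    exact ⟨exl_setB, exl_setB'⟩
  · intro t sd ht hs
    show zb Z b t (sd + 2) 7 1 ↔ Exl (M.setB (zb Z b)) t sd 2 3
    unfold zb
    rw [if_neg (by norm_num), if_pos rfl, if_neg (by omega), if_neg (by omega), show sd + 2 - 2 = sd by omega]
    exact ⟨exl_setB, exl_setB'⟩
  · intro t sd q ht hs hq
    show zb Z b 0 t sd q ↔ Z.MW t sd q
    unfold zb
    rw [if_neg (by omega), if_neg (by omega), if_pos ⟨rfl, hs⟩]

/-- **A model whose bits carry the zone block.** -/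
theorem exists_bz (Z : DZ M) (h : 0 < NW) : ∃ (b : ℕ → ℕ → ℕ → ℕ → Prop) (Z' : DZ (M.setB b)), BZ (M.setB b) Z' ∧
    Z'.Zc = Z.Zc ∧ Z'.Za = Z.Za ∧ (Z'.E ↔ Z.E) ∧ Z'.MW = Z.MW ∧
      ∀ x j k q, k < 6 → (x = 0 → 2 ≤ k) → (b x j k q ↔ M.B x j k q) := by
  refine ⟨zb Z M.B, zset Z (zb Z M.B), bz_zb Z h M.B, rfl, rfl, Iff.rfl, rfl, fun x j k q hk hx => ?_⟩
  unfold zb
  rw [if_neg (by omega), if_neg (by omega), if_neg (fun h1 => by have := hx h1.1; omega)]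

end Vale.Agent.P032.H240.W
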