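import Vale.Agent.P032.H240.W.Atm

/-!
# P032: the clauses of the wild model of germs, by code, part 1: cells, palettes, solid cells
-/

namespace Vale.Agent.P032.H240.W

open Vale.Agent.P032.H820.K (df ad hcell gk gt nbf En mp ps ng trv cd lb lb_iff cix ad_lt)

/-- `V k x j q` as a literal -/
def lV (k x j q : ℕ) : ℕ := ps (En 0 x j k q)

/-- some colour in every cell -/
def c0 (K NP NW TB x j k : ℕ) : List ℕ := cd (lb x NP && lb j (Nat.mul 6 K) && lb k 4) (mp (lV k x j) 6 [])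

def c1 (K NP NW TB x j k q : ℕ) : List ℕ :=
  cd (lb x NP && lb j (Nat.mul 6 K) && lb k 4 && lb q 6) [ng (En 0 x j k q), ps (En 4 x 0 0 q)]

def c2 (K NP NW TB x q : ℕ) : List ℕ :=
  cd (lb x NP && lb q 6) (ng (En 4 x 0 0 q) ::
    mp (fun i => ps (En 0 x (Nat.mod i (Nat.mul 6 K)) (Nat.div i (Nat.mul 6 K)) q)) (Nat.mul 24 K) [])

def c3 (K NP NW TB x q : ℕ) : List ℕ :=
  cd (lb x NP && lb q 6) (ng (En 6 x 0 0 0) :: ng (En 4 x 0 0 q) :: ne (fun r => ps (En 4 x 0 0 r)) q [])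

def c4 (K NP NW TB x j k s q : ℕ) : List ℕ :=
  cd (lb x NP && lb j (Nat.mul 6 K) && lb k 4 && lb s (Nat.mul 6 K) && lb q 6 && hcell K k j s)
    [ng (En 0 x j k q), ps (En 2 x s 0 q)]

def c5 (K NP NW TB x q : ℕ) : List ℕ := cd (lb x NP && lb q 6) [ng (En 4 x 0 0 q), ps (En 5 x 0 0 q)]

def c6 (K NP NW TB x j k q : ℕ) : List ℕ :=
  cd (lb x NP && lb j (Nat.mul 6 K) && lb k 4 && lb q 6) [ng (En 1 x j k q), ps (En 5 x 0 0 q)]

def c7 (K NP NW TB x j k q : ℕ) : List ℕ :=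
  cd (lb x NP && lb j (Nat.mul 6 K) && lb k 4 && lb q 6) [ng (En 0 x j k q), ps (En 1 x j k q)]

def c8 (K NP NW TB x q : ℕ) : List ℕ :=
  cd (lb x NP && lb q 6) (ng (En 5 x 0 0 q) ::
    mp (fun i => ps (En 1 x (Nat.mod i (Nat.mul 6 K)) (Nat.div i (Nat.mul 6 K)) q)) (Nat.mul 24 K) [])

def c9 (K NP NW TB x j k s q : ℕ) : List ℕ :=
  cd (lb x NP && lb j (Nat.mul 6 K) && lb k 4 && lb s (Nat.mul 6 K) && lb q 6 && hcell K k j s)
    [ng (En 1 x j k q), ps (En 3 x s 0 q)]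

def c10 (K NP NW TB x s q : ℕ) : List ℕ :=
  cd (lb x NP && lb s (Nat.mul 6 K) && lb q 6) [ng (En 2 x s 0 q), ps (En 3 x s 0 q)]

def c11 (K NP NW TB x t q : ℕ) : List ℕ :=
  cd (lb x NP && lb t (Nat.mul 6 K) && lb q 6 && lb (nbf K TB x t) NP)
    [ng (En 4 x 0 0 q), ng (En 5 (nbf K TB x t) 0 0 q), ps (En 6 x 0 0 0)]

/-- W1 -/
def c12 (K NP NW TB x s q : ℕ) : List ℕ :=
  cd (lb x NP && lb s (Nat.mul 6 K) && lb q 6 && lb (nbf K TB x s) NP)
    (ng (En 5 (nbf K TB x s) 0 0 q) :: ne (fun r => ps (En 4 x 0 0 r)) q [])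

/-- W2, for the palette `m` -/
def c13 (K NP NW TB x s m : ℕ) : List ℕ :=
  cd (lb x NP && lb s (Nat.mul 6 K) && lb (nbf K TB x s) NP && Nat.ble (pc m) 3)
    (im (fun r => ng (En 4 x 0 0 r)) m (om (fun r => ps (En 4 x 0 0 r)) m
      (om (fun r => ps (En 4 (nbf K TB x s) 0 0 r)) m [])))

/-- W2, with the counter -/
def c14 (K NP NW TB x s : ℕ) : List ℕ :=
  cd (lb x NP && lb s (Nat.mul 6 K) && lb (nbf K TB x s) NP)
    (ps (En 12 x 4 5 0) :: mp (fun q => ps (En 12 x s 6 q)) 6 [])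

/-- the difference atoms -/
def c15 (K NP NW TB x s q b : ℕ) : List ℕ :=
  cd (lb x NP && lb s (Nat.mul 6 K) && lb q 6 && lb (nbf K TB x s) NP)
    (bif Nat.beq b 0 then [ng (En 12 x s 6 q), ps (En 4 (nbf K TB x s) 0 0 q)] else
     bif Nat.beq b 1 then [ng (En 12 x s 6 q), ng (En 4 x 0 0 q)] else
      [ps (En 12 x s 6 q), ng (En 4 (nbf K TB x s) 0 0 q), ps (En 4 x 0 0 q)])

def c16 (K NP NW TB x n m : ℕ) : List ℕ :=
  cd (lb x NP && lb (pc m) n && lb n 8) (ng (En 12 x n 5 0) :: om (fun r => ps (En 4 x 0 0 r)) m [])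

def c17 (K NP NW TB x n m : ℕ) : List ℕ :=
  cd (lb x NP && Nat.ble n (pc m) && lb n 8) (ps (En 12 x n 5 0) :: im (fun r => ng (En 4 x 0 0 r)) m [])

/-- lemma X -/
def c18 (K NP NW TB x s r t : ℕ) : List ℕ :=
  cd (lb x NP && lb s (Nat.mul 6 K) && lb r (Nat.mul 6 K) && lb t 6 && lb (nbf K TB x s) NP &&
      lb (nbf K TB (nbf K TB x s) r) NP && !(Nat.beq r s) && !(Nat.beq r (ad K s (Nat.mul 3 K))))
    (ng (En 5 (nbf K TB (nbf K TB x s) r) 0 0 t) :: ps (En 12 x 4 5 0) :: ne (fun q => ps (En 12 x s 6 q)) t [])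

/-- lemma B -/
def c19 (K NP NW TB x s r i j : ℕ) : List ℕ :=
  cd (lb x NP && lb s (Nat.mul 6 K) && lb r (Nat.mul 6 K) && lb i 6 && lb j 6 && lb (nbf K TB x s) NP &&
      lb (nbf K TB x r) NP && !(Nat.beq r s) && !(Nat.beq r (ad K s (Nat.mul 3 K))))
    (ng (En 5 (nbf K TB x s) 0 0 i) :: ng (En 5 (nbf K TB x r) 0 0 j) ::
      mf (fun q => !(Nat.beq q i) && !(Nat.beq q j)) (fun q => ps (En 4 x 0 0 q)) 6 [])

/-- cells of one colour -/
def c20 (K NP NW TB x j k q i b : ℕ) : List ℕ :=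
  cd (lb x NP && lb j (Nat.mul 6 K) && lb k 4 && lb q 6 && lb i 6)
    (bif Nat.beq b 0 then cd (!(Nat.beq i q)) [ng (En 8 x j k q), ng (En 0 x j k i)] else
      (ps (En 8 x j k q) :: ne (lV k x j) q []))

/-- the four atoms at the neighbour `y = x + u(s)` -/
def tgt (K y s q i : ℕ) : ℕ :=
  bif Nat.beq i 0 then En 3 y s 0 q else bif Nat.beq i 1 then En 1 y s 2 q else
  bif Nat.beq i 2 then En 1 y (ad K s (Nat.mul 3 K)) 2 q else En 3 y (ad K s (Nat.mul 3 K)) 0 q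

/-- SOL -/
def c21 (K NP NW TB x j k s q i : ℕ) : List ℕ :=
  cd (lb x NP && lb j (Nat.mul 6 K) && lb k 4 && lb s (Nat.mul 6 K) && lb q 6 && lb i 4 && lb (nbf K TB x s) NP &&
      (bif Nat.beq i 3 then !(hcell K k j s) else hcell K k j s))
    [ng (En 8 x j k q), ng (tgt K (nbf K TB x s) s q i)]

def c22 (K NP NW TB x j k s q i : ℕ) : List ℕ :=
  cd (lb x NP && lb j (Nat.mul 6 K) && lb k 4 && lb s (Nat.mul 6 K) && lb q 6 && lb i 4 && lb (nbf K TB x s) NP &&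
      (bif Nat.beq i 3 then !(hcell K k j s) else hcell K k j s))
    (ng (tgt K (nbf K TB x s) s q i) :: ne (lV k x j) q [])

/-- no cell of one colour in a half plane -/
def c23 (K NP NW TB x j k s q : ℕ) : List ℕ :=
  cd (lb x NP && lb j (Nat.mul 6 K) && lb k 4 && lb s (Nat.mul 6 K) && lb q 6 && hcell K k j s)
    (ng (En 7 x s 0 q) :: ne (lV k x j) q [])

def c24 (K NP NW TB x j k s q : ℕ) : List ℕ :=
  cd (lb x NP && lb j (Nat.mul 6 K) && lb k 4 && lb s (Nat.mul 6 K) && lb q 6 && hcell K k j s)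
    [ng (En 7 x s 0 q), ng (En 8 x j k q)]

def c25 (K NP NW TB x s q i : ℕ) : List ℕ :=
  cd (lb x NP && lb s (Nat.mul 6 K) && lb q 6 && lb i 4 && lb (nbf K TB x s) NP)
    [ng (tgt K (nbf K TB x s) s q i), ps (En 7 x (bif Nat.beq i 3 then ad K s (Nat.mul 3 K) else s) 0 q)]

/-- R1' -/
def c26 (K NP NW TB x s q b : ℕ) : List ℕ :=
  cd (lb x NP && lb s (Nat.mul 6 K) && lb q 6 && lb (nbf K TB x s) NP)
    (ng (En 5 (nbf K TB x s) 0 0 q) :: bif Nat.beq b 0 then ne (lV 1 x s) q (ne (lV 2 x s) q []) else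
      ne (lV 3 x (ad K s (Nat.mul 3 K))) q (ne (lV 2 x (ad K s (Nat.mul 3 K))) q []))

/-! ### soundness -/

theorem nbeq {a b : ℕ} : Nat.beq a b = true ↔ a = b :=
  ⟨Nat.eq_of_beq_eq_true, fun h => h ▸ Nat.beq_refl a⟩

theorem nbne {a b : ℕ} : (!(Nat.beq a b)) = true ↔ a ≠ b := by
  rw [Bool.not_eq_true', Bool.eq_false_iff, ne_eq, Nat.beq_eq]

theorem nbf0 {a b : ℕ} (h : a ≠ b) : Nat.beq a b = false := by
  rw [Bool.eq_false_iff, ne_eq, Nat.beq_eq]; exact h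

theorem hcell_iff {K k j s : ℕ} : hcell K k j s = true ↔ (k = 0 ∧ 3 * K ≤ df K j s) ∨
    (k ≠ 0 ∧ (3 * K + 1 ≤ df K j s ∨ (k = 1 ∧ df K j s = 0) ∨ (k = 3 ∧ df K j s = 3 * K))) := by
  have e7 : Nat.mul 3 K = 3 * K := rfl
  unfold hcell
  rw [e7]
  by_cases h0 : k = 0
  · subst h0
    simp
  · rw [nbf0 h0, cond_false]
    simp only [Bool.or_eq_true, Bool.and_eq_true, nbeq, Nat.ble_eq, Nat.succ_eq_add_one]
    constructor
    · rintro ((h1 | h1) | h1)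
      · exact Or.inr ⟨h0, Or.inl h1⟩
      · exact Or.inr ⟨h0, Or.inr (Or.inl h1)⟩
      · exact Or.inr ⟨h0, Or.inr (Or.inr h1)⟩
    · rintro (⟨h1, -⟩ | ⟨-, h1 | h1 | h1⟩)
      · exact absurd h1 h0
      · exact Or.inl (Or.inl h1)
      · exact Or.inl (Or.inr h1)
      · exact Or.inr h1

theorem ad_cases {K s : ℕ} (hs : s < 6 * K) :
    ad K s (3 * K) = s + 3 * K ∧ s < 3 * K ∨ ad K s (3 * K) + 3 * K = s := by
  have e2 : ad K s (3 * K) = (s + 3 * K) % (6 * K) := rfl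
  rw [e2]
  rcases Nat.lt_or_ge (s + 3 * K) (6 * K) with h1 | h1
  · left; rw [Nat.mod_eq_of_lt h1]; omega
  · right; rw [Nat.mod_eq_sub_mod h1, Nat.mod_eq_of_lt (by omega)]; omega

/-- the opposite half plane -/
theorem hcell_opp {K k j s : ℕ} (hK : 0 < K) (hj : j < 6 * K) (hs : s < 6 * K)
    (h : hcell K k j (ad K s (3 * K)) = true) : hcell K k j s = false := by
  have e1 : df K j s = (j + 6 * K - s) % (6 * K) := rfl
  have e3 : df K j (ad K s (3 * K)) = (j + 6 * K - ad K s (3 * K)) % (6 * K) := rfl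
  have e4 := ad_cases hs
  have e5 : ∀ a, a < 12 * K → a % (6 * K) = if a < 6 * K then a else a - 6 * K := by
    intro a ha
    split_ifs with h1
    · exact Nat.mod_eq_of_lt h1
    · rw [Nat.mod_eq_sub_mod (by omega), Nat.mod_eq_of_lt (by omega)]
  have e6 : df K j (ad K s (3 * K)) = df K j s + 3 * K ∧ df K j s < 3 * K ∨
      df K j s = df K j (ad K s (3 * K)) + 3 * K ∧ df K j (ad K s (3 * K)) < 3 * K := by
    rw [e1, e3]
    generalize ad K s (3 * K) = s' at e4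
    rcases Nat.eq_zero_or_pos s with h0 | h0
    · subst h0
      rw [show j + 6 * K - 0 = j + 6 * K by omega, Nat.add_mod_right, Nat.mod_eq_of_lt hj,
        e5 (j + 6 * K - s') (by omega)]
      split_ifs <;> omega
    · rw [e5 (j + 6 * K - s) (by omega)]
      rcases Nat.eq_zero_or_pos s' with h1 | h1
      · subst h1
        rw [show j + 6 * K - 0 = j + 6 * K by omega, Nat.add_mod_right, Nat.mod_eq_of_lt hj]
        split_ifs <;> omega
      · rw [e5 (j + 6 * K - s') (by omega)]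
        split_ifs <;> omega
  rw [Bool.eq_false_iff]
  intro h'
  have h1 := hcell_iff.1 h
  have h2 := hcell_iff.1 h'
  omega

section
variable {K NP NW TB : ℕ} {M : MdW K NP NW (nbf K TB)} {v : ℕ → Prop} (hv : Ag M v)
include hv

theorem h0 (x j k : ℕ) : Ho v (c0 K NP NW TB x j k) := by
  refine ho_cd fun h => ?_
  have hK := M.hK
  have hNP := M.hNP
  simp only [Bool.and_eq_true, lb_iff, Nat.mul_eq] at h
  obtain ⟨⟨hx, hj⟩, hk⟩ := h
  obtain ⟨q, hq, h1⟩ := M.cell hk hx hj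
  exact ho_mp hq (lv_ps.2 ((bV hv (by omega) (by omega) (by omega)).2 h1))

theorem h1 (x j k q : ℕ) : Ho v (c1 K NP NW TB x j k q) := by
  refine ho_cd fun h => ?_
  have hK := M.hK
  have hNP := M.hNP
  simp only [Bool.and_eq_true, lb_iff, Nat.mul_eq] at h
  obtain ⟨⟨⟨hx, hj⟩, hk⟩, hq⟩ := h
  exact hn fun h1 => hp ((bT hv (by omega)).2 (M.vt hk hx hj hq ((bV hv (by omega) (by omega) (by omega)).1 h1)))

theorem h2 (x q : ℕ) : Ho v (c2 K NP NW TB x q) := by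
  refine ho_cd fun h => ?_
  have hK := M.hK
  have hNP := M.hNP
  simp only [Bool.and_eq_true, lb_iff, Nat.mul_eq] at h
  obtain ⟨hx, hq⟩ := h
  refine hn fun h1 => ?_
  obtain ⟨k, hk, j, hj, h2⟩ := M.tv hx hq ((bT hv (by omega)).1 h1)
  obtain ⟨e0, e1, e2⟩ := cix (K := K) hk hj
  refine ho_mp (i := 6 * K * k + j) e0 (lv_ps.2 ?_)
  rw [Nat.mul_eq, e1, e2]
  exact (bV hv (by omega) (by omega) (by omega)).2 h2

theorem h3 (x q : ℕ) : Ho v (c3 K NP NW TB x q) := by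
  refine ho_cd fun h => ?_
  have hNP := M.hNP
  simp only [Bool.and_eq_true, lb_iff] at h
  obtain ⟨hx, hq⟩ := h
  refine hn fun h1 => hn fun h2 => ?_
  obtain ⟨r, hr, hrq, h3⟩ := M.xx2 hx hq ((bX hv (by omega)).1 h1) ((bT hv (by omega)).1 h2)
  exact ho_ne hr hrq (lv_ps.2 ((bT hv (by omega)).2 h3))

theorem h4 (x j k s q : ℕ) : Ho v (c4 K NP NW TB x j k s q) := by
  refine ho_cd fun h => ?_
  have hK := M.hK
  have hNP := M.hNP
  simp only [Bool.and_eq_true, lb_iff, Nat.mul_eq] at h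
  obtain ⟨⟨⟨⟨⟨hx, hj⟩, hk⟩, hs⟩, hq⟩, hc⟩ := h
  exact hn fun h1 => hp ((bH hv (by omega) (by omega)).2
    (M.vh hk hx hj hs hq hc ((bV hv (by omega) (by omega) (by omega)).1 h1)))

theorem h5 (x q : ℕ) : Ho v (c5 K NP NW TB x q) := by
  refine ho_cd fun h => ?_
  have hNP := M.hNP
  simp only [Bool.and_eq_true, lb_iff] at h
  obtain ⟨hx, hq⟩ := h
  exact hn fun h1 => hp ((bP hv (by omega)).2 (M.tp hx hq ((bT hv (by omega)).1 h1)))

theorem h6 (x j k q : ℕ) : Ho v (c6 K NP NW TB x j k q) := by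
  refine ho_cd fun h => ?_
  have hK := M.hK
  have hNP := M.hNP
  simp only [Bool.and_eq_true, lb_iff, Nat.mul_eq] at h
  obtain ⟨⟨⟨hx, hj⟩, hk⟩, hq⟩ := h
  exact hn fun h1 => hp ((bP hv (by omega)).2 (M.pvp hk hx hj hq ((bPV hv (by omega) (by omega) (by omega)).1 h1)))

theorem h7 (x j k q : ℕ) : Ho v (c7 K NP NW TB x j k q) := by
  refine ho_cd fun h => ?_
  have hK := M.hK
  have hNP := M.hNP
  simp only [Bool.and_eq_true, lb_iff, Nat.mul_eq] at h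
  obtain ⟨⟨⟨hx, hj⟩, hk⟩, hq⟩ := h
  exact hn fun h1 => hp ((bPV hv (by omega) (by omega) (by omega)).2
    (M.vpv hk hx hj hq ((bV hv (by omega) (by omega) (by omega)).1 h1)))

theorem h8 (x q : ℕ) : Ho v (c8 K NP NW TB x q) := by
  refine ho_cd fun h => ?_
  have hK := M.hK
  have hNP := M.hNP
  simp only [Bool.and_eq_true, lb_iff, Nat.mul_eq] at h
  obtain ⟨hx, hq⟩ := h
  refine hn fun h1 => ?_
  obtain ⟨k, hk, j, hj, h2⟩ := M.ppv hx hq ((bP hv (by omega)).1 h1)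
  obtain ⟨e0, e1, e2⟩ := cix (K := K) hk hj
  refine ho_mp (i := 6 * K * k + j) e0 (lv_ps.2 ?_)
  rw [Nat.mul_eq, e1, e2]
  exact (bPV hv (by omega) (by omega) (by omega)).2 h2

theorem h9 (x j k s q : ℕ) : Ho v (c9 K NP NW TB x j k s q) := by
  refine ho_cd fun h => ?_
  have hK := M.hK
  have hNP := M.hNP
  simp only [Bool.and_eq_true, lb_iff, Nat.mul_eq] at h
  obtain ⟨⟨⟨⟨⟨hx, hj⟩, hk⟩, hs⟩, hq⟩, hc⟩ := h
  exact hn fun h1 => hp ((bPH hv (by omega) (by omega)).2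
    (M.pvh hk hx hj hs hq hc ((bPV hv (by omega) (by omega) (by omega)).1 h1)))

theorem h10 (x s q : ℕ) : Ho v (c10 K NP NW TB x s q) := by
  refine ho_cd fun h => ?_
  have hK := M.hK
  have hNP := M.hNP
  simp only [Bool.and_eq_true, lb_iff, Nat.mul_eq] at h
  obtain ⟨⟨hx, hs⟩, hq⟩ := h
  exact hn fun h1 => hp ((bPH hv (by omega) (by omega)).2 (M.hph hx hs hq ((bH hv (by omega) (by omega)).1 h1)))

theorem h11 (x t q : ℕ) : Ho v (c11 K NP NW TB x t q) := by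
  refine ho_cd fun h => ?_
  have hNP := M.hNP
  simp only [Bool.and_eq_true, lb_iff, Nat.mul_eq] at h
  obtain ⟨⟨⟨hx, ht⟩, hq⟩, hn'⟩ := h
  exact hn fun h1 => hn fun h2 => hp ((bX hv (by omega)).2
    (M.xxp hx ht hq hn' ((bT hv (by omega)).1 h1) ((bP hv (by omega)).1 h2)))

theorem h12 (x s q : ℕ) : Ho v (c12 K NP NW TB x s q) := by
  refine ho_cd fun h => ?_
  have hNP := M.hNP
  simp only [Bool.and_eq_true, lb_iff, Nat.mul_eq] at h
  obtain ⟨⟨⟨hx, hs⟩, hq⟩, hn'⟩ := h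
  refine hn fun h1 => ho_ne_or fun h2 => ?_
  exact absurd ((bP hv (by omega)).1 h1) (M.w1 hx hs hq hn' fun r hr hrq h3 =>
    h2 r hr hrq (lv_ps.2 ((bT hv (by omega)).2 h3)))

theorem h13 (x s m : ℕ) : Ho v (c13 K NP NW TB x s m) := by
  refine ho_cd fun h => ?_
  have hNP := M.hNP
  simp only [Bool.and_eq_true, lb_iff, Nat.mul_eq, Nat.ble_eq] at h
  obtain ⟨⟨⟨hx, hs⟩, hn'⟩, hm⟩ := h
  refine ho_im_or fun h1 => ho_om_or fun h2 => ho_om_or fun h3 => ?_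
  exfalso
  obtain ⟨q, hq, h4, h5⟩ := M.w2 (sm m) hx hs hn' (by rw [sm_card]; exact hm) fun q hq h4 => by
    rw [mem_sm]
    refine ⟨hq, ?_⟩
    by_contra h5
    exact h2 q hq (Bool.eq_false_iff.2 h5) (lv_ps.2 ((bT hv (by omega)).2 h4))
  cases h6 : inm m q
  · exact h3 q hq h6 (lv_ps.2 ((bT hv (by omega)).2 h4))
  · exact h1 q hq h6 (lv_ng.2 fun h7 => h5 ((bT hv (by omega)).1 h7))

theorem h14 (x s : ℕ) : Ho v (c14 K NP NW TB x s) := by
  refine ho_cd fun h => ?_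
  have hNP := M.hNP
  have hK := M.hK
  simp only [Bool.and_eq_true, lb_iff, Nat.mul_eq] at h
  obtain ⟨⟨hx, hs⟩, hn'⟩ := h
  refine hp' fun h1 => ?_
  obtain ⟨S, hS, h2⟩ := MdW.not_fn (n := 3) fun h3 => h1 ((bF hv (by omega) (by norm_num)).2 h3)
  obtain ⟨q, hq, h4⟩ := M.w2 S hx hs hn' hS h2
  exact ho_mp hq (lv_ps.2 ((bD hv (by omega) (by omega)).2 h4))

theorem h15 (x s q b : ℕ) : Ho v (c15 K NP NW TB x s q b) := by
  refine ho_cd fun h => ?_
  have hNP := M.hNP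
  have hK := M.hK
  simp only [Bool.and_eq_true, lb_iff, Nat.mul_eq] at h
  obtain ⟨⟨⟨hx, hs⟩, hq⟩, hn'⟩ := h
  refine ho_bif ?_ (ho_bif ?_ ?_)
  · exact hn fun h1 => hp ((bT hv (by omega)).2 ((bD hv (by omega) (by omega)).1 h1).1)
  · exact hn fun h1 => hng fun h2 => ((bD hv (by omega) (by omega)).1 h1).2 ((bT hv (by omega)).1 h2)
  · refine hp' fun h1 => hn fun h2 => hp' fun h3 => ?_
    exact absurd ((bD hv (by omega) (by omega)).2 ⟨(bT hv (by omega)).1 h2, fun h4 => h3 ((bT hv (by omega)).2 h4)⟩) h1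

theorem h16 (x n m : ℕ) : Ho v (c16 K NP NW TB x n m) := by
  refine ho_cd fun h => ?_
  have hNP := M.hNP
  simp only [Bool.and_eq_true, lb_iff] at h
  obtain ⟨⟨hx, hm⟩, hn8⟩ := h
  refine hn fun h1 => ho_om_or fun h2 => ?_
  have h3 := MdW.fn_le (S := sm m) ((bF hv (by omega) (by omega)).1 h1) fun q hq h4 => by
    rw [mem_sm]
    refine ⟨hq, ?_⟩
    by_contra h5
    exact h2 q hq (Bool.eq_false_iff.2 h5) (lv_ps.2 ((bT hv (by omega)).2 h4))
  rw [sm_card] at h3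
  omega

theorem h17 (x n m : ℕ) : Ho v (c17 K NP NW TB x n m) := by
  refine ho_cd fun h => ?_
  have hNP := M.hNP
  simp only [Bool.and_eq_true, lb_iff, Nat.ble_eq] at h
  obtain ⟨⟨hx, hm⟩, hn8⟩ := h
  refine hp' fun h1 => ho_im_or fun h2 => ?_
  exfalso
  refine h1 ((bF hv (by omega) (by omega)).2 ⟨sm m, by rw [sm_card]; exact hm, fun q hq => ?_⟩)
  rw [mem_sm] at hq
  refine ⟨hq.1, ?_⟩
  by_contra h3
  exact h2 q hq.1 hq.2 (lv_ng.2 fun h4 => h3 ((bT hv (by omega)).1 h4))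

theorem h18 (x s r t : ℕ) : Ho v (c18 K NP NW TB x s r t) := by
  refine ho_cd fun h => ?_
  have hNP := M.hNP
  have hK := M.hK
  simp only [Bool.and_eq_true, lb_iff, Nat.mul_eq, nbne] at h
  obtain ⟨⟨⟨⟨⟨⟨⟨hx, hs⟩, hr⟩, ht'⟩, hn'⟩, hn2⟩, h1⟩, h2⟩ := h
  refine hn fun h3 => hp' fun h4 => ho_ne_or fun h5 => ?_
  obtain ⟨S, hS, h6⟩ := MdW.not_fn (n := 3) fun h7 => h4 ((bF hv (by omega) (by norm_num)).2 h7)
  refine absurd ((bP hv (by omega)).1 h3) (M.lx S hx hs hr ht' hn' hn2 h1 h2 hS h6 fun q hq h7 => ?_)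
  by_contra h8
  push Not at h8
  exact h5 q hq h8.2 (lv_ps.2 ((bD hv (by omega) (by omega)).2 ⟨h7, h8.1⟩))

theorem h19 (x s r i j : ℕ) : Ho v (c19 K NP NW TB x s r i j) := by
  refine ho_cd fun h => ?_
  have hNP := M.hNP
  have hK := M.hK
  simp only [Bool.and_eq_true, lb_iff, Nat.mul_eq, nbne] at h
  obtain ⟨⟨⟨⟨⟨⟨⟨⟨hx, hs⟩, hr⟩, hi⟩, hj⟩, hn'⟩, hn2⟩, h1⟩, h2⟩ := h
  refine hn fun h3 => hn fun h4 => ho_mf_or fun h5 => ?_
  refine absurd ((bP hv (by omega)).1 h4) (M.lb hx hs hr hi hj hn' hn2 h1 h2 (fun q hq h6 => ?_)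
    ((bP hv (by omega)).1 h3))
  by_contra h8
  push Not at h8
  refine h5 q hq ?_ (lv_ps.2 ((bT hv (by omega)).2 h6))
  rw [Bool.and_eq_true, nbne, nbne]
  exact h8

theorem h20 (x j k q i b : ℕ) : Ho v (c20 K NP NW TB x j k q i b) := by
  refine ho_cd fun h => ?_
  have hNP := M.hNP
  have hK := M.hK
  simp only [Bool.and_eq_true, lb_iff, Nat.mul_eq] at h
  obtain ⟨⟨⟨⟨hx, hj⟩, hk⟩, hq⟩, hi⟩ := h
  refine ho_bif (ho_cd fun h => ?_) ?_
  · rw [nbne] at h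
    exact hn fun h1 => hng fun h2 => (bPu hv (by omega) (by omega) (by omega)).1 h1 i hi h
      ((bV hv (by omega) (by omega) (by omega)).1 h2)
  · refine hp' fun h1 => ho_ne_or fun h2 => ?_
    exfalso
    refine h1 ((bPu hv (by omega) (by omega) (by omega)).2 fun r hr hrq h3 => ?_)
    exact h2 r hr hrq (lv_ps.2 ((bV hv (by omega) (by omega) (by omega)).2 h3))

/-- a cell of one colour kills the atoms at the neighbour -/
theorem tg_kill {x j k s q i : ℕ} (hx : x < NP) (hj : j < 6 * K) (hk : k < 4) (hs : s < 6 * K) (hq : q < 6)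
    (hi : i < 4) (hn' : nbf K TB x s < NP)
    (hc : (bif Nat.beq i 3 then !(hcell K k j s) else hcell K k j s) = true) (hP : M.Pu k x j q) :
    ¬ v (tgt K (nbf K TB x s) s q i) := by
  have hNP := M.hNP
  have hK := M.hK
  have hadl := ad_lt (K := K) (a := s) (s := 3 * K) M.hK0
  interval_cases i
  · obtain ⟨h1, -, -⟩ := M.si hk hx hj hs hq hn' hc hP
    exact fun h2 => h1 ((bPH hv (by omega) (by omega)).1 h2)
  · obtain ⟨-, h1, -⟩ := M.si hk hx hj hs hq hn' hc hP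
    exact fun h2 => h1 ((bPV hv (by omega) (by omega) (by norm_num)).1 h2)
  · obtain ⟨-, -, h1⟩ := M.si hk hx hj hs hq hn' hc hP
    exact fun h2 => h1 ((bPV hv (by omega) (by omega) (by norm_num)).1 h2)
  · have hc : (!(hcell K k j s)) = true := hc
    have h1 := M.so hk hx hj hs hq hn' (by simpa using hc) hP
    exact fun h2 => h1 ((bPH hv (by omega) (by omega)).1 h2)

theorem h21 (x j k s q i : ℕ) : Ho v (c21 K NP NW TB x j k s q i) := by
  refine ho_cd fun h => ?_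
  have hNP := M.hNP
  have hK := M.hK
  simp only [Bool.and_eq_true, lb_iff, Nat.mul_eq] at h
  obtain ⟨⟨⟨⟨⟨⟨⟨hx, hj⟩, hk⟩, hs⟩, hq⟩, hi⟩, hn'⟩, hc⟩ := h
  exact hn fun h1 => hng (tg_kill hv hx hj hk hs hq hi hn' hc ((bPu hv (by omega) (by omega) (by omega)).1 h1))

theorem h22 (x j k s q i : ℕ) : Ho v (c22 K NP NW TB x j k s q i) := by
  refine ho_cd fun h => ?_
  have hNP := M.hNP
  have hK := M.hK
  simp only [Bool.and_eq_true, lb_iff, Nat.mul_eq] at h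
  obtain ⟨⟨⟨⟨⟨⟨⟨hx, hj⟩, hk⟩, hs⟩, hq⟩, hi⟩, hn'⟩, hc⟩ := h
  refine hn fun h1 => ho_ne_or fun h2 => ?_
  refine absurd h1 (tg_kill hv hx hj hk hs hq hi hn' hc fun r hr hrq h3 => ?_)
  exact h2 r hr hrq (lv_ps.2 ((bV hv (by omega) (by omega) (by omega)).2 h3))

theorem h23 (x j k s q : ℕ) : Ho v (c23 K NP NW TB x j k s q) := by
  refine ho_cd fun h => ?_
  have hNP := M.hNP
  have hK := M.hK
  simp only [Bool.and_eq_true, lb_iff, Nat.mul_eq] at h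
  obtain ⟨⟨⟨⟨⟨hx, hj⟩, hk⟩, hs⟩, hq⟩, hc⟩ := h
  refine hn fun h1 => ho_ne_or fun h2 => ?_
  refine absurd (fun r hr hrq h3 => ?_) ((bNS hv (by omega) (by omega)).1 h1 k hk j hj hc)
  exact h2 r hr hrq (lv_ps.2 ((bV hv (by omega) (by omega) (by omega)).2 h3))

theorem h24 (x j k s q : ℕ) : Ho v (c24 K NP NW TB x j k s q) := by
  refine ho_cd fun h => ?_
  have hNP := M.hNP
  have hK := M.hK
  simp only [Bool.and_eq_true, lb_iff, Nat.mul_eq] at h
  obtain ⟨⟨⟨⟨⟨hx, hj⟩, hk⟩, hs⟩, hq⟩, hc⟩ := h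
  exact hn fun h1 => hng fun h2 => (bNS hv (by omega) (by omega)).1 h1 k hk j hj hc
    ((bPu hv (by omega) (by omega) (by omega)).1 h2)

theorem h25 (x s q i : ℕ) : Ho v (c25 K NP NW TB x s q i) := by
  refine ho_cd fun h => ?_
  have hNP := M.hNP
  have hK := M.hK
  have hadl := ad_lt (K := K) (a := s) (s := 3 * K) M.hK0
  simp only [Bool.and_eq_true, lb_iff, Nat.mul_eq] at h
  obtain ⟨⟨⟨⟨hx, hs⟩, hq⟩, hi⟩, hn'⟩ := h
  refine hn fun h1 => hp ?_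
  have e : Nat.mul 3 K = 3 * K := rfl
  rw [e]
  by_cases h3 : i = 3
  · subst h3
    rw [Nat.beq_refl, cond_true, bNS hv (by omega) (by omega)]
    intro k hk j hj hc hP
    refine tg_kill hv (i := 3) hx hj hk hs hq hi hn' ?_ hP h1
    rw [Nat.beq_refl, cond_true, hcell_opp M.hK0 hj hs hc]; rfl
  · rw [nbf0 h3, cond_false, bNS hv (by omega) (by omega)]
    intro k hk j hj hc hP
    refine tg_kill hv (i := i) hx hj hk hs hq hi hn' ?_ hP h1
    rw [nbf0 h3, cond_false, hc]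

theorem h26 (x s q b : ℕ) : Ho v (c26 K NP NW TB x s q b) := by
  refine ho_cd fun h => ?_
  have hNP := M.hNP
  have hK := M.hK
  have hadl := ad_lt (K := K) (a := s) (s := 3 * K) M.hK0
  simp only [Bool.and_eq_true, lb_iff, Nat.mul_eq] at h
  obtain ⟨⟨⟨hx, hs⟩, hq⟩, hn'⟩ := h
  refine hn fun h1 => ?_
  have h1 := (bP hv (by omega)).1 h1
  have e : Nat.mul 3 K = 3 * K := rfl
  rw [e]
  refine ho_bif ?_ ?_
  · obtain ⟨r, hr, hrq, h2 | h2⟩ := M.th1 hx hs hq hn' h1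
    · exact ho_ne hr hrq (lv_ps.2 ((bV hv (by omega) (by omega) (by norm_num)).2 h2))
    · exact ho_ne_r (ho_ne hr hrq (lv_ps.2 ((bV hv (by omega) (by omega) (by norm_num)).2 h2)))
  · obtain ⟨r, hr, hrq, h2 | h2⟩ := M.th2 hx hs hq hn' h1
    · exact ho_ne hr hrq (lv_ps.2 ((bV hv (by omega) (by omega) (by norm_num)).2 h2))
    · exact ho_ne_r (ho_ne hr hrq (lv_ps.2 ((bV hv (by omega) (by omega) (by norm_num)).2 h2)))

end

end Vale.Agent.P032.H240.W
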