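import Vale.Agent.P032.H240.W.Gen1

/-!
# P032: the clauses of the wild model of germs, by code, part 2: letters
-/

namespace Vale.Agent.P032.H240.W

open Vale.Agent.P032.H820.K (df ad hcell gk gt nbf En mp ps ng trv cd lb lb_iff cix ad_lt)

/-- L1; `b = 2 sd + io` -/
def c27 (K NP NW TB x t b : ℕ) : List ℕ :=
  cd (lb x NW && lb t (Nat.mul 6 K) && lb b 4) (mp (fun q => ps (En 11 x t b q)) 6 [])

/-- L2 -/
def c28 (K NP NW TB x t sd q : ℕ) : List ℕ :=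
  cd (lb x NW && lb t (Nat.mul 6 K) && lb sd 2 && lb q 6)
    (ng (En 5 x 0 0 q) :: ne (fun r => ps (En 11 x t (Nat.add sd 4) r)) q [])

def c29 (K NP NW TB x t sd io q : ℕ) : List ℕ :=
  cd (lb x NW && lb t (Nat.mul 6 K) && lb sd 2 && lb io 2 && lb q 6)
    [ng (En 11 x t (Nat.add (Nat.mul 2 sd) io) q), ps (En 11 x t (Nat.add sd 4) q)]

def c30 (K NP NW TB x t sd q : ℕ) : List ℕ :=
  cd (lb x NW && lb t (Nat.mul 6 K) && lb sd 2 && lb q 6)
    [ng (En 11 x t (Nat.add sd 4) q), ps (En 11 x t (Nat.mul 2 sd) q), ps (En 11 x t (Nat.succ (Nat.mul 2 sd)) q)]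

/-- L3 -/
def c31 (K NP NW TB x t sd q : ℕ) : List ℕ :=
  cd (lb x NW && lb t (Nat.mul 6 K) && lb sd 2 && lb q 6)
    [ng (En 11 x t (Nat.add sd 4) q), ng (En 11 x (ad K t K) (Nat.add sd 4) q)]

/-- L4 -/
def c32 (K NP NW TB x s t sd q : ℕ) : List ℕ :=
  cd (lb x NW && lb s (Nat.mul 6 K) && lb t (Nat.mul 6 K) && lb sd 2 && lb q 6 && lb (nbf K TB x s) NW)
    [ng (En 11 x t (Nat.add sd 4) q), ng (En 11 (nbf K TB x s) t (Nat.add sd 4) q)]

/-- L5 -/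
def c33 (K NP NW TB x t sd : ℕ) : List ℕ :=
  cd (lb x NW && lb t (Nat.mul 6 K) && lb sd 2)
    (ps (En 12 x 4 5 0) :: mp (fun q => ps (En 11 x t (Nat.add sd 6) q)) 6 [])

def c34 (K NP NW TB x t sd q b : ℕ) : List ℕ :=
  cd (lb x NW && lb t (Nat.mul 6 K) && lb sd 2 && lb q 6)
    (bif Nat.beq b 0 then [ng (En 11 x t (Nat.add sd 6) q), ps (En 11 x t (Nat.add sd 4) q)] else
     bif Nat.beq b 1 then [ng (En 11 x t (Nat.add sd 6) q), ng (En 4 x 0 0 q)] else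
      [ps (En 11 x t (Nat.add sd 6) q), ng (En 11 x t (Nat.add sd 4) q), ps (En 4 x 0 0 q)])

/-- L6 -/
def c35 (K NP NW TB x t sd q : ℕ) : List ℕ :=
  cd (lb x NW && lb t (Nat.mul 6 K) && lb sd 2 && lb q 6)
    [ng (En 11 x t (Nat.add sd 4) q), ng (En 4 x 0 0 q), ps (En 6 x 0 0 0)]

def c36 (K NP NW TB x t sd r : ℕ) : List ℕ :=
  cd (lb x NW && lb t (Nat.mul 6 K) && lb sd 2)
    (ng (En 6 x 0 0 0) :: ne (fun q => ps (En 7 x t (Nat.succ sd) q)) r [])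

def c37 (K NP NW TB x t sd q b : ℕ) : List ℕ :=
  cd (lb x NW && lb t (Nat.mul 6 K) && lb sd 2 && lb q 6)
    (bif Nat.beq b 0 then [ng (En 7 x t (Nat.succ sd) q), ps (En 4 x 0 0 q)] else
     bif Nat.beq b 1 then [ng (En 7 x t (Nat.succ sd) q), ng (En 11 x t (Nat.add sd 4) q)] else
      [ps (En 7 x t (Nat.succ sd) q), ng (En 4 x 0 0 q), ps (En 11 x t (Nat.add sd 4) q)])

/-- L7, glue -/
def c38 (K NP NW TB x t sd io q : ℕ) : List ℕ :=
  cd (lb x NW && lb t (Nat.mul 6 K) && lb sd 2 && lb io 2 && lb q 6 && lb (nbf K TB x t) NP)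
    [ng (En 11 x t (Nat.add (Nat.mul 2 sd) io) q), ps (En 0 (nbf K TB x t) (gt K sd t) (gk sd io) q)]

def c39 (K NP NW TB x t sd q : ℕ) : List ℕ :=
  cd (lb x NW && lb t (Nat.mul 6 K) && lb sd 2 && lb q 6 && lb (nbf K TB x t) NP)
    [ng (En 11 x t (Nat.add sd 4) q), ps (En 0 (nbf K TB x t) (gt K sd t) (gk sd 0) q),
      ps (En 0 (nbf K TB x t) (gt K sd t) (gk sd 1) q)]

/-- L8, a cell of one colour against a letter; `b = 2 sd + io` -/
def c40 (K NP NW TB x t b k j q : ℕ) : List ℕ :=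
  cd (lb x NW && lb t (Nat.mul 6 K) && lb b 4 && lb k 4 && lb j (Nat.mul 6 K) && lb q 6 &&
      scell K (Nat.div b 2) (Nat.mod b 2) k j t)
    [ng (En 8 x j k q), ng (En 11 x t b q)]

def c41 (K NP NW TB x t b k j q : ℕ) : List ℕ :=
  cd (lb x NW && lb t (Nat.mul 6 K) && lb b 4 && lb k 4 && lb j (Nat.mul 6 K) && lb q 6 &&
      scell K (Nat.div b 2) (Nat.mod b 2) k j t)
    (ng (En 11 x t b q) :: ne (lV k x j) q [])

/-- a one coloured letter against a cell -/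
def c42 (K NP NW TB x t b k j q : ℕ) : List ℕ :=
  cd (lb x NW && lb t (Nat.mul 6 K) && lb b 4 && lb k 4 && lb j (Nat.mul 6 K) && lb q 6 &&
      vcell K (Nat.div b 2) (Nat.mod b 2) k j t)
    (ng (En 1 x j k q) :: ne (fun r => ps (En 11 x t b r)) q [])

/-- mixed rule -/
def c43 (K NP NW TB x t sd p q : ℕ) : List ℕ :=
  cd (lb x NW && lb t (Nat.mul 6 K) && lb sd 2 && lb p 6 && lb q 6)
    [ng (En 11 x t (Nat.add sd 4) p), ng (En 5 x 0 0 p), ng (En 11 x t (Nat.succ (Nat.mul 2 sd)) q), ps (En 5 x 0 0 q)]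

def c44 (K NP NW TB x t sd p q : ℕ) : List ℕ :=
  cd (lb x NW && lb t (Nat.mul 6 K) && lb sd 2 && lb p 6 && lb q 6 && lb (nbf K TB x t) NP &&
      lb (nbf K TB (nbf K TB x t) t) NP)
    [ng (En 11 x t (Nat.add sd 4) p), ng (En 5 x 0 0 p), ng (En 11 x t (Nat.add sd 4) q), ps (En 5 x 0 0 q),
      ps (En 5 (nbf K TB (nbf K TB x t) t) 0 0 q)]

/-- chosen letters -/
def c45 (K NP NW TB x t b : ℕ) : List ℕ :=
  cd (lb x NW && lb t (Nat.mul 6 K) && lb b 4) (mp (fun q => ps (En 9 x t b q)) 6 [])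

def c46 (K NP NW TB x t b q r : ℕ) : List ℕ :=
  cd (lb x NW && lb t (Nat.mul 6 K) && lb b 4 && !(Nat.beq q r)) [ng (En 9 x t b q), ng (En 9 x t b r)]

def c47 (K NP NW TB x t b q : ℕ) : List ℕ :=
  cd (lb x NW && lb t (Nat.mul 6 K) && lb b 4 && lb q 6) [ng (En 9 x t b q), ps (En 11 x t b q)]

def c48 (K NP NW TB x t sd q : ℕ) : List ℕ :=
  cd (lb x NW && lb t (Nat.mul 6 K) && lb sd 2 && lb q 6)
    [ng (En 9 x t (Nat.mul 2 sd) q), ng (En 9 x t (Nat.succ (Nat.mul 2 sd)) q), ng (En 5 x 0 0 q)]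

def c49 (K NP NW TB x t sd p q : ℕ) : List ℕ :=
  cd (lb x NW && lb t (Nat.mul 6 K) && lb sd 2 && lb p 6 && lb q 6)
    [ng (En 9 x t (Nat.mul 2 sd) p), ng (En 9 x t (Nat.succ (Nat.mul 2 sd)) q), ng (En 5 x 0 0 p), ps (En 5 x 0 0 q)]

def c50 (K NP NW TB x t sd p q : ℕ) : List ℕ :=
  cd (lb x NW && lb t (Nat.mul 6 K) && lb sd 2 && lb p 6 && lb q 6 && lb (nbf K TB x t) NP &&
      lb (nbf K TB (nbf K TB x t) t) NP)
    [ng (En 9 x t (Nat.mul 2 sd) p), ng (En 9 x t (Nat.succ (Nat.mul 2 sd)) q), ps (En 5 x 0 0 p),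
      ng (En 5 x 0 0 q), ps (En 5 (nbf K TB (nbf K TB x t) t) 0 0 p)]

/-- a foreign colour in the letter -/
def c51 (K NP NW TB x t sd q a b : ℕ) : List ℕ :=
  cd (lb x NW && lb t (Nat.mul 6 K) && lb sd 2 && lb q 6 && lb a 6 && lb b 6)
    [ng (En 11 x t (Nat.add sd 4) q), ps (En 4 x 0 0 q), ng (En 9 x t (Nat.mul 2 sd) a),
      ng (En 9 x t (Nat.succ (Nat.mul 2 sd)) b), ng (En 4 x 0 0 a), ng (En 4 x 0 0 b)]

def c52 (K NP NW TB x t sd io io' q : ℕ) : List ℕ :=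
  cd (lb x NW && lb t (Nat.mul 6 K) && lb sd 2 && lb io 2 && lb io' 2 && lb q 6)
    [ng (En 9 x t (Nat.add (Nat.mul 2 sd) io) q), ng (En 9 x (ad K t K) (Nat.add (Nat.mul 2 sd) io') q)]

def c53 (K NP NW TB x s t sd io io' q : ℕ) : List ℕ :=
  cd (lb x NW && lb s (Nat.mul 6 K) && lb t (Nat.mul 6 K) && lb sd 2 && lb io 2 && lb io' 2 && lb q 6 &&
      lb (nbf K TB x s) NW)
    [ng (En 9 x t (Nat.add (Nat.mul 2 sd) io) q), ng (En 9 (nbf K TB x s) t (Nat.add (Nat.mul 2 sd) io') q)]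

def c54 (K NP NW TB x t sd io q : ℕ) : List ℕ :=
  cd (lb x NW && lb t (Nat.mul 6 K) && lb sd 2 && lb io 2 && lb q 6 && lb (nbf K TB x t) NP)
    [ng (En 9 x t (Nat.add (Nat.mul 2 sd) io) q), ps (En 0 (nbf K TB x t) (gt K sd t) (gk sd io) q)]

/-! ### soundness -/

theorem sdio {sd io : ℕ} (h : io < 2) : (2 * sd + io) / 2 = sd ∧ (2 * sd + io) % 2 = io := by omega

section
variable {K NP NW TB : ℕ} {M : MdW K NP NW (nbf K TB)} {v : ℕ → Prop} (hv : Ag M v)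
include hv

theorem bLT' {x t sd io q : ℕ} (h1 : x < 4096) (h2 : t < 256) (h3 : sd < 2) (h4 : io < 2) :
    v (En 11 x t (Nat.add (Nat.mul 2 sd) io) q) ↔ M.LT x t sd io q := by
  have e : Nat.add (Nat.mul 2 sd) io = 2 * sd + io := rfl
  rw [e, bLT hv h1 h2 (by omega), (sdio h4).1, (sdio h4).2]

theorem bLT0 {x t sd q : ℕ} (h1 : x < 4096) (h2 : t < 256) (h3 : sd < 2) :
    v (En 11 x t (Nat.mul 2 sd) q) ↔ M.LT x t sd 0 q := by
  have := bLT' hv (q := q) h1 h2 h3 (show (0 : ℕ) < 2 by norm_num)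
  exact this

theorem bLT1 {x t sd q : ℕ} (h1 : x < 4096) (h2 : t < 256) (h3 : sd < 2) :
    v (En 11 x t (Nat.succ (Nat.mul 2 sd)) q) ↔ M.LT x t sd 1 q := by
  have := bLT' hv (q := q) h1 h2 h3 (show (1 : ℕ) < 2 by norm_num)
  exact this

theorem bW' {x t sd io q : ℕ} (h1 : x < 4096) (h2 : t < 256) (h3 : sd < 2) (h4 : io < 2) :
    v (En 9 x t (Nat.add (Nat.mul 2 sd) io) q) ↔ M.W x t sd io = q := by
  have e : Nat.add (Nat.mul 2 sd) io = 2 * sd + io := rfl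
  rw [e, bW hv h1 h2 (by omega), (sdio h4).1, (sdio h4).2]

theorem bW0 {x t sd q : ℕ} (h1 : x < 4096) (h2 : t < 256) (h3 : sd < 2) :
    v (En 9 x t (Nat.mul 2 sd) q) ↔ M.W x t sd 0 = q := by
  have := bW' hv (q := q) h1 h2 h3 (show (0 : ℕ) < 2 by norm_num)
  exact this

theorem bW1 {x t sd q : ℕ} (h1 : x < 4096) (h2 : t < 256) (h3 : sd < 2) :
    v (En 9 x t (Nat.succ (Nat.mul 2 sd)) q) ↔ M.W x t sd 1 = q := by
  have := bW' hv (q := q) h1 h2 h3 (show (1 : ℕ) < 2 by norm_num)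
  exact this

theorem h27 (x t b : ℕ) : Ho v (c27 K NP NW TB x t b) := by
  refine ho_cd fun h => ?_
  have hK := M.hK
  have hNP := M.hNP
  have hNW := M.hNW
  simp only [Bool.and_eq_true, lb_iff, Nat.mul_eq] at h
  obtain ⟨⟨hx, ht'⟩, hb⟩ := h
  obtain ⟨q, hq, h1⟩ := M.lne (sd := b / 2) (io := b % 2) hx ht' (by omega) (by omega)
  exact ho_mp hq (lv_ps.2 ((bLT hv (by omega) (by omega) (by omega)).2 h1))

theorem h28 (x t sd q : ℕ) : Ho v (c28 K NP NW TB x t sd q) := by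
  refine ho_cd fun h => ?_
  have hK := M.hK
  have hNP := M.hNP
  have hNW := M.hNW
  simp only [Bool.and_eq_true, lb_iff, Nat.mul_eq] at h
  obtain ⟨⟨⟨hx, ht'⟩, hsd⟩, hq⟩ := h
  refine hn fun h1 => ?_
  obtain ⟨r, hr, hrq, h2⟩ := M.l2 hx ht' hsd hq ((bP hv (by omega)).1 h1)
  exact ho_ne hr hrq (lv_ps.2 ((bLU hv (by omega) (by omega) hsd).2 h2))

theorem h29 (x t sd io q : ℕ) : Ho v (c29 K NP NW TB x t sd io q) := by
  refine ho_cd fun h => ?_
  have hK := M.hK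
  have hNP := M.hNP
  have hNW := M.hNW
  simp only [Bool.and_eq_true, lb_iff, Nat.mul_eq] at h
  obtain ⟨⟨⟨⟨hx, ht'⟩, hsd⟩, hio⟩, hq⟩ := h
  refine hn fun h1 => hp ((bLU hv (by omega) (by omega) hsd).2 ?_)
  have h2 := (bLT' hv (by omega) (by omega) hsd hio).1 h1
  interval_cases io
  · exact Or.inl h2
  · exact Or.inr h2

theorem h30 (x t sd q : ℕ) : Ho v (c30 K NP NW TB x t sd q) := by
  refine ho_cd fun h => ?_
  have hK := M.hK
  have hNP := M.hNP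
  have hNW := M.hNW
  simp only [Bool.and_eq_true, lb_iff, Nat.mul_eq] at h
  obtain ⟨⟨⟨hx, ht'⟩, hsd⟩, hq⟩ := h
  refine hn fun h1 => ?_
  rcases (bLU hv (by omega) (by omega) hsd).1 h1 with h2 | h2
  · exact hp ((bLT0 hv (by omega) (by omega) hsd).2 h2)
  · exact ht (hp ((bLT1 hv (by omega) (by omega) hsd).2 h2))

theorem h31 (x t sd q : ℕ) : Ho v (c31 K NP NW TB x t sd q) := by
  refine ho_cd fun h => ?_
  have hK := M.hK
  have hNP := M.hNP
  have hNW := M.hNW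
  have hadl := ad_lt (K := K) (a := t) (s := K) M.hK0
  simp only [Bool.and_eq_true, lb_iff, Nat.mul_eq] at h
  obtain ⟨⟨⟨hx, ht'⟩, hsd⟩, hq⟩ := h
  refine hn fun h1 => hng fun h2 => ?_
  have h1 := (bLU hv (by omega) (by omega) hsd).1 h1
  have h2 := (bLU hv (by omega) (by omega) hsd).1 h2
  rcases h1 with h1 | h1 <;> rcases h2 with h2 | h2
  · exact M.l60 hx ht' hsd (by norm_num) (by norm_num) hq h1 h2
  · exact M.l60 hx ht' hsd (by norm_num) (by norm_num) hq h1 h2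
  · exact M.l60 hx ht' hsd (by norm_num) (by norm_num) hq h1 h2
  · exact M.l60 hx ht' hsd (by norm_num) (by norm_num) hq h1 h2

theorem h32 (x s t sd q : ℕ) : Ho v (c32 K NP NW TB x s t sd q) := by
  refine ho_cd fun h => ?_
  have hK := M.hK
  have hNP := M.hNP
  have hNW := M.hNW
  simp only [Bool.and_eq_true, lb_iff, Nat.mul_eq] at h
  obtain ⟨⟨⟨⟨⟨hx, hs⟩, ht'⟩, hsd⟩, hq⟩, hn'⟩ := h
  refine hn fun h1 => hng fun h2 => ?_
  have h1 := (bLU hv (by omega) (by omega) hsd).1 h1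
  have h2 := (bLU hv (by omega) (by omega) hsd).1 h2
  rcases h1 with h1 | h1 <;> rcases h2 with h2 | h2
  · exact M.lpair hx hs ht' hsd (by norm_num) (by norm_num) hq hn' h1 h2
  · exact M.lpair hx hs ht' hsd (by norm_num) (by norm_num) hq hn' h1 h2
  · exact M.lpair hx hs ht' hsd (by norm_num) (by norm_num) hq hn' h1 h2
  · exact M.lpair hx hs ht' hsd (by norm_num) (by norm_num) hq hn' h1 h2

theorem h33 (x t sd : ℕ) : Ho v (c33 K NP NW TB x t sd) := by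
  refine ho_cd fun h => ?_
  have hK := M.hK
  have hNP := M.hNP
  have hNW := M.hNW
  simp only [Bool.and_eq_true, lb_iff, Nat.mul_eq] at h
  obtain ⟨⟨hx, ht'⟩, hsd⟩ := h
  refine hp' fun h1 => ?_
  obtain ⟨S, hS, h2⟩ := MdW.not_fn (n := 3) fun h3 => h1 ((bF hv (by omega) (by norm_num)).2 h3)
  obtain ⟨q, hq, h4⟩ := M.lfo S hx ht' hsd hS h2
  exact ho_mp hq (lv_ps.2 ((bLE hv (by omega) (by omega) hsd).2 h4))

theorem h34 (x t sd q b : ℕ) : Ho v (c34 K NP NW TB x t sd q b) := by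
  refine ho_cd fun h => ?_
  have hK := M.hK
  have hNP := M.hNP
  have hNW := M.hNW
  simp only [Bool.and_eq_true, lb_iff, Nat.mul_eq] at h
  obtain ⟨⟨⟨hx, ht'⟩, hsd⟩, hq⟩ := h
  refine ho_bif ?_ (ho_bif ?_ ?_)
  · exact hn fun h1 => hp ((bLU hv (by omega) (by omega) hsd).2 ((bLE hv (by omega) (by omega) hsd).1 h1).1)
  · exact hn fun h1 => hng fun h2 => ((bLE hv (by omega) (by omega) hsd).1 h1).2 ((bT hv (by omega)).1 h2)
  · refine hp' fun h1 => hn fun h2 => hp' fun h3 => ?_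
    exact absurd ((bLE hv (by omega) (by omega) hsd).2 ⟨(bLU hv (by omega) (by omega) hsd).1 h2,
      fun h4 => h3 ((bT hv (by omega)).2 h4)⟩) h1

theorem h35 (x t sd q : ℕ) : Ho v (c35 K NP NW TB x t sd q) := by
  refine ho_cd fun h => ?_
  have hK := M.hK
  have hNP := M.hNP
  have hNW := M.hNW
  simp only [Bool.and_eq_true, lb_iff, Nat.mul_eq] at h
  obtain ⟨⟨⟨hx, ht'⟩, hsd⟩, hq⟩ := h
  refine hn fun h1 => hn fun h2 => hp ((bX hv (by omega)).2 ?_)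
  have h2 := (bT hv (by omega)).1 h2
  rcases (bLU hv (by omega) (by omega) hsd).1 h1 with h1 | h1
  · exact M.lxx hx ht' hsd (by norm_num) hq h1 h2
  · exact M.lxx hx ht' hsd (by norm_num) hq h1 h2

theorem h36 (x t sd r : ℕ) : Ho v (c36 K NP NW TB x t sd r) := by
  refine ho_cd fun h => ?_
  have hK := M.hK
  have hNP := M.hNP
  have hNW := M.hNW
  simp only [Bool.and_eq_true, lb_iff, Nat.mul_eq] at h
  obtain ⟨⟨hx, ht'⟩, hsd⟩ := h
  refine hn fun h1 => ?_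
  obtain ⟨q, hq, hqr, h2, h3, h4⟩ := M.lgap (r := r) hx ht' hsd ((bX hv (by omega)).1 h1)
  exact ho_ne hq hqr (lv_ps.2 ((bOD hv (by omega) (by omega) hsd).2 ⟨h2, fun h5 => h5.elim h3 h4⟩))

theorem h37 (x t sd q b : ℕ) : Ho v (c37 K NP NW TB x t sd q b) := by
  refine ho_cd fun h => ?_
  have hK := M.hK
  have hNP := M.hNP
  have hNW := M.hNW
  simp only [Bool.and_eq_true, lb_iff, Nat.mul_eq] at h
  obtain ⟨⟨⟨hx, ht'⟩, hsd⟩, hq⟩ := h
  refine ho_bif ?_ (ho_bif ?_ ?_)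
  · exact hn fun h1 => hp ((bT hv (by omega)).2 ((bOD hv (by omega) (by omega) hsd).1 h1).1)
  · exact hn fun h1 => hng fun h2 => ((bOD hv (by omega) (by omega) hsd).1 h1).2
      ((bLU hv (by omega) (by omega) hsd).1 h2)
  · refine hp' fun h1 => hn fun h2 => hp' fun h3 => ?_
    exact absurd ((bOD hv (by omega) (by omega) hsd).2 ⟨(bT hv (by omega)).1 h2,
      fun h4 => h3 ((bLU hv (by omega) (by omega) hsd).2 h4)⟩) h1

theorem gt_lt {sd t : ℕ} (ht' : t < 6 * K) : gt K sd t < 6 * K := by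
  have hadl := ad_lt (K := K) (a := t) (s := 3 * K) M.hK0
  show (bif Nat.beq sd 1 then t else ad K t (3 * K)) < 6 * K
  cases Nat.beq sd 1
  · exact hadl
  · exact ht'

omit hv in
theorem gk_lt {sd io : ℕ} : gk sd io < 4 := by
  show (bif Nat.beq io 0 then (bif Nat.beq sd 1 then 3 else 1) else 2) < 4
  cases Nat.beq io 0 <;> cases Nat.beq sd 1 <;> decide

theorem h38 (x t sd io q : ℕ) : Ho v (c38 K NP NW TB x t sd io q) := by
  refine ho_cd fun h => ?_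
  have hK := M.hK
  have hNP := M.hNP
  have hNW := M.hNW
  simp only [Bool.and_eq_true, lb_iff, Nat.mul_eq] at h
  obtain ⟨⟨⟨⟨⟨hx, ht'⟩, hsd⟩, hio⟩, hq⟩, hn'⟩ := h
  have e1 := gt_lt hv (sd := sd) ht'
  have e2 := gk_lt (sd := sd) (io := io)
  exact hn fun h1 => hp ((bV hv (by omega) (by omega) (by omega)).2
    (M.lglue hx ht' hsd hio hq hn' ((bLT' hv (by omega) (by omega) hsd hio).1 h1)))

theorem h39 (x t sd q : ℕ) : Ho v (c39 K NP NW TB x t sd q) := by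
  refine ho_cd fun h => ?_
  have hK := M.hK
  have hNP := M.hNP
  have hNW := M.hNW
  simp only [Bool.and_eq_true, lb_iff, Nat.mul_eq] at h
  obtain ⟨⟨⟨⟨hx, ht'⟩, hsd⟩, hq⟩, hn'⟩ := h
  have e1 := gt_lt hv (sd := sd) ht'
  have e2 := gk_lt (sd := sd) (io := 0)
  have e3 := gk_lt (sd := sd) (io := 1)
  refine hn fun h1 => ?_
  rcases (bLU hv (by omega) (by omega) hsd).1 h1 with h2 | h2
  · exact hp ((bV hv (by omega) (by omega) (by omega)).2 (M.lglue hx ht' hsd (by norm_num) hq hn' h2))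
  · exact ht (hp ((bV hv (by omega) (by omega) (by omega)).2 (M.lglue hx ht' hsd (by norm_num) hq hn' h2)))

theorem h40 (x t b k j q : ℕ) : Ho v (c40 K NP NW TB x t b k j q) := by
  refine ho_cd fun h => ?_
  have hK := M.hK
  have hNP := M.hNP
  have hNW := M.hNW
  simp only [Bool.and_eq_true, lb_iff, Nat.mul_eq] at h
  obtain ⟨⟨⟨⟨⟨⟨hx, ht'⟩, hb⟩, hk⟩, hj⟩, hq⟩, hc⟩ := h
  exact hn fun h1 => hng fun h2 => M.lsol hx ht' (show b / 2 < 2 by omega) (show b % 2 < 2 by omega) hk hj hq hc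
    ((bPu hv (by omega) (by omega) (by omega)).1 h1) ((bLT hv (by omega) (by omega) hb).1 h2)

theorem h41 (x t b k j q : ℕ) : Ho v (c41 K NP NW TB x t b k j q) := by
  refine ho_cd fun h => ?_
  have hK := M.hK
  have hNP := M.hNP
  have hNW := M.hNW
  simp only [Bool.and_eq_true, lb_iff, Nat.mul_eq] at h
  obtain ⟨⟨⟨⟨⟨⟨hx, ht'⟩, hb⟩, hk⟩, hj⟩, hq⟩, hc⟩ := h
  refine hn fun h1 => ho_ne_or fun h2 => ?_
  refine absurd ((bLT hv (by omega) (by omega) hb).1 h1)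
    (M.lsol hx ht' (show b / 2 < 2 by omega) (show b % 2 < 2 by omega) hk hj hq hc fun r hr hrq h3 => ?_)
  exact h2 r hr hrq (lv_ps.2 ((bV hv (by omega) (by omega) (by omega)).2 h3))

theorem h42 (x t b k j q : ℕ) : Ho v (c42 K NP NW TB x t b k j q) := by
  refine ho_cd fun h => ?_
  have hK := M.hK
  have hNP := M.hNP
  have hNW := M.hNW
  simp only [Bool.and_eq_true, lb_iff, Nat.mul_eq] at h
  obtain ⟨⟨⟨⟨⟨⟨hx, ht'⟩, hb⟩, hk⟩, hj⟩, hq⟩, hc⟩ := h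
  refine hn fun h1 => ho_ne_or fun h2 => ?_
  refine absurd ((bPV hv (by omega) (by omega) (by omega)).1 h1)
    (M.lhalf hx ht' (show b / 2 < 2 by omega) (show b % 2 < 2 by omega) hk hj hq hc fun r hr hrq h3 => ?_)
  exact h2 r hr hrq (lv_ps.2 ((bLT hv (by omega) (by omega) hb).2 h3))

theorem h43 (x t sd p q : ℕ) : Ho v (c43 K NP NW TB x t sd p q) := by
  refine ho_cd fun h => ?_
  have hK := M.hK
  have hNP := M.hNP
  have hNW := M.hNW
  simp only [Bool.and_eq_true, lb_iff, Nat.mul_eq] at h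
  obtain ⟨⟨⟨⟨hx, ht'⟩, hsd⟩, hp0⟩, hq⟩ := h
  refine hn fun h1 => hn fun h2 => hn fun h3 => hp ((bP hv (by omega)).2 ?_)
  have h2 := (bP hv (by omega)).1 h2
  have h3 := (bLT1 hv (by omega) (by omega) hsd).1 h3
  rcases (bLU hv (by omega) (by omega) hsd).1 h1 with h1 | h1
  · exact M.lmix hx ht' hsd (by norm_num) hp0 hq h1 h2 h3
  · exact M.lmix hx ht' hsd (by norm_num) hp0 hq h1 h2 h3

theorem h44 (x t sd p q : ℕ) : Ho v (c44 K NP NW TB x t sd p q) := by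
  refine ho_cd fun h => ?_
  have hK := M.hK
  have hNP := M.hNP
  have hNW := M.hNW
  simp only [Bool.and_eq_true, lb_iff, Nat.mul_eq] at h
  obtain ⟨⟨⟨⟨⟨⟨hx, ht'⟩, hsd⟩, hp0⟩, hq⟩, hn1⟩, hn2⟩ := h
  refine hn fun h1 => hn fun h2 => hn fun h3 => hp' fun h4 => hp ((bP hv (by omega)).2 ?_)
  have h1 := (bLU hv (by omega) (by omega) hsd).1 h1
  have h2 := (bP hv (by omega)).1 h2
  have h3 := (bLU hv (by omega) (by omega) hsd).1 h3
  have h4 : ¬ M.P x q := fun h5 => h4 ((bP hv (by omega)).2 h5)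
  rcases h1 with h1 | h1 <;> rcases h3 with h3 | h3
  · exact M.ltwo hx ht' hsd (by norm_num) (by norm_num) hp0 hq hn1 hn2 h1 h2 h3 h4
  · exact M.ltwo hx ht' hsd (by norm_num) (by norm_num) hp0 hq hn1 hn2 h1 h2 h3 h4
  · exact M.ltwo hx ht' hsd (by norm_num) (by norm_num) hp0 hq hn1 hn2 h1 h2 h3 h4
  · exact M.ltwo hx ht' hsd (by norm_num) (by norm_num) hp0 hq hn1 hn2 h1 h2 h3 h4

theorem h45 (x t b : ℕ) : Ho v (c45 K NP NW TB x t b) := by
  refine ho_cd fun h => ?_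
  have hK := M.hK
  have hNP := M.hNP
  have hNW := M.hNW
  simp only [Bool.and_eq_true, lb_iff, Nat.mul_eq] at h
  obtain ⟨⟨hx, ht'⟩, hb⟩ := h
  refine ho_mp (M.wlt (sd := b / 2) (io := b % 2) hx ht' (by omega) (by omega)) (lv_ps.2 ?_)
  exact (bW hv (by omega) (by omega) (by omega)).2 rfl

theorem h46 (x t b q r : ℕ) : Ho v (c46 K NP NW TB x t b q r) := by
  refine ho_cd fun h => ?_
  have hK := M.hK
  have hNP := M.hNP
  have hNW := M.hNW
  simp only [Bool.and_eq_true, lb_iff, Nat.mul_eq, nbne] at h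
  obtain ⟨⟨⟨hx, ht'⟩, hb⟩, hqr⟩ := h
  exact hn fun h1 => hng fun h2 => hqr (((bW hv (by omega) (by omega) (by omega)).1 h1).symm.trans
    ((bW hv (by omega) (by omega) (by omega)).1 h2))

theorem h47 (x t b q : ℕ) : Ho v (c47 K NP NW TB x t b q) := by
  refine ho_cd fun h => ?_
  have hK := M.hK
  have hNP := M.hNP
  have hNW := M.hNW
  simp only [Bool.and_eq_true, lb_iff, Nat.mul_eq] at h
  obtain ⟨⟨⟨hx, ht'⟩, hb⟩, hq⟩ := h
  refine hn fun h1 => hp ((bLT hv (by omega) (by omega) hb).2 ?_)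
  rw [← (bW hv (by omega) (by omega) (by omega)).1 h1]
  exact M.wm hx ht' (by omega) (by omega)

theorem h48 (x t sd q : ℕ) : Ho v (c48 K NP NW TB x t sd q) := by
  refine ho_cd fun h => ?_
  have hK := M.hK
  have hNP := M.hNP
  have hNW := M.hNW
  simp only [Bool.and_eq_true, lb_iff, Nat.mul_eq] at h
  obtain ⟨⟨⟨hx, ht'⟩, hsd⟩, hq⟩ := h
  refine hn fun h1 => hn fun h2 => hng fun h3 => ?_
  have h1 := (bW0 hv (by omega) (by omega) hsd).1 h1
  have h2 := (bW1 hv (by omega) (by omega) hsd).1 h2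
  have h3 := (bP hv (by omega)).1 h3
  rw [← h1] at h3
  exact M.wa hx ht' hsd (h1.trans h2.symm) h3

theorem h49 (x t sd p q : ℕ) : Ho v (c49 K NP NW TB x t sd p q) := by
  refine ho_cd fun h => ?_
  have hK := M.hK
  have hNP := M.hNP
  have hNW := M.hNW
  simp only [Bool.and_eq_true, lb_iff, Nat.mul_eq] at h
  obtain ⟨⟨⟨⟨hx, ht'⟩, hsd⟩, hp0⟩, hq⟩ := h
  refine hn fun h1 => hn fun h2 => hn fun h3 => hp ((bP hv (by omega)).2 ?_)
  have h1 := (bW0 hv (by omega) (by omega) hsd).1 h1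
  have h2 := (bW1 hv (by omega) (by omega) hsd).1 h2
  have h3 := (bP hv (by omega)).1 h3
  rw [← h1] at h3
  rw [← h2]
  exact M.wc hx ht' hsd h3

theorem h50 (x t sd p q : ℕ) : Ho v (c50 K NP NW TB x t sd p q) := by
  refine ho_cd fun h => ?_
  have hK := M.hK
  have hNP := M.hNP
  have hNW := M.hNW
  simp only [Bool.and_eq_true, lb_iff, Nat.mul_eq] at h
  obtain ⟨⟨⟨⟨⟨⟨hx, ht'⟩, hsd⟩, hp0⟩, hq⟩, hn1⟩, hn2⟩ := h
  refine hn fun h1 => hn fun h2 => hp' fun h3 => hn fun h4 => hp ((bP hv (by omega)).2 ?_)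
  have h1 := (bW0 hv (by omega) (by omega) hsd).1 h1
  have h2 := (bW1 hv (by omega) (by omega) hsd).1 h2
  have h3 : ¬ M.P x p := fun h5 => h3 ((bP hv (by omega)).2 h5)
  have h4 := (bP hv (by omega)).1 h4
  rw [← h1] at h3 ⊢
  rw [← h2] at h4
  exact M.wc2 hx ht' hsd hn1 hn2 h4 h3

theorem h51 (x t sd q a b : ℕ) : Ho v (c51 K NP NW TB x t sd q a b) := by
  refine ho_cd fun h => ?_
  have hK := M.hK
  have hNP := M.hNP
  have hNW := M.hNW
  simp only [Bool.and_eq_true, lb_iff, Nat.mul_eq] at h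
  obtain ⟨⟨⟨⟨⟨hx, ht'⟩, hsd⟩, hq⟩, ha⟩, hb⟩ := h
  refine hn fun h1 => hp' fun h2 => hn fun h3 => hn fun h4 => hn fun h5 => hng fun h6 => ?_
  have h2 : ¬ M.T x q := fun h7 => h2 ((bT hv (by omega)).2 h7)
  have h3 := (bW0 hv (by omega) (by omega) hsd).1 h3
  have h4 := (bW1 hv (by omega) (by omega) hsd).1 h4
  have h5 := (bT hv (by omega)).1 h5
  have h6 := (bT hv (by omega)).1 h6
  rw [← h3] at h5
  rw [← h4] at h6
  rcases (bLU hv (by omega) (by omega) hsd).1 h1 with h1 | h1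
  · exact (M.wf hx ht' hsd (by norm_num) hq h1 h2).elim (fun h => h h5) fun h => h h6
  · exact (M.wf hx ht' hsd (by norm_num) hq h1 h2).elim (fun h => h h5) fun h => h h6

theorem h52 (x t sd io io' q : ℕ) : Ho v (c52 K NP NW TB x t sd io io' q) := by
  refine ho_cd fun h => ?_
  have hK := M.hK
  have hNP := M.hNP
  have hNW := M.hNW
  have hadl := ad_lt (K := K) (a := t) (s := K) M.hK0
  simp only [Bool.and_eq_true, lb_iff, Nat.mul_eq] at h
  obtain ⟨⟨⟨⟨⟨hx, ht'⟩, hsd⟩, hio⟩, hio'⟩, hq⟩ := h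
  refine hn fun h1 => hng fun h2 => ?_
  have h1 := (bW' hv (by omega) (by omega) hsd hio).1 h1
  have h2 := (bW' hv (by omega) (by omega) hsd hio').1 h2
  refine M.l60 hx ht' hsd hio hio' hq ?_ (?_ : M.LT x (ad K t K) sd io' q)
  · rw [← h1]; exact M.wm hx ht' hsd hio
  · rw [← h2]; exact M.wm hx hadl hsd hio'

theorem h53 (x s t sd io io' q : ℕ) : Ho v (c53 K NP NW TB x s t sd io io' q) := by
  refine ho_cd fun h => ?_
  have hK := M.hK
  have hNP := M.hNP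
  have hNW := M.hNW
  simp only [Bool.and_eq_true, lb_iff, Nat.mul_eq] at h
  obtain ⟨⟨⟨⟨⟨⟨⟨hx, hs⟩, ht'⟩, hsd⟩, hio⟩, hio'⟩, hq⟩, hn'⟩ := h
  refine hn fun h1 => hng fun h2 => ?_
  have h1 := (bW' hv (by omega) (by omega) hsd hio).1 h1
  have h2 := (bW' hv (by omega) (by omega) hsd hio').1 h2
  refine M.lpair hx hs ht' hsd hio hio' hq hn' ?_ (?_ : M.LT (nbf K TB x s) t sd io' q)
  · rw [← h1]; exact M.wm hx ht' hsd hio
  · rw [← h2]; exact M.wm hn' ht' hsd hio'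

theorem h54 (x t sd io q : ℕ) : Ho v (c54 K NP NW TB x t sd io q) := by
  refine ho_cd fun h => ?_
  have hK := M.hK
  have hNP := M.hNP
  have hNW := M.hNW
  simp only [Bool.and_eq_true, lb_iff, Nat.mul_eq] at h
  obtain ⟨⟨⟨⟨⟨hx, ht'⟩, hsd⟩, hio⟩, hq⟩, hn'⟩ := h
  have e1 := gt_lt hv (sd := sd) ht'
  have e2 := gk_lt (sd := sd) (io := io)
  refine hn fun h1 => hp ((bV hv (by omega) (by omega) (by omega)).2 (M.lglue hx ht' hsd hio hq hn' ?_))
  rw [← (bW' hv (by omega) (by omega) hsd hio).1 h1]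
  exact M.wm hx ht' hsd hio

end

end Vale.Agent.P032.H240.W
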