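import Vale.Agent.P032.H240.W.Gen2

/-!
# P032: the clauses of the wild model of germs, by code, part 3: joint colourings, bits, the generator

* `gen` : the clause of a code, `gen_ho` : it holds in every model; `genW` : with external clauses and definitions;
* `chkW_sound` : a checked certificate refutes the model.
-/

namespace Vale.Agent.P032.H240.W

open Vale.Agent.P032.H139.Lrat (Db build)
open Vale.Agent.P032.H820.K (df ad hcell gk gt nbf En mp ps ng trv cd lb lb_iff cix ad_lt fx fa fb fc fd fe)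

/-- joint colourings -/
def d0 (K NP NW TB x j k : ℕ) : List ℕ :=
  cd (lb x NP && lb j (Nat.mul 6 K) && lb k 4) (mp (fun q => ps (En 13 x j k q)) 6 [])

def d1 (K NP NW TB x j k q r : ℕ) : List ℕ :=
  cd (lb x NP && lb j (Nat.mul 6 K) && lb k 4 && !(Nat.beq q r)) [ng (En 13 x j k q), ng (En 13 x j k r)]

def d2 (K NP NW TB x j k q : ℕ) : List ℕ :=
  cd (lb x NP && lb j (Nat.mul 6 K) && lb k 4) [ng (En 13 x j k q), ps (En 0 x j k q)]

def d3 (K NP NW TB x j k s q : ℕ) : List ℕ :=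
  cd (lb x NP && lb j (Nat.mul 6 K) && lb k 4 && lb s (Nat.mul 6 K) && lb (nbf K TB x s) NP)
    [ng (En 13 x j k q), ng (En 13 (nbf K TB x s) j k q)]

/-- `V` atoms of the sector of 60 degrees -/
def s5 (x m q i : ℕ) : ℕ :=
  bif Nat.beq i 0 then En 0 x (Nat.mul 2 m) 0 q else bif Nat.beq i 1 then En 0 x (Nat.succ (Nat.mul 2 m)) 0 q else
    En 0 x (Nat.succ (Nat.mul 2 m)) (Nat.sub i 1) q

/-- zones of a ray -/
def zr (x j q : ℕ) : List ℕ := mp (fun k => ps (En 0 x j (Nat.succ k) q)) 3 []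

def d4 (K NP NW TB x m q : ℕ) : List ℕ :=
  cd (lb x NP && lb m 6 && lb 1 K) (ng (En 12 x m 0 q) :: ps (En 0 x (Nat.mul 2 m) 0 q) ::
    ps (En 0 x (Nat.succ (Nat.mul 2 m)) 0 q) :: zr x (Nat.succ (Nat.mul 2 m)) q)

def d5 (K NP NW TB x m q i : ℕ) : List ℕ :=
  cd (lb x NP && lb m 6 && lb 1 K && lb i 5) [ng (s5 x m q i), ps (En 12 x m 0 q)]

def d6 (K NP NW TB x m q : ℕ) : List ℕ :=
  cd (lb x NP && lb m 6 && lb 1 K) (ng (En 12 x m 1 q) :: ps (En 0 x (Nat.mul 2 m) 0 q) ::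
    zr x (Nat.succ (Nat.mul 2 m)) q)

def d7 (K NP NW TB x m q i : ℕ) : List ℕ :=
  cd (lb x NP && lb m 6 && lb 1 K && lb i 5 && !(Nat.beq i 1)) [ng (s5 x m q i), ps (En 12 x m 1 q)]

def d8 (K NP NW TB x m q : ℕ) : List ℕ :=
  cd (lb x NP && lb m 6 && lb 1 K) (ng (En 12 x m 2 q) :: ps (En 0 x (Nat.succ (Nat.mul 2 m)) 0 q) ::
    zr x (Nat.succ (Nat.mul 2 m)) q)

def d9 (K NP NW TB x m q i : ℕ) : List ℕ :=
  cd (lb x NP && lb m 6 && lb 1 K && lb i 5 && !(Nat.beq i 0)) [ng (s5 x m q i), ps (En 12 x m 2 q)]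

/-- one sided accumulation -/
def d10 (K NP NW TB x m q b : ℕ) : List ℕ :=
  cd (Nat.beq K 2 && lb x NP && lb m 6 && lb q 6)
    (bif Nat.beq b 0 then [ng (En 12 x m 3 q), ps (En 0 x (Nat.mul 2 m) 0 q)] else
     bif Nat.beq b 1 then [ng (En 12 x m 3 q), ps (En 0 x (Nat.mul 2 m) 3 q)] else
     bif Nat.beq b 2 then [ng (En 12 x m 4 q), ps (En 0 x (Nat.succ (Nat.mul 2 m)) 0 q)] else
      [ng (En 12 x m 4 q), ps (En 0 x (ad K (Nat.mul 2 m) 2) 1 q)])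

/-! ### soundness -/

section
variable {K NP NW TB : ℕ} {M : MdW K NP NW (nbf K TB)} {v : ℕ → Prop} (hv : Ag M v)
include hv

theorem e0 (x j k : ℕ) : Ho v (d0 K NP NW TB x j k) := by
  refine ho_cd fun h => ?_
  have hK := M.hK
  have hNP := M.hNP
  simp only [Bool.and_eq_true, lb_iff, Nat.mul_eq] at h
  obtain ⟨⟨hx, hj⟩, hk⟩ := h
  exact ho_mp (M.jlt hk hx hj) (lv_ps.2 ((bJ hv (by omega) (by omega) (by omega)).2 rfl))

theorem e1 (x j k q r : ℕ) : Ho v (d1 K NP NW TB x j k q r) := by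
  refine ho_cd fun h => ?_
  have hK := M.hK
  have hNP := M.hNP
  simp only [Bool.and_eq_true, lb_iff, Nat.mul_eq, nbne] at h
  obtain ⟨⟨⟨hx, hj⟩, hk⟩, hqr⟩ := h
  exact hn fun h1 => hng fun h2 => hqr (((bJ hv (by omega) (by omega) (by omega)).1 h1).symm.trans
    ((bJ hv (by omega) (by omega) (by omega)).1 h2))

theorem e2 (x j k q : ℕ) : Ho v (d2 K NP NW TB x j k q) := by
  refine ho_cd fun h => ?_
  have hK := M.hK
  have hNP := M.hNP
  simp only [Bool.and_eq_true, lb_iff, Nat.mul_eq] at h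
  obtain ⟨⟨hx, hj⟩, hk⟩ := h
  refine hn fun h1 => hp ((bV hv (by omega) (by omega) (by omega)).2 ?_)
  rw [← (bJ hv (by omega) (by omega) (by omega)).1 h1]
  exact M.jv hk hx hj

theorem e3 (x j k s q : ℕ) : Ho v (d3 K NP NW TB x j k s q) := by
  refine ho_cd fun h => ?_
  have hK := M.hK
  have hNP := M.hNP
  simp only [Bool.and_eq_true, lb_iff, Nat.mul_eq] at h
  obtain ⟨⟨⟨⟨hx, hj⟩, hk⟩, hs⟩, hn'⟩ := h
  exact hn fun h1 => hng fun h2 => M.jne hk hx hj hs hn' (((bJ hv (by omega) (by omega) (by omega)).1 h1).trans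
    ((bJ hv (by omega) (by omega) (by omega)).1 h2).symm)

theorem s5_bv {x m q i : ℕ} (hx : x < NP) (hm : m < 6) (hi : i < 5) :
    (i = 0 ∧ (v (s5 x m q i) ↔ M.V 0 x (2 * m) q)) ∨ (i = 1 ∧ (v (s5 x m q i) ↔ M.V 0 x (2 * m + 1) q)) ∨
    (2 ≤ i ∧ ∃ k < 3, (v (s5 x m q i) ↔ M.V (k + 1) x (2 * m + 1) q)) := by
  have hNP := M.hNP
  interval_cases i
  · exact Or.inl ⟨rfl, bV hv (j := 2 * m) (by omega) (by omega) (by omega)⟩
  · exact Or.inr (Or.inl ⟨rfl, bV hv (j := 2 * m + 1) (by omega) (by omega) (by omega)⟩)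
  · exact Or.inr (Or.inr ⟨by norm_num, 0, by norm_num, bV hv (j := 2 * m + 1) (k := 1) (by omega) (by omega) (by omega)⟩)
  · exact Or.inr (Or.inr ⟨by norm_num, 1, by norm_num, bV hv (j := 2 * m + 1) (k := 2) (by omega) (by omega) (by omega)⟩)
  · exact Or.inr (Or.inr ⟨by norm_num, 2, by norm_num, bV hv (j := 2 * m + 1) (k := 3) (by omega) (by omega) (by omega)⟩)

theorem zr_ho {x m q : ℕ} (hx : x < NP) (hm : m < 6) (h : ∃ k < 3, M.V (k + 1) x (2 * m + 1) q) :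
    Ho v (zr x (Nat.succ (Nat.mul 2 m)) q) := by
  have hNP := M.hNP
  obtain ⟨k, hk, h1⟩ := h
  exact ho_mp hk (lv_ps.2 ((bV hv (k := k + 1) (j := 2 * m + 1) (by omega) (by omega) (by omega)).2 h1))

theorem e4 (x m q : ℕ) : Ho v (d4 K NP NW TB x m q) := by
  refine ho_cd fun h => ?_
  have hNP := M.hNP
  simp only [Bool.and_eq_true, lb_iff] at h
  obtain ⟨⟨hx, hm⟩, h1K⟩ := h
  refine hn fun h1 => ?_
  rcases (bS60 hv (by omega) (by omega)).1 h1 with h1 | h1 | h1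
  · exact hp ((bV hv (j := 2 * m) (by omega) (by omega) (by omega)).2 h1)
  · exact ht (hp ((bV hv (j := 2 * m + 1) (by omega) (by omega) (by omega)).2 h1))
  · exact ht (ht (zr_ho hv hx hm h1))

theorem e5 (x m q i : ℕ) : Ho v (d5 K NP NW TB x m q i) := by
  refine ho_cd fun h => ?_
  have hNP := M.hNP
  simp only [Bool.and_eq_true, lb_iff] at h
  obtain ⟨⟨⟨hx, hm⟩, h1K⟩, hi⟩ := h
  refine hn fun h1 => hp ((bS60 hv (by omega) (by omega)).2 ?_)
  rcases s5_bv hv (q := q) hx hm hi with ⟨-, e⟩ | ⟨-, e⟩ | ⟨-, k, hk, e⟩ <;> rw [e] at h1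
  · exact Or.inl h1
  · exact Or.inr (Or.inl h1)
  · exact Or.inr (Or.inr ⟨k, hk, h1⟩)

theorem e6 (x m q : ℕ) : Ho v (d6 K NP NW TB x m q) := by
  refine ho_cd fun h => ?_
  have hNP := M.hNP
  simp only [Bool.and_eq_true, lb_iff] at h
  obtain ⟨⟨hx, hm⟩, h1K⟩ := h
  refine hn fun h1 => ?_
  rcases (bAp hv (by omega) (by omega)).1 h1 with h1 | h1
  · exact hp ((bV hv (j := 2 * m) (by omega) (by omega) (by omega)).2 h1)
  · exact ht (zr_ho hv hx hm h1)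

theorem e7 (x m q i : ℕ) : Ho v (d7 K NP NW TB x m q i) := by
  refine ho_cd fun h => ?_
  have hNP := M.hNP
  simp only [Bool.and_eq_true, lb_iff, nbne] at h
  obtain ⟨⟨⟨⟨hx, hm⟩, h1K⟩, hi⟩, hc⟩ := h
  refine hn fun h1 => hp ((bAp hv (by omega) (by omega)).2 ?_)
  rcases s5_bv hv (q := q) hx hm hi with ⟨-, e⟩ | ⟨e', e⟩ | ⟨-, k, hk, e⟩
  · rw [e] at h1; exact Or.inl h1
  · exact absurd e' hc
  · rw [e] at h1; exact Or.inr ⟨k, hk, h1⟩

theorem e8 (x m q : ℕ) : Ho v (d8 K NP NW TB x m q) := by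
  refine ho_cd fun h => ?_
  have hNP := M.hNP
  simp only [Bool.and_eq_true, lb_iff] at h
  obtain ⟨⟨hx, hm⟩, h1K⟩ := h
  refine hn fun h1 => ?_
  rcases (bBm hv (by omega) (by omega)).1 h1 with h1 | h1
  · exact hp ((bV hv (j := 2 * m + 1) (by omega) (by omega) (by omega)).2 h1)
  · exact ht (zr_ho hv hx hm h1)

theorem e9 (x m q i : ℕ) : Ho v (d9 K NP NW TB x m q i) := by
  refine ho_cd fun h => ?_
  have hNP := M.hNP
  simp only [Bool.and_eq_true, lb_iff, nbne] at h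
  obtain ⟨⟨⟨⟨hx, hm⟩, h1K⟩, hi⟩, hc⟩ := h
  refine hn fun h1 => hp ((bBm hv (by omega) (by omega)).2 ?_)
  rcases s5_bv hv (q := q) hx hm hi with ⟨e', e⟩ | ⟨-, e⟩ | ⟨-, k, hk, e⟩
  · exact absurd e' hc
  · rw [e] at h1; exact Or.inl h1
  · rw [e] at h1; exact Or.inr ⟨k, hk, h1⟩

theorem e10 (x m q b : ℕ) : Ho v (d10 K NP NW TB x m q b) := by
  refine ho_cd fun h => ?_
  have hNP := M.hNP
  simp only [Bool.and_eq_true, lb_iff] at h
  obtain ⟨⟨⟨hK2, hx⟩, hm⟩, hq⟩ := h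
  have hK2 : K = 2 := Nat.eq_of_beq_eq_true hK2
  have hadl := ad_lt (K := K) (a := 2 * m) (s := 2) M.hK0
  refine ho_bif ?_ (ho_bif ?_ (ho_bif ?_ ?_))
  · exact hn fun h1 => hp ((bV hv (j := 2 * m) (by omega) (by omega) (by omega)).2
      (M.ars hK2 hx hm hq ((bAR hv (by omega) (by omega)).1 h1)))
  · exact hn fun h1 => hp ((bV hv (j := 2 * m) (by omega) (by omega) (by omega)).2
      (M.arz hK2 hx hm hq ((bAR hv (by omega) (by omega)).1 h1)))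
  · exact hn fun h1 => hp ((bV hv (j := 2 * m + 1) (by omega) (by omega) (by omega)).2
      (M.als hK2 hx hm hq ((bAL hv (by omega) (by omega)).1 h1)))
  · exact hn fun h1 => hp ((bV hv (j := ad K (2 * m) 2) (by omega) (by omega) (by omega)).2
      (M.alz hK2 hx hm hq ((bAL hv (by omega) (by omega)).1 h1)))

end

/-! ### the generator -/

/-- kinds `0, .., 7` -/
def g0 (K NP NW TB k n : ℕ) : List ℕ :=
  bif Nat.beq k 4 then c4 K NP NW TB (fx n) (fa n) (fb n) (fc n) (fd n) else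
  bif Nat.beq k 0 then c0 K NP NW TB (fx n) (fa n) (fb n) else
  bif Nat.beq k 1 then c1 K NP NW TB (fx n) (fa n) (fb n) (fc n) else
  bif Nat.beq k 2 then c2 K NP NW TB (fx n) (fa n) else
  bif Nat.beq k 7 then c7 K NP NW TB (fx n) (fa n) (fb n) (fc n) else
  bif Nat.beq k 6 then c6 K NP NW TB (fx n) (fa n) (fb n) (fc n) else
  bif Nat.beq k 3 then c3 K NP NW TB (fx n) (fa n) else c5 K NP NW TB (fx n) (fa n)

/-- kinds `8, .., 15` -/
def g1 (K NP NW TB k n : ℕ) : List ℕ :=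
  bif Nat.beq k 1 then c9 K NP NW TB (fx n) (fa n) (fb n) (fc n) (fd n) else
  bif Nat.beq k 0 then c8 K NP NW TB (fx n) (fa n) else
  bif Nat.beq k 2 then c10 K NP NW TB (fx n) (fa n) (fb n) else
  bif Nat.beq k 3 then c11 K NP NW TB (fx n) (fa n) (fb n) else
  bif Nat.beq k 4 then c12 K NP NW TB (fx n) (fa n) (fb n) else
  bif Nat.beq k 5 then c13 K NP NW TB (fx n) (fa n) (fb n) else
  bif Nat.beq k 6 then c14 K NP NW TB (fx n) (fa n) else c15 K NP NW TB (fx n) (fa n) (fb n) (fc n)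

/-- kinds `16, .., 23` -/
def g2 (K NP NW TB k n : ℕ) : List ℕ :=
  bif Nat.beq k 6 then c22 K NP NW TB (fx n) (fa n) (fb n) (fc n) (fd n) (fe n) else
  bif Nat.beq k 7 then c23 K NP NW TB (fx n) (fa n) (fb n) (fc n) (fd n) else
  bif Nat.beq k 5 then c21 K NP NW TB (fx n) (fa n) (fb n) (fc n) (fd n) (fe n) else
  bif Nat.beq k 4 then c20 K NP NW TB (fx n) (fa n) (fb n) (fc n) (fd n) (fe n) else
  bif Nat.beq k 0 then c16 K NP NW TB (fx n) (fa n) (fb n) else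
  bif Nat.beq k 1 then c17 K NP NW TB (fx n) (fa n) (fb n) else
  bif Nat.beq k 2 then c18 K NP NW TB (fx n) (fa n) (fb n) (fc n) else
    c19 K NP NW TB (fx n) (fa n) (fb n) (fc n) (fd n)

/-- kinds `24, .., 31` -/
def g3 (K NP NW TB k n : ℕ) : List ℕ :=
  bif Nat.beq k 1 then c25 K NP NW TB (fx n) (fa n) (fb n) (fc n) else
  bif Nat.beq k 0 then c24 K NP NW TB (fx n) (fa n) (fb n) (fc n) (fd n) else
  bif Nat.beq k 2 then c26 K NP NW TB (fx n) (fa n) (fb n) (fc n) else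
  bif Nat.beq k 3 then c27 K NP NW TB (fx n) (fa n) (fb n) else
  bif Nat.beq k 4 then c28 K NP NW TB (fx n) (fa n) (fb n) (fc n) else
  bif Nat.beq k 5 then c29 K NP NW TB (fx n) (fa n) (fb n) (fc n) (fd n) else
  bif Nat.beq k 6 then c30 K NP NW TB (fx n) (fa n) (fb n) (fc n) else c31 K NP NW TB (fx n) (fa n) (fb n) (fc n)

/-- kinds `32, .., 39` -/
def g4 (K NP NW TB k n : ℕ) : List ℕ :=
  bif Nat.beq k 0 then c32 K NP NW TB (fx n) (fa n) (fb n) (fc n) (fd n) else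
  bif Nat.beq k 1 then c33 K NP NW TB (fx n) (fa n) (fb n) else
  bif Nat.beq k 2 then c34 K NP NW TB (fx n) (fa n) (fb n) (fc n) (fd n) else
  bif Nat.beq k 3 then c35 K NP NW TB (fx n) (fa n) (fb n) (fc n) else
  bif Nat.beq k 4 then c36 K NP NW TB (fx n) (fa n) (fb n) (fc n) else
  bif Nat.beq k 5 then c37 K NP NW TB (fx n) (fa n) (fb n) (fc n) (fd n) else
  bif Nat.beq k 6 then c38 K NP NW TB (fx n) (fa n) (fb n) (fc n) (fd n) else c39 K NP NW TB (fx n) (fa n) (fb n) (fc n)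

/-- kinds `40, .., 47` -/
def g5 (K NP NW TB k n : ℕ) : List ℕ :=
  bif Nat.beq k 1 then c41 K NP NW TB (fx n) (fa n) (fb n) (fc n) (fd n) (fe n) else
  bif Nat.beq k 0 then c40 K NP NW TB (fx n) (fa n) (fb n) (fc n) (fd n) (fe n) else
  bif Nat.beq k 2 then c42 K NP NW TB (fx n) (fa n) (fb n) (fc n) (fd n) (fe n) else
  bif Nat.beq k 3 then c43 K NP NW TB (fx n) (fa n) (fb n) (fc n) (fd n) else
  bif Nat.beq k 4 then c44 K NP NW TB (fx n) (fa n) (fb n) (fc n) (fd n) else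
  bif Nat.beq k 5 then c45 K NP NW TB (fx n) (fa n) (fb n) else
  bif Nat.beq k 6 then c46 K NP NW TB (fx n) (fa n) (fb n) (fc n) (fd n) else c47 K NP NW TB (fx n) (fa n) (fb n) (fc n)

/-- kind `55`, by the last field -/
def g7 (K NP NW TB k n : ℕ) : List ℕ :=
  bif Nat.beq k 0 then d0 K NP NW TB (fx n) (fa n) (fb n) else
  bif Nat.beq k 1 then d1 K NP NW TB (fx n) (fa n) (fb n) (fc n) (fd n) else
  bif Nat.beq k 2 then d2 K NP NW TB (fx n) (fa n) (fb n) (fc n) else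
  bif Nat.beq k 3 then d3 K NP NW TB (fx n) (fa n) (fb n) (fc n) (fd n) else
  bif Nat.beq k 4 then d4 K NP NW TB (fx n) (fa n) (fb n) else
  bif Nat.beq k 5 then d5 K NP NW TB (fx n) (fa n) (fb n) (fc n) else
  bif Nat.beq k 6 then d6 K NP NW TB (fx n) (fa n) (fb n) else
  bif Nat.beq k 7 then d7 K NP NW TB (fx n) (fa n) (fb n) (fc n) else
  bif Nat.beq k 8 then d8 K NP NW TB (fx n) (fa n) (fb n) else
  bif Nat.beq k 9 then d9 K NP NW TB (fx n) (fa n) (fb n) (fc n) else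
    d10 K NP NW TB (fx n) (fa n) (fb n) (fc n)

/-- kinds `48, .., 55` -/
def g6 (K NP NW TB k n : ℕ) : List ℕ :=
  bif Nat.beq k 4 then c52 K NP NW TB (fx n) (fa n) (fb n) (fc n) (fd n) (fe n) else
  bif Nat.beq k 5 then c53 K NP NW TB (fx n) (fa n) (fb n) (fc n) (Nat.div (fd n) 2) (Nat.mod (fd n) 2) (fe n) else
  bif Nat.beq k 6 then c54 K NP NW TB (fx n) (fa n) (fb n) (fc n) (fd n) else
  bif Nat.beq k 0 then c48 K NP NW TB (fx n) (fa n) (fb n) (fc n) else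
  bif Nat.beq k 1 then c49 K NP NW TB (fx n) (fa n) (fb n) (fc n) (fd n) else
  bif Nat.beq k 2 then c50 K NP NW TB (fx n) (fa n) (fb n) (fc n) (fd n) else
  bif Nat.beq k 3 then c51 K NP NW TB (fx n) (fa n) (fb n) (fc n) (fd n) (fe n) else g7 K NP NW TB (fe n) n

/-- **the clause of a code** -/
def gen (K NP NW TB n : ℕ) : List ℕ :=
  bif Nat.beq (Nat.land (Nat.shiftRight n 3) 7) 2 then g2 K NP NW TB (Nat.land n 7) n else
  bif Nat.beq (Nat.land (Nat.shiftRight n 3) 7) 0 then g0 K NP NW TB (Nat.land n 7) n else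
  bif Nat.beq (Nat.land (Nat.shiftRight n 3) 7) 1 then g1 K NP NW TB (Nat.land n 7) n else
  bif Nat.beq (Nat.land (Nat.shiftRight n 3) 7) 3 then g3 K NP NW TB (Nat.land n 7) n else
  bif Nat.beq (Nat.land (Nat.shiftRight n 3) 7) 4 then g4 K NP NW TB (Nat.land n 7) n else
  bif Nat.beq (Nat.land (Nat.shiftRight n 3) 7) 5 then g5 K NP NW TB (Nat.land n 7) n else
  bif Nat.beq (Nat.land (Nat.shiftRight n 3) 7) 6 then g6 K NP NW TB (Nat.land n 7) n else trv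

section
variable {K NP NW TB : ℕ} {M : MdW K NP NW (nbf K TB)} {v : ℕ → Prop} (hv : Ag M v)
include hv

theorem g0_ho (k n : ℕ) : Ho v (g0 K NP NW TB k n) := by
  unfold g0
  exact ho_bif (h4 hv _ _ _ _ _) (ho_bif (h0 hv _ _ _) (ho_bif (h1 hv _ _ _ _) (ho_bif (h2 hv _ _)
    (ho_bif (h7 hv _ _ _ _) (ho_bif (h6 hv _ _ _ _) (ho_bif (h3 hv _ _) (h5 hv _ _)))))))

theorem g1_ho (k n : ℕ) : Ho v (g1 K NP NW TB k n) := by
  unfold g1
  exact ho_bif (h9 hv _ _ _ _ _) (ho_bif (h8 hv _ _) (ho_bif (h10 hv _ _ _) (ho_bif (h11 hv _ _ _)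
    (ho_bif (h12 hv _ _ _) (ho_bif (h13 hv _ _ _) (ho_bif (h14 hv _ _) (h15 hv _ _ _ _)))))))

theorem g2_ho (k n : ℕ) : Ho v (g2 K NP NW TB k n) := by
  unfold g2
  exact ho_bif (h22 hv _ _ _ _ _ _) (ho_bif (h23 hv _ _ _ _ _) (ho_bif (h21 hv _ _ _ _ _ _)
    (ho_bif (h20 hv _ _ _ _ _ _) (ho_bif (h16 hv _ _ _) (ho_bif (h17 hv _ _ _) (ho_bif (h18 hv _ _ _ _)
      (h19 hv _ _ _ _ _)))))))

theorem g3_ho (k n : ℕ) : Ho v (g3 K NP NW TB k n) := by
  unfold g3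
  exact ho_bif (h25 hv _ _ _ _) (ho_bif (h24 hv _ _ _ _ _) (ho_bif (h26 hv _ _ _ _) (ho_bif (h27 hv _ _ _)
    (ho_bif (h28 hv _ _ _ _) (ho_bif (h29 hv _ _ _ _ _) (ho_bif (h30 hv _ _ _ _) (h31 hv _ _ _ _)))))))

theorem g4_ho (k n : ℕ) : Ho v (g4 K NP NW TB k n) := by
  unfold g4
  exact ho_bif (h32 hv _ _ _ _ _) (ho_bif (h33 hv _ _ _) (ho_bif (h34 hv _ _ _ _ _) (ho_bif (h35 hv _ _ _ _)
    (ho_bif (h36 hv _ _ _ _) (ho_bif (h37 hv _ _ _ _ _) (ho_bif (h38 hv _ _ _ _ _) (h39 hv _ _ _ _)))))))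

theorem g5_ho (k n : ℕ) : Ho v (g5 K NP NW TB k n) := by
  unfold g5
  exact ho_bif (h41 hv _ _ _ _ _ _) (ho_bif (h40 hv _ _ _ _ _ _) (ho_bif (h42 hv _ _ _ _ _ _)
    (ho_bif (h43 hv _ _ _ _ _) (ho_bif (h44 hv _ _ _ _ _) (ho_bif (h45 hv _ _ _) (ho_bif (h46 hv _ _ _ _ _)
      (h47 hv _ _ _ _)))))))

theorem g7_ho (k n : ℕ) : Ho v (g7 K NP NW TB k n) := by
  unfold g7
  exact ho_bif (e0 hv _ _ _) (ho_bif (e1 hv _ _ _ _ _) (ho_bif (e2 hv _ _ _ _) (ho_bif (e3 hv _ _ _ _ _)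
    (ho_bif (e4 hv _ _ _) (ho_bif (e5 hv _ _ _ _) (ho_bif (e6 hv _ _ _) (ho_bif (e7 hv _ _ _ _)
      (ho_bif (e8 hv _ _ _) (ho_bif (e9 hv _ _ _ _) (e10 hv _ _ _ _))))))))))

theorem g6_ho (k n : ℕ) : Ho v (g6 K NP NW TB k n) := by
  unfold g6
  exact ho_bif (h52 hv _ _ _ _ _ _) (ho_bif (h53 hv _ _ _ _ _ _ _) (ho_bif (h54 hv _ _ _ _ _)
    (ho_bif (h48 hv _ _ _ _) (ho_bif (h49 hv _ _ _ _ _) (ho_bif (h50 hv _ _ _ _ _) (ho_bif (h51 hv _ _ _ _ _ _)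
      (g7_ho hv _ _)))))))

/-- **every clause holds in the model** -/
theorem gen_ho (n : ℕ) : Ho v (gen K NP NW TB n) := by
  unfold gen
  exact ho_bif (g2_ho hv _ _) (ho_bif (g0_ho hv _ _) (ho_bif (g1_ho hv _ _) (ho_bif (g3_ho hv _ _)
    (ho_bif (g4_ho hv _ _) (ho_bif (g5_ho hv _ _) (ho_bif (g6_ho hv _ _) ho_trv))))))

end

/-- the generator with external clauses and definitions -/
noncomputable def genW (K NP NW TB : ℕ) (e : List (List ℕ)) (t : ℕ → List ℕ) : ℕ → List ℕ :=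
  genX (gen K NP NW TB) e t

/-- **Soundness of certificates.** `e`: external clauses over the atoms (defined atoms allowed), `t`: definitions. -/
theorem chkW_sound {K NP NW TB : ℕ} {e : List (List ℕ)} {t : ℕ → List ℕ} {B HB dA d : ℕ} {A C D H : List ℕ}
    (h : chkG (genW K NP NW TB e t) B HB dA d A C D H = true) {M : MdW K NP NW (nbf K TB)}
    (he : ∀ c ∈ e, Ho (vx M.bv t) c) : False :=
  chkG_sound h fun n => genX_ho (fun n => gen_ho (ag_vx M t) n) he n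

end Vale.Agent.P032.H240.W
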