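import Vale.Agent.P032.H240.W.GenE
import Vale.Agent.P032.H240.W.Bz

/-!
# P032: the wild generator with the second structure and the zone block

* `genE` : kinds of `gen` and kind `59` (`MdE`), `genZ` : also kind `60` (zone block),
* `chkE_sound`, `chkZ_sound` : certificates,
* `mde_setB`, `exists_mdez` : the bits of the zone block do not disturb `MdE`.
-/

namespace Vale.Agent.P032.H240.W

open Vale.Agent.P032.H820.K (nbf fe)
open Vale.Agent.P032.H993 (MdE)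
open Vale.Agent.P032.H254 (DZ)

/-- kinds of `gen` and kind `59` -/
def genE (K NP NW TB n : ℕ) : List ℕ :=
  bif Nat.beq (Nat.land n 63) 59 then ge K NP NW TB (fe n) n else gen K NP NW TB n

/-- kinds of `genE` and kind `60` -/
def genZ (K NP NW TB n : ℕ) : List ℕ :=
  bif Nat.beq (Nat.land n 63) 60 then gz K NP NW TB (fe n) n else genE K NP NW TB n

section
variable {K NP NW TB : ℕ} {M : MdW K NP NW (nbf K TB)} {v : ℕ → Prop}

theorem genE_ho (he : MdE M) (hv : Ag M v) (n : ℕ) : Ho v (genE K NP NW TB n) := by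
  unfold genE
  exact ho_bif (ge_ho he hv _ _) (gen_ho hv _)

theorem genZ_ho (he : MdE M) {Z : DZ M} (hb : BZ M Z) (hv : Ag M v) (n : ℕ) : Ho v (genZ K NP NW TB n) := by
  unfold genZ
  exact ho_bif (gz_ho hb hv _ _) (genE_ho he hv _)

/-- **Soundness of certificates**, with `MdE` -/
theorem chkE_sound {e : List (List ℕ)} {t : ℕ → List ℕ} {B HB dA d : ℕ} {A C D H : List ℕ}
    (h : chkG (genX (genE K NP NW TB) e t) B HB dA d A C D H = true) (hE : MdE M)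
    (he : ∀ c ∈ e, Ho (vx M.bv t) c) : False :=
  chkG_sound h fun n => genX_ho (fun n => genE_ho hE (ag_vx M t) n) he n

/-- **Soundness of certificates**, with `MdE` and the zone block -/
theorem chkZ_sound {e : List (List ℕ)} {t : ℕ → List ℕ} {B HB dA d : ℕ} {A C D H : List ℕ}
    (h : chkG (genX (genZ K NP NW TB) e t) B HB dA d A C D H = true) (hE : MdE M) {Z : DZ M} (hb : BZ M Z)
    (he : ∀ c ∈ e, Ho (vx M.bv t) c) : False :=
  chkG_sound h fun n => genX_ho (fun n => genZ_ho hE hb (ag_vx M t) n) he n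

end

variable {K NP NW : ℕ} {nb : ℕ → ℕ → ℕ} {M : MdW K NP NW nb} {b : ℕ → ℕ → ℕ → ℕ → Prop}

/-- other bits which agree at the places of `MdE` -/
theorem mde_setB (he : MdE M) (hb : ∀ x j k q, k = 4 ∨ k = 5 → (b x j k q ↔ M.B x j k q)) : MdE (M.setB b) where
  weq := he.weq
  noov := he.noov
  lX := he.lX
  l3 := he.l3
  w2l := he.w2l
  w2ll := he.w2ll
  esym := fun hx hi hj h => (hb _ _ _ _ (Or.inl rfl)).2 (he.esym hx hi hj ((hb _ _ _ _ (Or.inl rfl)).1 h))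
  eL := fun hx ht hs hi hj hij h1 h2 h3 => (hb _ _ _ _ (Or.inl rfl)).2 (he.eL hx ht hs hi hj hij h1 h2 h3)
  eN := fun hx hs hi hj hij hy h1 h2 h3 => (hb _ _ _ _ (Or.inl rfl)).2 (he.eN hx hs hi hj hij hy h1 h2 h3)
  eP := fun hx hs hi hj hij hy h1 h2 h3 => (hb _ _ _ _ (Or.inl rfl)).2 (he.eP hx hs hi hj hij hy h1 h2 h3)
  edeg := fun S hx hi h1 h2 h3 => by
    obtain ⟨d, hd, e, he', h4, h5, h6, h7, h8, h9, h10⟩ := he.edeg S hx hi h1 h2 h3
    exact ⟨d, hd, e, he', h4, h5, h6, h7, h8, fun h => h9 ((hb _ _ _ _ (Or.inl rfl)).1 h),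
      fun h => h10 ((hb _ _ _ _ (Or.inl rfl)).1 h)⟩
  wsym := fun hx hi hj h => (hb _ _ _ _ (Or.inr rfl)).2 (he.wsym hx hi hj ((hb _ _ _ _ (Or.inr rfl)).1 h))
  wE := fun hx hi hj h h' => he.wE hx hi hj ((hb _ _ _ _ (Or.inr rfl)).1 h) ((hb _ _ _ _ (Or.inl rfl)).1 h')
  wL := fun hx ht hs hi hj h => he.wL hx ht hs hi hj ((hb _ _ _ _ (Or.inr rfl)).1 h)
  wN := fun hx hs hi hj hy h => he.wN hx hs hi hj hy ((hb _ _ _ _ (Or.inr rfl)).1 h)
  wdeg := fun S hx hi h1 h2 h3 => by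
    obtain ⟨d, hd, e, he', h4, h5, h6, h7, h8, h9, h10⟩ := he.wdeg S hx hi h1 h2 h3
    exact ⟨d, hd, e, he', h4, h5, h6, h7, h8, (hb _ _ _ _ (Or.inr rfl)).2 h9, (hb _ _ _ _ (Or.inr rfl)).2 h10⟩

/-- atoms of other kinds do not see the bits -/
theorem bv_setB {n : ℕ} (h : n % 16 ≠ 14) (h' : n % 16 ≠ 15) : (M.setB b).bv n ↔ M.bv n := by
  have e : Vale.Agent.P032.H820.K.a0 n = n % 16 := rfl
  have hlt := Nat.mod_lt n (show 0 < 16 by norm_num)
  unfold MdW.bv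
  rw [e]
  generalize n % 16 = m at h h' hlt
  interval_cases m <;> first | exact Iff.rfl | exact absurd rfl h | exact absurd rfl h'

/-- **A model with all bits.** -/
theorem exists_mdez (he : MdE M) (Z : DZ M) (h : 0 < NW) : ∃ (b : ℕ → ℕ → ℕ → ℕ → Prop) (Z' : DZ (M.setB b)),
    MdE (M.setB b) ∧ BZ (M.setB b) Z' ∧ Z'.Zc = Z.Zc ∧ Z'.Za = Z.Za ∧ (Z'.E ↔ Z.E) ∧ Z'.MW = Z.MW ∧
      ∀ x j k q, k < 6 → (x = 0 → 2 ≤ k) → (b x j k q ↔ M.B x j k q) := by
  obtain ⟨b, Z', h1, h2, h3, h4, h5, h6⟩ := exists_bz Z h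
  exact ⟨b, Z', mde_setB he fun x j k q hk => h6 x j k q (by omega) (by omega), h1, h2, h3, h4, h5, h6⟩

end Vale.Agent.P032.H240.W
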