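import Vale.Agent.P032.H240.W.Gen3
import Vale.Agent.P032.H993.MdE

/-!
# P032: the clauses of the second structure `MdE`, by code

* `ge` : the clause of a code (subkind in the last field), `ge_ho` : it holds in every model.
-/

namespace Vale.Agent.P032.H240.W

open Vale.Agent.P032.H820.K (df ad hcell gk gt nbf En mp ps ng trv cd lb lb_iff cix ad_lt fx fa fb fc fd fe)
open Vale.Agent.P032.H993 (MdE)

/-- at most three colours in a letter -/
def w0 (K NP NW TB x t sd m : ℕ) : List ℕ :=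
  cd (lb x NW && lb t (Nat.mul 6 K) && lb sd 2 && Nat.beq (pc m) 4) (im (fun q => ng (En 11 x t (Nat.add sd 4) q)) m [])

/-- equal chosen letters -/
def w1 (K NP NW TB x t sd p q : ℕ) : List ℕ :=
  cd (lb x NW && lb t (Nat.mul 6 K) && lb sd 2 && lb q 6 && !(Nat.beq q p))
    [ng (En 9 x t (Nat.mul 2 sd) p), ng (En 9 x t (Nat.succ (Nat.mul 2 sd)) p), ng (En 11 x t (Nat.add sd 4) q)]

/-- no overlap -/
def w2 (K NP NW TB x t sd p q : ℕ) : List ℕ :=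
  cd (lb x NW && lb t (Nat.mul 6 K) && lb sd 2 && lb p 6 && lb q 6 && !(Nat.beq p q))
    [ng (En 11 x t (Nat.add sd 4) p), ng (En 11 x t (Nat.succ (Nat.mul 2 sd)) q), ps (En 5 x 0 0 q)]

def w3 (K NP NW TB x t sd p q : ℕ) : List ℕ :=
  cd (lb x NW && lb t (Nat.mul 6 K) && lb sd 2 && lb p 6 && lb q 6 && !(Nat.beq p q))
    [ng (En 11 x t (Nat.add sd 4) p), ng (En 9 x t (Nat.succ (Nat.mul 2 sd)) q), ps (En 5 x 0 0 q)]

/-- two colours in the letter: hard -/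
def w4 (K NP NW TB x t sd p q : ℕ) : List ℕ :=
  cd (lb x NW && lb t (Nat.mul 6 K) && lb sd 2 && lb p 6 && lb q 6 && !(Nat.beq p q) && lb (nbf K TB x t) NP)
    [ng (En 11 x t (Nat.add sd 4) p), ng (En 11 x t (Nat.add sd 4) q), ps (En 6 (nbf K TB x t) 0 0 0)]

/-- a palette at distance one from the point of the letter -/
def w5 (K NP NW TB x t sd s m : ℕ) : List ℕ :=
  cd (lb x NW && lb t (Nat.mul 6 K) && lb sd 2 && lb s (Nat.mul 6 K) && lb (nbf K TB x t) NP &&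
      lb (nbf K TB (nbf K TB x t) s) NP)
    (im (fun q => ng (En 11 x t (Nat.add sd 4) q)) m (om (fun q => ps (En 4 (nbf K TB (nbf K TB x t) s) 0 0 q)) m []))

/-- a letter of the circle about the point of the letter -/
def w6 (K NP NW TB x t sd s sd' m : ℕ) : List ℕ :=
  cd (lb x NW && lb t (Nat.mul 6 K) && lb sd 2 && lb s (Nat.mul 6 K) && lb sd' 2 && lb (nbf K TB x t) NW)
    (im (fun q => ng (En 11 x t (Nat.add sd 4) q)) m (om (fun q => ps (En 11 (nbf K TB x t) s (Nat.add sd' 4) q)) m []))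

/-- the other colours -/
def o2 (f : ℕ → ℕ) (i j : ℕ) (r : List ℕ) : List ℕ := mf (fun a => !(Nat.beq a i) && !(Nat.beq a j)) f 6 r

/-- a letter with two colours -/
def w7 (K NP NW TB x t sd i j : ℕ) : List ℕ :=
  cd (lb x NW && lb t (Nat.mul 6 K) && lb sd 2 && lb i 6 && lb j 6 && !(Nat.beq i j))
    (ng (En 11 x t (Nat.add sd 4) i) :: ng (En 11 x t (Nat.add sd 4) j) ::
      o2 (fun r => ps (En 11 x t (Nat.add sd 4) r)) i j [ps (En 14 x i 4 j)])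

/-- a neighbour with two colours -/
def w8 (K NP NW TB x s i j : ℕ) : List ℕ :=
  cd (lb x NP && lb s (Nat.mul 6 K) && lb i 6 && lb j 6 && !(Nat.beq i j) && lb (nbf K TB x s) NP)
    (ng (En 4 (nbf K TB x s) 0 0 i) :: ng (En 4 (nbf K TB x s) 0 0 j) ::
      o2 (fun r => ps (En 4 (nbf K TB x s) 0 0 r)) i j [ps (En 14 x i 4 j)])

def w9 (K NP NW TB x s i j : ℕ) : List ℕ :=
  cd (lb x NP && lb s (Nat.mul 6 K) && lb i 6 && lb j 6 && !(Nat.beq i j) && lb (nbf K TB x s) NP)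
    (ng (En 5 x 0 0 i) :: ng (En 5 x 0 0 j) ::
      o2 (fun r => ps (En 4 (nbf K TB x s) 0 0 r)) i j [ps (En 14 x i 4 j)])

/-- symmetry -/
def w10 (K NP NW TB x i j : ℕ) : List ℕ := cd (lb x NP && lb i 6 && lb j 6) [ng (En 14 x i 4 j), ps (En 14 x j 4 i)]

def w11 (K NP NW TB x i j : ℕ) : List ℕ := cd (lb x NP && lb i 6 && lb j 6) [ng (En 14 x i 5 j), ps (En 14 x j 5 i)]

/-- a wall pair is no pair -/
def w12 (K NP NW TB x i j : ℕ) : List ℕ := cd (lb x NP && lb i 6 && lb j 6) [ng (En 14 x i 5 j), ng (En 14 x i 4 j)]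

def w13 (K NP NW TB x t sd i j : ℕ) : List ℕ :=
  cd (lb x NW && lb t (Nat.mul 6 K) && lb sd 2 && lb i 6 && lb j 6)
    (ng (En 14 x i 5 j) :: o2 (fun r => ps (En 11 x t (Nat.add sd 4) r)) i j [])

def w14 (K NP NW TB x s i j : ℕ) : List ℕ :=
  cd (lb x NP && lb s (Nat.mul 6 K) && lb i 6 && lb j 6 && lb (nbf K TB x s) NP)
    (ng (En 14 x i 5 j) :: o2 (fun r => ps (En 4 (nbf K TB x s) 0 0 r)) i j [])

/-- degrees: `b = 0` pairs, `b = 1` walls; all other colours than `i`, `d` of the mask are not in `T x`, the others are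
pairs (no walls) with `i` -/
def w15 (K NP NW TB x i d m b : ℕ) : List ℕ :=
  cd (lb x NP && lb i 6)
    (ng (En 12 x 4 5 0) :: ng (En 4 x 0 0 i) ::
      mf (fun e => !(Nat.beq e i) && !(Nat.beq e d) && inm m e) (fun e => ps (En 4 x 0 0 e)) 6
      (mf (fun e => !(Nat.beq e i) && !(Nat.beq e d) && !(inm m e))
        (fun e => bif Nat.beq b 0 then ng (En 14 x i 4 e) else ps (En 14 x i 5 e)) 6 []))

/-- chosen letters -/
def w16 (K NP NW TB x t b q : ℕ) : List ℕ :=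
  cd (lb x NW && lb t (Nat.mul 6 K) && lb b 4 && lb q 6) [ng (En 9 x t b q), ps (En 11 x t (Nat.add (Nat.div b 2) 4) q)]

def w17 (K NP NW TB x t sd p q : ℕ) : List ℕ :=
  cd (lb x NW && lb t (Nat.mul 6 K) && lb sd 2 && lb p 6 && lb q 6)
    [ng (En 11 x t (Nat.add sd 4) p), ng (En 5 x 0 0 p), ng (En 9 x t (Nat.succ (Nat.mul 2 sd)) q), ps (En 5 x 0 0 q)]

/-! ### soundness -/

section
variable {K NP NW TB : ℕ} {M : MdW K NP NW (nbf K TB)} {v : ℕ → Prop} (he : MdE M) (hv : Ag M v)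

omit he hv in
theorem ho_o2_or {f : ℕ → ℕ} {i j : ℕ} {r : List ℕ} (h : (∀ a < 6, a ≠ i → a ≠ j → ¬ lv v (f a)) → Ho v r) :
    Ho v (o2 f i j r) := by
  refine ho_mf_or fun h1 => h fun a ha hi hj => h1 a ha ?_
  rw [Bool.and_eq_true, nbne, nbne]
  exact ⟨hi, hj⟩

include hv

theorem bWa {x t sd q : ℕ} (hx : x < NW) (ht : t < 6 * K) (hs : sd < 2) :
    v (En 9 x t (Nat.mul 2 sd) q) ↔ M.W x t sd 0 = q := by
  have hK := M.hK
  have hNP := M.hNP
  have hNW := M.hNW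
  have h := bW hv (x := x) (j := t) (k := 2 * sd) (q := q) (by omega) (by omega) (by omega)
  rw [show 2 * sd / 2 = sd by omega, show 2 * sd % 2 = 0 by omega] at h
  exact h

theorem bWb {x t sd q : ℕ} (hx : x < NW) (ht : t < 6 * K) (hs : sd < 2) :
    v (En 9 x t (Nat.succ (Nat.mul 2 sd)) q) ↔ M.W x t sd 1 = q := by
  have hK := M.hK
  have hNP := M.hNP
  have hNW := M.hNW
  have h := bW hv (x := x) (j := t) (k := 2 * sd + 1) (q := q) (by omega) (by omega) (by omega)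
  rw [show (2 * sd + 1) / 2 = sd by omega, show (2 * sd + 1) % 2 = 1 by omega] at h
  exact h

theorem bTb {x t sd q : ℕ} (hx : x < NW) (ht : t < 6 * K) (hs : sd < 2) :
    v (En 11 x t (Nat.succ (Nat.mul 2 sd)) q) ↔ M.LT x t sd 1 q := by
  have hK := M.hK
  have hNP := M.hNP
  have hNW := M.hNW
  have h := bLT hv (x := x) (j := t) (k := 2 * sd + 1) (q := q) (by omega) (by omega) (by omega)
  rw [show (2 * sd + 1) / 2 = sd by omega, show (2 * sd + 1) % 2 = 1 by omega] at h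
  exact h

theorem bU {x t sd q : ℕ} (hx : x < NW) (ht : t < 6 * K) (hs : sd < 2) :
    v (En 11 x t (Nat.add sd 4) q) ↔ M.LU x t sd q := by
  have hK := M.hK
  have hNP := M.hNP
  have hNW := M.hNW
  exact bLU hv (by omega) (by omega) hs

include he

theorem hw0 (x t sd m : ℕ) : Ho v (w0 K NP NW TB x t sd m) := by
  refine ho_cd fun h => ?_
  simp only [Bool.and_eq_true, lb_iff, Nat.mul_eq, nbeq] at h
  obtain ⟨⟨⟨hx, ht⟩, hs⟩, hm⟩ := h
  refine ho_im_or fun h1 => ?_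
  exfalso
  have h2 := he.l3 (sm m) hx ht hs fun q hq => by
    rw [mem_sm] at hq
    refine ⟨hq.1, ?_⟩
    by_contra h3
    exact h1 q hq.1 hq.2 (lv_ng.2 fun h4 => h3 ((bU hv hx ht hs).1 h4))
  rw [sm_card, hm] at h2
  omega

theorem hw1 (x t sd p q : ℕ) : Ho v (w1 K NP NW TB x t sd p q) := by
  refine ho_cd fun h => ?_
  simp only [Bool.and_eq_true, lb_iff, Nat.mul_eq, nbne] at h
  obtain ⟨⟨⟨⟨hx, ht⟩, hs⟩, hq⟩, hqp⟩ := h
  refine hn fun h1 => hn fun h2 => hng fun h3 => ?_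
  have e1 := (bWa hv hx ht hs).1 h1
  have e2 := (bWb hv hx ht hs).1 h2
  have h4 := he.weq hx ht hs hq (e1.trans e2.symm) (by rw [e1]; exact hqp)
  rcases (bU hv hx ht hs).1 h3 with h5 | h5
  · exact h4.1 h5
  · exact h4.2 h5

theorem hw2 (x t sd p q : ℕ) : Ho v (w2 K NP NW TB x t sd p q) := by
  refine ho_cd fun h => ?_
  have hNP := M.hNP
  have hNW := M.hNW
  simp only [Bool.and_eq_true, lb_iff, Nat.mul_eq, nbne] at h
  obtain ⟨⟨⟨⟨⟨hx, ht⟩, hs⟩, hp'⟩, hq⟩, hpq⟩ := h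
  exact hn fun h1 => hn fun h2 => hp ((bP hv (by omega)).2
    (he.noov hx ht hs hp' hq hpq ((bU hv hx ht hs).1 h1) ((bTb hv hx ht hs).1 h2)))

theorem hw3 (x t sd p q : ℕ) : Ho v (w3 K NP NW TB x t sd p q) := by
  refine ho_cd fun h => ?_
  have hNP := M.hNP
  have hNW := M.hNW
  simp only [Bool.and_eq_true, lb_iff, Nat.mul_eq, nbne] at h
  obtain ⟨⟨⟨⟨⟨hx, ht⟩, hs⟩, hp'⟩, hq⟩, hpq⟩ := h
  refine hn fun h1 => hn fun h2 => hp ((bP hv (by omega)).2 ?_)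
  have e2 := (bWb hv hx ht hs).1 h2
  exact he.noov hx ht hs hp' hq hpq ((bU hv hx ht hs).1 h1) (e2 ▸ M.wm hx ht hs (by norm_num))

theorem hw4 (x t sd p q : ℕ) : Ho v (w4 K NP NW TB x t sd p q) := by
  refine ho_cd fun h => ?_
  have hNP := M.hNP
  simp only [Bool.and_eq_true, lb_iff, Nat.mul_eq, nbne] at h
  obtain ⟨⟨⟨⟨⟨⟨hx, ht⟩, hs⟩, hp'⟩, hq⟩, hpq⟩, hy⟩ := h
  exact hn fun h1 => hn fun h2 => hp ((bX hv (by omega)).2
    (he.lX hx ht hs hp' hq hpq hy ((bU hv hx ht hs).1 h1) ((bU hv hx ht hs).1 h2)))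

theorem hw5 (x t sd s m : ℕ) : Ho v (w5 K NP NW TB x t sd s m) := by
  refine ho_cd fun h => ?_
  have hNP := M.hNP
  simp only [Bool.and_eq_true, lb_iff, Nat.mul_eq] at h
  obtain ⟨⟨⟨⟨⟨hx, ht⟩, hs⟩, hs'⟩, hy⟩, hy'⟩ := h
  obtain ⟨q, hq, h1, h2⟩ := he.w2l hx ht hs hs' hy hy'
  refine ho_im_or fun h3 => ?_
  refine ho_om hq (Bool.eq_false_iff.2 fun h4 => h3 q hq h4 (lv_ng.2 fun h5 => h2 ((bU hv hx ht hs).1 h5))) ?_
  exact lv_ps.2 ((bT hv (by omega)).2 h1)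

theorem hw6 (x t sd s sd' m : ℕ) : Ho v (w6 K NP NW TB x t sd s sd' m) := by
  refine ho_cd fun h => ?_
  simp only [Bool.and_eq_true, lb_iff, Nat.mul_eq] at h
  obtain ⟨⟨⟨⟨⟨hx, ht⟩, hs⟩, hs'⟩, hsd⟩, hy⟩ := h
  obtain ⟨q, hq, h1, h2⟩ := he.w2ll hx ht hs hs' hsd hy
  refine ho_im_or fun h3 => ?_
  refine ho_om hq (Bool.eq_false_iff.2 fun h4 => h3 q hq h4 (lv_ng.2 fun h5 => h2 ((bU hv hx ht hs).1 h5))) ?_
  exact lv_ps.2 ((bU hv hy hs' hsd).2 h1)

theorem hw7 (x t sd i j : ℕ) : Ho v (w7 K NP NW TB x t sd i j) := by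
  refine ho_cd fun h => ?_
  have hNP := M.hNP
  have hNW := M.hNW
  simp only [Bool.and_eq_true, lb_iff, Nat.mul_eq, nbne] at h
  obtain ⟨⟨⟨⟨⟨hx, ht⟩, hs⟩, hi⟩, hj⟩, hij⟩ := h
  refine hn fun h1 => hn fun h2 => ho_o2_or fun h3 => hp ((bB hv (by omega) (by omega) (by norm_num)).2 ?_)
  exact he.eL hx ht hs hi hj hij ((bU hv hx ht hs).1 h1) ((bU hv hx ht hs).1 h2)
    fun r hr h4 h5 h6 => h3 r hr h4 h5 (lv_ps.2 ((bU hv hx ht hs).2 h6))

theorem hw8 (x s i j : ℕ) : Ho v (w8 K NP NW TB x s i j) := by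
  refine ho_cd fun h => ?_
  have hNP := M.hNP
  simp only [Bool.and_eq_true, lb_iff, Nat.mul_eq, nbne] at h
  obtain ⟨⟨⟨⟨⟨hx, hs⟩, hi⟩, hj⟩, hij⟩, hy⟩ := h
  refine hn fun h1 => hn fun h2 => ho_o2_or fun h3 => hp ((bB hv (by omega) (by omega) (by norm_num)).2 ?_)
  exact he.eN hx hs hi hj hij hy ((bT hv (by omega)).1 h1) ((bT hv (by omega)).1 h2)
    fun r hr h4 h5 h6 => h3 r hr h4 h5 (lv_ps.2 ((bT hv (by omega)).2 h6))

theorem hw9 (x s i j : ℕ) : Ho v (w9 K NP NW TB x s i j) := by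
  refine ho_cd fun h => ?_
  have hNP := M.hNP
  simp only [Bool.and_eq_true, lb_iff, Nat.mul_eq, nbne] at h
  obtain ⟨⟨⟨⟨⟨hx, hs⟩, hi⟩, hj⟩, hij⟩, hy⟩ := h
  refine hn fun h1 => hn fun h2 => ho_o2_or fun h3 => hp ((bB hv (by omega) (by omega) (by norm_num)).2 ?_)
  exact he.eP hx hs hi hj hij hy ((bP hv (by omega)).1 h1) ((bP hv (by omega)).1 h2)
    fun r hr h4 h5 h6 => h3 r hr h4 h5 (lv_ps.2 ((bT hv (by omega)).2 h6))

theorem hw10 (x i j : ℕ) : Ho v (w10 K NP NW TB x i j) := by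
  refine ho_cd fun h => ?_
  have hNP := M.hNP
  simp only [Bool.and_eq_true, lb_iff] at h
  obtain ⟨⟨hx, hi⟩, hj⟩ := h
  exact hn fun h1 => hp ((bB hv (by omega) (by omega) (by norm_num)).2
    (he.esym hx hi hj ((bB hv (by omega) (by omega) (by norm_num)).1 h1)))

theorem hw11 (x i j : ℕ) : Ho v (w11 K NP NW TB x i j) := by
  refine ho_cd fun h => ?_
  have hNP := M.hNP
  simp only [Bool.and_eq_true, lb_iff] at h
  obtain ⟨⟨hx, hi⟩, hj⟩ := h
  exact hn fun h1 => hp ((bB hv (by omega) (by omega) (by norm_num)).2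
    (he.wsym hx hi hj ((bB hv (by omega) (by omega) (by norm_num)).1 h1)))

theorem hw12 (x i j : ℕ) : Ho v (w12 K NP NW TB x i j) := by
  refine ho_cd fun h => ?_
  have hNP := M.hNP
  simp only [Bool.and_eq_true, lb_iff] at h
  obtain ⟨⟨hx, hi⟩, hj⟩ := h
  exact hn fun h1 => hng fun h2 => he.wE hx hi hj ((bB hv (by omega) (by omega) (by norm_num)).1 h1)
    ((bB hv (by omega) (by omega) (by norm_num)).1 h2)

theorem hw13 (x t sd i j : ℕ) : Ho v (w13 K NP NW TB x t sd i j) := by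
  refine ho_cd fun h => ?_
  have hNP := M.hNP
  have hNW := M.hNW
  simp only [Bool.and_eq_true, lb_iff, Nat.mul_eq] at h
  obtain ⟨⟨⟨⟨hx, ht⟩, hs⟩, hi⟩, hj⟩ := h
  refine hn fun h1 => ho_o2_or fun h3 => ?_
  obtain ⟨r, hr, h4, h5, h6⟩ := he.wL hx ht hs hi hj ((bB hv (by omega) (by omega) (by norm_num)).1 h1)
  exact absurd (lv_ps.2 ((bU hv hx ht hs).2 h6)) (h3 r hr h4 h5)

theorem hw14 (x s i j : ℕ) : Ho v (w14 K NP NW TB x s i j) := by
  refine ho_cd fun h => ?_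
  have hNP := M.hNP
  simp only [Bool.and_eq_true, lb_iff, Nat.mul_eq] at h
  obtain ⟨⟨⟨⟨hx, hs⟩, hi⟩, hj⟩, hy⟩ := h
  refine hn fun h1 => ho_o2_or fun h3 => ?_
  obtain ⟨r, hr, h4, h5, h6⟩ := he.wN hx hs hi hj hy ((bB hv (by omega) (by omega) (by norm_num)).1 h1)
  exact absurd (lv_ps.2 ((bT hv (by omega)).2 h6)) (h3 r hr h4 h5)

theorem hw15 (x i d m b : ℕ) : Ho v (w15 K NP NW TB x i d m b) := by
  refine ho_cd fun h => ?_
  have hNP := M.hNP
  simp only [Bool.and_eq_true, lb_iff] at h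
  obtain ⟨hx, hi⟩ := h
  refine hn fun h1 => hn fun h2 => ?_
  obtain ⟨S, h3, h4⟩ := (bF hv (by omega) (by norm_num)).1 h1
  have h5 := (bT hv (by omega)).1 h2
  cases hb : Nat.beq b 0
  · obtain ⟨d', hd', e, he', hde, hdi, hei, hTd, hTe, hBd, hBe⟩ := he.wdeg S hx hi h3 h4 h5
    obtain ⟨e, he1, hei, hed, hTe, hBe⟩ : ∃ e < 6, e ≠ i ∧ e ≠ d ∧ M.T x e ∧ M.B x i 5 e := by
      by_cases h6 : d' = d
      · exact ⟨e, he', hei, fun h7 => hde (h6.trans h7.symm), hTe, hBe⟩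
      · exact ⟨d', hd', hdi, h6, hTd, hBd⟩
    cases hm : inm m e
    · refine ho_mf_r (ho_mf (i := e) he1 ?_ ?_)
      · rw [hm, Bool.and_eq_true, Bool.and_eq_true, nbne, nbne]; exact ⟨⟨hei, hed⟩, rfl⟩
      · rw [cond_false]; exact lv_ps.2 ((bB hv (by omega) (by omega) (by norm_num)).2 hBe)
    · refine ho_mf (i := e) he1 ?_ (lv_ps.2 ((bT hv (by omega)).2 hTe))
      rw [hm, Bool.and_eq_true, Bool.and_eq_true, nbne, nbne]; exact ⟨⟨hei, hed⟩, rfl⟩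
  · obtain ⟨d', hd', e, he', hde, hdi, hei, hTd, hTe, hBd, hBe⟩ := he.edeg S hx hi h3 h4 h5
    obtain ⟨e, he1, hei, hed, hTe, hBe⟩ : ∃ e < 6, e ≠ i ∧ e ≠ d ∧ M.T x e ∧ ¬ M.B x i 4 e := by
      by_cases h6 : d' = d
      · exact ⟨e, he', hei, fun h7 => hde (h6.trans h7.symm), hTe, hBe⟩
      · exact ⟨d', hd', hdi, h6, hTd, hBd⟩
    cases hm : inm m e
    · refine ho_mf_r (ho_mf (i := e) he1 ?_ ?_)
      · rw [hm, Bool.and_eq_true, Bool.and_eq_true, nbne, nbne]; exact ⟨⟨hei, hed⟩, rfl⟩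
      · rw [cond_true]
        exact lv_ng.2 fun h6 => hBe ((bB hv (by omega) (by omega) (by norm_num)).1 h6)
    · refine ho_mf (i := e) he1 ?_ (lv_ps.2 ((bT hv (by omega)).2 hTe))
      rw [hm, Bool.and_eq_true, Bool.and_eq_true, nbne, nbne]; exact ⟨⟨hei, hed⟩, rfl⟩

omit he in
theorem hw16 (x t b q : ℕ) : Ho v (w16 K NP NW TB x t b q) := by
  refine ho_cd fun h => ?_
  have hK := M.hK
  have hNP := M.hNP
  have hNW := M.hNW
  simp only [Bool.and_eq_true, lb_iff, Nat.mul_eq] at h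
  obtain ⟨⟨⟨hx, ht⟩, hb⟩, hq⟩ := h
  refine hn fun h1 => hp ((bU hv (sd := b / 2) hx ht (by omega)).2 ?_)
  have h2 := (bW hv (x := x) (j := t) (k := b) (q := q) (by omega) (by omega) (by omega)).1 h1
  have h3 := M.wm hx ht (sd := b / 2) (io := b % 2) (by omega) (by omega)
  rw [h2] at h3
  have h4 : b % 2 = 0 ∨ b % 2 = 1 := by omega
  rcases h4 with h4 | h4 <;> rw [h4] at h3
  · exact Or.inl h3
  · exact Or.inr h3

omit he in
theorem hw17 (x t sd p q : ℕ) : Ho v (w17 K NP NW TB x t sd p q) := by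
  refine ho_cd fun h => ?_
  have hNP := M.hNP
  have hNW := M.hNW
  simp only [Bool.and_eq_true, lb_iff, Nat.mul_eq] at h
  obtain ⟨⟨⟨⟨hx, ht⟩, hs⟩, hp'⟩, hq⟩ := h
  refine hn fun h1 => hn fun h2 => hn fun h3 => hp ((bP hv (by omega)).2 ?_)
  have e2 := (bWb hv hx ht hs).1 h3
  have h4 := (bP hv (by omega)).1 h2
  have h5 : M.LT x t sd 1 q := e2 ▸ M.wm hx ht hs (by norm_num)
  rcases (bU hv hx ht hs).1 h1 with h6 | h6
  · exact M.lmix hx ht hs (by norm_num) hp' hq h6 h4 h5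
  · exact M.lmix hx ht hs (by norm_num) hp' hq h6 h4 h5

end

/-! ### the generator -/

/-- the clause of a code, by the last field -/
def ge (K NP NW TB k n : ℕ) : List ℕ :=
  bif Nat.ble k 8 then
    (bif Nat.ble k 3 then
      (bif Nat.beq k 0 then w0 K NP NW TB (fx n) (fa n) (fb n) (fc n) else
       bif Nat.beq k 1 then w1 K NP NW TB (fx n) (fa n) (fb n) (fc n) (fd n) else
       bif Nat.beq k 2 then w2 K NP NW TB (fx n) (fa n) (fb n) (fc n) (fd n) else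
        w3 K NP NW TB (fx n) (fa n) (fb n) (fc n) (fd n))
    else
      (bif Nat.beq k 4 then w4 K NP NW TB (fx n) (fa n) (fb n) (fc n) (fd n) else
       bif Nat.beq k 5 then w5 K NP NW TB (fx n) (fa n) (fb n) (fc n) (fd n) else
       bif Nat.beq k 6 then w6 K NP NW TB (fx n) (fa n) (Nat.mod (fb n) 2) (fc n) (Nat.div (fb n) 2) (fd n) else
       bif Nat.beq k 7 then w7 K NP NW TB (fx n) (fa n) (fb n) (fc n) (fd n) else
        w8 K NP NW TB (fx n) (fa n) (fb n) (fc n)))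
  else
    (bif Nat.ble k 13 then
      (bif Nat.beq k 9 then w9 K NP NW TB (fx n) (fa n) (fb n) (fc n) else
       bif Nat.beq k 10 then w10 K NP NW TB (fx n) (fa n) (fb n) else
       bif Nat.beq k 11 then w11 K NP NW TB (fx n) (fa n) (fb n) else
       bif Nat.beq k 12 then w12 K NP NW TB (fx n) (fa n) (fb n) else
        w13 K NP NW TB (fx n) (fa n) (fb n) (fc n) (fd n))
    else
      (bif Nat.beq k 14 then w14 K NP NW TB (fx n) (fa n) (fb n) (fc n) else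
       bif Nat.beq k 15 then w15 K NP NW TB (fx n) (fa n) (fb n) (fc n) (fd n) else
       bif Nat.beq k 16 then w16 K NP NW TB (fx n) (fa n) (fb n) (fc n) else
        w17 K NP NW TB (fx n) (fa n) (fb n) (fc n) (fd n)))

section
variable {K NP NW TB : ℕ} {M : MdW K NP NW (nbf K TB)} {v : ℕ → Prop} (he : MdE M) (hv : Ag M v)
include he hv

theorem ge_ho (k n : ℕ) : Ho v (ge K NP NW TB k n) := by
  unfold ge
  exact ho_bif
    (ho_bif
      (ho_bif (hw0 he hv _ _ _ _) (ho_bif (hw1 he hv _ _ _ _ _) (ho_bif (hw2 he hv _ _ _ _ _) (hw3 he hv _ _ _ _ _))))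
      (ho_bif (hw4 he hv _ _ _ _ _) (ho_bif (hw5 he hv _ _ _ _ _) (ho_bif (hw6 he hv _ _ _ _ _ _)
        (ho_bif (hw7 he hv _ _ _ _ _) (hw8 he hv _ _ _ _))))))
    (ho_bif
      (ho_bif (hw9 he hv _ _ _ _) (ho_bif (hw10 he hv _ _ _) (ho_bif (hw11 he hv _ _ _) (ho_bif (hw12 he hv _ _ _)
        (hw13 he hv _ _ _ _ _)))))
      (ho_bif (hw14 he hv _ _ _ _) (ho_bif (hw15 he hv _ _ _ _ _) (ho_bif (hw16 hv _ _ _ _) (hw17 hv _ _ _ _ _)))))

end

end Vale.Agent.P032.H240.W
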