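import Vale.Agent.P032.H240.W.GenP
import Vale.Agent.P032.H240.W.ChkU
import Vale.Agent.P032.H635.W.PdrW

/-!
# P032: the wild generator with all rules

* `genL` : kinds `0..58` of `gen`, `59` (`MdE`), `61` (wedges), `62` (`MdP`, `MdJ`, walls of `MdG`), `63` (X-rule),
* `genLZ` : also `60` (zone block),
* `qyL_of_chk`, `qyLZ_of_chk` : a certificate gives `QyW` of `H635/W/PdrW` for models with `Law`, `LawZ`.
-/

namespace Vale.Agent.P032.H240.W

open Vale.Agent.P032.H820.K (nbf fe)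
open Vale.Agent.P032.H993 (MdE MdP MdJ)
open Vale.Agent.P032.H254 (DZ WG BitW gG gG_ho)
open Vale.Agent.P032.H374 (MdG)
open Vale.Agent.P032.H635.W (QyW)

/-- all kinds but the zone block -/
def genL (K NP NW TB n : ℕ) : List ℕ :=
  bif Nat.ble (Nat.land n 63) 58 then gen K NP NW TB n else
  bif Nat.beq (Nat.land n 63) 59 then ge K NP NW TB (fe n) n else
  bif Nat.beq (Nat.land n 63) 61 then gG K NP NW TB n else
  bif Nat.beq (Nat.land n 63) 62 then gp K NP NW TB (fe n) n else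
  bif Nat.beq (Nat.land n 63) 63 then gx K NP NW TB n else gen K NP NW TB n

/-- all kinds -/
def genLZ (K NP NW TB n : ℕ) : List ℕ :=
  bif Nat.beq (Nat.land n 63) 60 then gz K NP NW TB (fe n) n else genL K NP NW TB n

section
variable {K NP NW TB : ℕ} {M : MdW K NP NW (nbf K TB)} {v : ℕ → Prop}

theorem genL_ho (he : MdE M) (hg : MdG M) (hp : MdP M) {Jd : MdJ M} (ha : Ax M Jd) {G : WG M} (hG : BitW M G)
    (hv : Ag M v) (n : ℕ) : Ho v (genL K NP NW TB n) := by
  unfold genL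
  exact ho_bif (gen_ho hv _) (ho_bif (ge_ho he hv _ _) (ho_bif (gG_ho hG hv _) (ho_bif (gp_ho hg hp ha hv _ _)
    (ho_bif (gx_ho hg hv _) (gen_ho hv _)))))

theorem genLZ_ho (he : MdE M) (hg : MdG M) (hp : MdP M) {Jd : MdJ M} (ha : Ax M Jd) {G : WG M} (hG : BitW M G)
    {Z : DZ M} (hZ : BZ M Z) (hv : Ag M v) (n : ℕ) : Ho v (genLZ K NP NW TB n) := by
  unfold genLZ
  exact ho_bif (gz_ho hZ hv _ _) (genL_ho he hg hp ha hG hv _)

/-- **A certificate with all rules.** -/
theorem chkL_sound {e : List (List ℕ)} {t : ℕ → List ℕ} {B HB dA d : ℕ} {A C D H : List ℕ} (ho : okC e = true)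
    (h : chkU (genX (genL K NP NW TB) e t) B HB dA d A C D H = true) (hL : Law M) (he : ∀ c ∈ e, Ho M.bv c) :
    False := by
  obtain ⟨Jd⟩ := hL.j
  obtain ⟨G, hG⟩ := hL.w
  exact chkU_sound h fun n => genX_ho (fun n => genL_ho (mde_setX hL.e) (mdg_setX hL.g) (mdp_setX hL.p) (exists_ax Jd)
    (bitw_setX hG) (ag_vx _ t) n) (ho_setX ho he) n

/-- **A certificate with all rules and the zone block.** -/
theorem chkLZ_sound {e : List (List ℕ)} {t : ℕ → List ℕ} {B HB dA d : ℕ} {A C D H : List ℕ} (ho : okC e = true)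
    (h : chkU (genX (genLZ K NP NW TB) e t) B HB dA d A C D H = true) (hL : LawZ M) (he : ∀ c ∈ e, Ho M.bv c) :
    False := by
  obtain ⟨Jd⟩ := hL.j
  obtain ⟨G, hG⟩ := hL.w
  obtain ⟨Z, hZ⟩ := hL.z
  exact chkU_sound h fun n => genX_ho (fun n => genLZ_ho (mde_setX hL.e) (mdg_setX hL.g) (mdp_setX hL.p) (exists_ax Jd)
    (bitw_setX hG) (bz_setX hZ) (ag_vx _ t) n) (ho_setX ho he) n

end

variable {NP NW TB : ℕ}

/-- **Queries** (`H635/W/PdrW`) from certificates, all rules -/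
theorem qyL_of_chk {e : List (List ℕ)} {t : ℕ → List ℕ} {B HB dA d : ℕ} {A C D H : List ℕ} (ho : okC e = true)
    (h : chkU (genX (genL 2 NP NW TB) e t) B HB dA d A C D H = true) : QyW NP NW TB (fun M => Law M) e :=
  fun _ hM h1 => chkL_sound ho h hM h1

/-- **Queries** (`H635/W/PdrW`) from certificates, all rules and the zone block -/
theorem qyLZ_of_chk {e : List (List ℕ)} {t : ℕ → List ℕ} {B HB dA d : ℕ} {A C D H : List ℕ} (ho : okC e = true)
    (h : chkU (genX (genLZ 2 NP NW TB) e t) B HB dA d A C D H = true) : QyW NP NW TB (fun M => LawZ M) e :=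
  fun _ hM h1 => chkLZ_sound ho h hM h1

end Vale.Agent.P032.H240.W
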