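import Vale.Agent.P032.H240.W.Ax

/-!
# P032: the clauses of `MdP`, `MdJ`, `MdG`, by code (kinds 62 and 63)
-/

namespace Vale.Agent.P032.H240.W

open Vale.Agent.P032.H820.K (df ad hcell gk gt nbf En mp ps ng trv cd lb lb_iff cix ad_lt fx fa fb fc fd fe)
open Vale.Agent.P032.H993 (MdE MdP MdJ gcell)
open Vale.Agent.P032.H374 (MdG nk nj xp xq xz xt)

/-! ### partner rule, ends of the sectors -/

def p0 (K NP NW TB x j S : ℕ) : List ℕ :=
  cd (lb x NP && lb j (Nat.mul 6 K)) (im (fun q => ps (En 0 x j 0 q)) S (om (fun q => ps (En 0 x (ad K j 1) 1 q)) S []))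

def p1 (K NP NW TB x j S : ℕ) : List ℕ :=
  cd (lb x NP && lb j (Nat.mul 6 K)) (im (fun q => ps (En 0 x j 3 q)) S (om (fun q => ps (En 0 x j 0 q)) S []))

/-- `b = 0` : `AR`, `b = 1` : `AL` -/
def p2 (K NP NW TB x m b : ℕ) : List ℕ :=
  cd (Nat.beq K 2 && lb x NP && lb m 6) (mp (fun q => ps (En 12 x m (bif Nat.beq b 0 then 3 else 4) q)) 6 [])

/-- the bit of the alternative `c = 1, 2, 3` -/
def pb (x s c q : ℕ) : ℕ := En 14 x s 4 (Nat.add (Nat.mul 8 c) q)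

def p4 (K NP NW TB x q : ℕ) : List ℕ :=
  cd (lb x NP && lb q 6) (ng (En 6 x 0 0 0) :: mp (fun s => ps (pb x s 1 q)) (Nat.mul 6 K)
    (mp (fun s => ps (pb x s 2 q)) (Nat.mul 6 K) (mp (fun s => ps (pb x s 3 q)) (Nat.mul 6 K) [])))

/-- cells of the alternative `c` -/
def pcell (K c k j s : ℕ) : Bool :=
  bif Nat.beq c 1 then hcell K k j s else bif Nat.beq c 2 then !(hcell K k j s) else Nat.beq c 3 && gcell K k j s

def p5 (K NP NW TB x s j k c q : ℕ) : List ℕ :=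
  cd (lb x NP && lb s (Nat.mul 6 K) && lb j (Nat.mul 6 K) && lb k 4 && lb q 6 && pcell K c k j s)
    (ng (pb x s c q) :: ne (lV k x j) q [])

def p6 (K NP NW TB x s c q : ℕ) : List ℕ :=
  cd (lb x NP && lb s (Nat.mul 6 K) && lb q 6 && (Nat.beq c 1 || Nat.beq c 2) && lb (nbf K TB x s) NP)
    [ng (pb x s c q), ps (En 5 (nbf K TB x s) 0 0 q)]

def p7 (K NP NW TB x s c q : ℕ) : List ℕ :=
  cd (lb x NP && lb s (Nat.mul 6 K) && lb q 6 && (Nat.beq c 1 || Nat.beq c 2) && lb (nbf K TB x s) NP)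
    (ng (pb x s c q) ::
      mf (fun i => bif Nat.beq c 1 then
          !(hcell K (Nat.div i (Nat.mul 6 K)) (Nat.mod i (Nat.mul 6 K)) (ad K s (Nat.mul 3 K))) else
          hcell K (Nat.div i (Nat.mul 6 K)) (Nat.mod i (Nat.mul 6 K)) (ad K s (Nat.mul 3 K)))
        (fun i => ps (En 1 (nbf K TB x s) (Nat.mod i (Nat.mul 6 K)) (Nat.div i (Nat.mul 6 K)) q)) (Nat.mul 24 K) [])

/-- thin zones; `w = 0` : at `s`, `w = 1` : at the opposite direction -/
def p8 (K NP NW TB x s c q w : ℕ) : List ℕ :=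
  cd (lb x NP && lb s (Nat.mul 6 K) && lb q 6 && (Nat.beq c 1 || Nat.beq c 2 || Nat.beq c 3))
    (ng (pb x s c q) ::
      bif Nat.beq c 3 then ne (lV 0 x (bif Nat.beq w 0 then s else ad K s (Nat.mul 3 K))) q [] else
      bif Nat.beq w 0 then ne (lV 1 x s) q (ne (lV 2 x s) q []) else
        ne (lV 3 x (ad K s (Nat.mul 3 K))) q (ne (lV 2 x (ad K s (Nat.mul 3 K))) q []))

def p9 (K NP NW TB x s q : ℕ) : List ℕ :=
  cd (lb x NP && lb s (Nat.mul 6 K) && lb q 6) [ng (pb x s 1 q), ps (En 7 x s 0 q)]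

/-! ### joint colourings on the letter sequence, `b = 2 sd + io` -/

def p10 (K NP NW TB x t b : ℕ) : List ℕ :=
  cd (lb x NP && lb t (Nat.mul 6 K) && lb b 4) (mp (fun q => ps (En 13 x t (Nat.add b 4) q)) 6 [])

def p11 (K NP NW TB x t b q r : ℕ) : List ℕ :=
  cd (lb x NP && lb t (Nat.mul 6 K) && lb b 4 && !(Nat.beq q r))
    [ng (En 13 x t (Nat.add b 4) q), ng (En 13 x t (Nat.add b 4) r)]

def p12 (K NP NW TB x t b s q : ℕ) : List ℕ :=
  cd (lb x NP && lb t (Nat.mul 6 K) && lb b 4 && lb s (Nat.mul 6 K) && lb (nbf K TB x s) NP)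
    [ng (En 13 x t (Nat.add b 4) q), ng (En 13 (nbf K TB x s) t (Nat.add b 4) q)]

def p13 (K NP NW TB x t b q : ℕ) : List ℕ :=
  cd (lb x NP && lb t (Nat.mul 6 K) && lb b 4)
    [ng (En 13 x t (Nat.add b 4) q), ps (En 0 x (gt K (Nat.div b 2) t) (gk (Nat.div b 2) (Nat.mod b 2)) q)]

def p14 (K NP NW TB x t b q : ℕ) : List ℕ :=
  cd (lb x NW && lb t (Nat.mul 6 K) && lb b 4 && lb (nbf K TB x t) NP)
    [ng (En 13 (nbf K TB x t) t (Nat.add b 4) q), ps (En 11 x t b q)]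

def p15 (K NP NW TB x t b q : ℕ) : List ℕ :=
  cd (lb x NW && lb t (Nat.mul 6 K) && lb b 4)
    [ng (En 13 x t (Nat.add b 4) q), ng (En 11 x t (Nat.add (Nat.div b 2) 4) q)]

def p16 (K NP NW TB x t b r q : ℕ) : List ℕ :=
  cd (lb x NW && lb t (Nat.mul 6 K) && lb b 4 && lb r (Nat.mul 6 K) && lb (nbf K TB x t) NP &&
      lb (nbf K TB (nbf K TB x t) r) NP)
    [ng (En 13 (nbf K TB (nbf K TB x t) r) t (Nat.add b 4) q), ng (En 11 x t (Nat.add (Nat.div b 2) 4) q)]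

/-! ### walls in cells -/

/-- auxiliary bit of a cell: block `c`, pair `i l` -/
def wb (x j c i l : ℕ) : ℕ := En 14 x j 5 (Nat.add (Nat.mul 64 c) (Nat.add (Nat.mul 8 i) l))

def p20 (K NP NW TB x j k S i l : ℕ) : List ℕ :=
  cd (lb x NP && lb j (Nat.mul 6 K) && lb k 4 && lb i 6 && lb l 6 && inm S i && !(inm S l))
    (ng (En 0 x j k i) :: ng (En 0 x j k l) ::
      mf (fun a => inm S (Nat.div a 6) && !(inm S (Nat.mod a 6)))
        (fun a => ps (wb x j (Nat.succ k) (Nat.div a 6) (Nat.mod a 6))) 36 [ps (wb x j (Nat.succ k) 6 0)])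

/-- the cell or the next one -/
def nx (K x j k f q : ℕ) : ℕ := bif Nat.beq f 0 then En 0 x j k q else En 0 x (nj K k j) (nk k) q

def p21 (K NP NW TB x j k S i l f g : ℕ) : List ℕ :=
  cd (lb x NP && lb j (Nat.mul 6 K) && lb k 4 && lb i 6 && lb l 6 && inm S i && !(inm S l))
    (ng (nx K x j k f i) :: ng (nx K x j k g l) ::
      mf (fun a => inm S (Nat.div a 6) && !(inm S (Nat.mod a 6)))
        (fun a => ps (wb x j (Nat.add k 5) (Nat.div a 6) (Nat.mod a 6))) 36 [ps (wb x j (Nat.add k 5) 6 0)])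

/-- definitions: walls in a cell -/
def p22 (K NP NW TB x j k i l b : ℕ) : List ℕ :=
  cd (lb x NP && lb j (Nat.mul 6 K) && lb k 4 && lb i 6 && lb l 6)
    (bif Nat.beq b 0 then [ng (wb x j (Nat.succ k) i l), ps (En 0 x j k i)] else
     bif Nat.beq b 1 then [ng (wb x j (Nat.succ k) i l), ps (En 0 x j k l)] else
     bif Nat.beq b 2 then [ng (wb x j (Nat.succ k) i l), ps (En 14 x i 5 l)] else
      [ps (wb x j (Nat.succ k) i l), ng (En 0 x j k i), ng (En 0 x j k l), ng (En 14 x i 5 l)])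

def p23 (K NP NW TB x j k r b : ℕ) : List ℕ :=
  cd (lb x NP && lb j (Nat.mul 6 K) && lb k 4 && lb r 6)
    (bif Nat.beq b 0 then [ng (wb x j (Nat.succ k) 6 0), ps (En 0 x j k r)] else
      [ng (wb x j (Nat.add k 5) 6 0), ps (En 0 x j k r), ps (nx K x j k 1 r)])

/-- walls in a cell and the next one -/
def p24 (K NP NW TB x j k i l b : ℕ) : List ℕ :=
  cd (lb x NP && lb j (Nat.mul 6 K) && lb k 4 && lb i 6 && lb l 6)
    (bif Nat.beq b 0 then [ng (wb x j (Nat.add k 5) i l), ps (En 0 x j k i), ps (nx K x j k 1 i)] else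
     bif Nat.beq b 1 then [ng (wb x j (Nat.add k 5) i l), ps (En 0 x j k l), ps (nx K x j k 1 l)] else
      [ng (wb x j (Nat.add k 5) i l), ps (En 14 x i 5 l)])

/-- a common colour of a cell and the next one -/
def p25 (K NP NW TB x j k l b : ℕ) : List ℕ :=
  cd (lb x NP && lb j (Nat.mul 6 K) && lb k 4 && lb l 6)
    (bif Nat.beq b 0 then [ng (wb x j (Nat.add k 5) 7 l), ps (En 0 x j k l)] else
      [ng (wb x j (Nat.add k 5) 7 l), ps (nx K x j k 1 l)])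

/-- a wall from a cell to the next one -/
def p26 (K NP NW TB x j k i l b : ℕ) : List ℕ :=
  cd (lb x NP && lb j (Nat.mul 6 K) && lb k 4 && lb i 6 && lb l 6)
    (bif Nat.beq b 0 then [ng (wb x j (Nat.add k 9) i l), ps (En 0 x j k i)] else
     bif Nat.beq b 1 then [ng (wb x j (Nat.add k 9) i l), ps (nx K x j k 1 l)] else
      [ng (wb x j (Nat.add k 9) i l), ps (En 14 x i 5 l)])

def p27 (K NP NW TB x j k : ℕ) : List ℕ :=
  cd (lb x NP && lb j (Nat.mul 6 K) && lb k 4)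
    (ps (wb x j (Nat.add k 5) 6 0) :: mp (fun l => ps (wb x j (Nat.add k 5) 7 l)) 6
      (mf (fun a => !(Nat.beq (Nat.div a 6) (Nat.mod a 6)))
        (fun a => ps (wb x j (Nat.add k 9) (Nat.div a 6) (Nat.mod a 6))) 36 []))

/-! ### X-rule -/

def px (K NP NW TB x s r j j' k k' e m p q : ℕ) : List ℕ :=
  cd (lb x NP && lb s (Nat.mul 6 K) && lb r (Nat.mul 6 K) && lb j (Nat.mul 6 K) && lb j' (Nat.mul 6 K) && lb k 4 &&
      lb k' 4 && lb e 2 && lb m 2 && lb p 6 && lb q 6 && lb (nbf K TB x s) NP && lb (nbf K TB x r) NP &&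
      !(Nat.beq s r) && !(Nat.beq s (ad K r (Nat.mul 3 K))) && xp K e (df K s r) k (df K j s) &&
      xq K e m k' (df K j' r))
    (ng (En 1 (nbf K TB x s) j k p) :: ng (En 1 (nbf K TB x r) j' k' q) ::
      o2 (fun c => ps (En 0 x (xt K e r) (xz e m) c)) p q [])

/-! ### soundness -/

section
variable {K NP NW TB : ℕ} {M : MdW K NP NW (nbf K TB)} {Jd : MdJ M} {v : ℕ → Prop} (hg : MdG M) (hpp : MdP M)
  (ha : Ax M Jd) (hv : Ag M v)

include hpp hv

theorem hp0 (x j S : ℕ) : Ho v (p0 K NP NW TB x j S) := by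
  refine ho_cd fun h => ?_
  have hK := M.hK
  have hNP := M.hNP
  have hadl := ad_lt (K := K) (a := j) (s := 1) M.hK0
  simp only [Bool.and_eq_true, lb_iff, Nat.mul_eq] at h
  obtain ⟨hx, hj⟩ := h
  obtain ⟨q, hq, h1, h2⟩ := hpp.z1a hx hj
  cases hS : inm S q
  · exact ho_im_or fun _ => ho_om hq hS (lv_ps.2 ((bV hv (by omega) (by omega) (by norm_num)).2 h2))
  · exact ho_im hq hS (lv_ps.2 ((bV hv (by omega) (by omega) (by norm_num)).2 h1))

theorem hp1 (x j S : ℕ) : Ho v (p1 K NP NW TB x j S) := by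
  refine ho_cd fun h => ?_
  have hK := M.hK
  have hNP := M.hNP
  simp only [Bool.and_eq_true, lb_iff, Nat.mul_eq] at h
  obtain ⟨hx, hj⟩ := h
  obtain ⟨q, hq, h1, h2⟩ := hpp.z1b hx hj
  cases hS : inm S q
  · exact ho_im_or fun _ => ho_om hq hS (lv_ps.2 ((bV hv (by omega) (by omega) (by norm_num)).2 h2))
  · exact ho_im hq hS (lv_ps.2 ((bV hv (by omega) (by omega) (by norm_num)).2 h1))

theorem hp2 (x m b : ℕ) : Ho v (p2 K NP NW TB x m b) := by
  refine ho_cd fun h => ?_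
  have hNP := M.hNP
  simp only [Bool.and_eq_true, lb_iff, nbeq] at h
  obtain ⟨⟨hK2, hx⟩, hm⟩ := h
  cases hb : Nat.beq b 0
  · obtain ⟨q, hq, h1⟩ := hpp.alo hK2 hx hm
    exact ho_mp hq (lv_ps.2 ((bAL hv (by omega) (by omega)).2 h1))
  · obtain ⟨q, hq, h1⟩ := hpp.aro hK2 hx hm
    exact ho_mp hq (lv_ps.2 ((bAR hv (by omega) (by omega)).2 h1))

omit hpp in
include ha in
theorem bPO {x s q : ℕ} (hx : x < NP) (hs : s < 6 * K) (hq : q < 6) : v (pb x s 1 q) ↔ PO M x s q := by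
  have hK := M.hK
  have hNP := M.hNP
  exact (bB hv (q := 8 + q) (by omega) (by omega) (by norm_num)).trans (ha.po hq)

omit hpp in
include ha in
theorem bPI {x s q : ℕ} (hx : x < NP) (hs : s < 6 * K) (hq : q < 6) : v (pb x s 2 q) ↔ PI M x s q := by
  have hK := M.hK
  have hNP := M.hNP
  exact (bB hv (q := 16 + q) (by omega) (by omega) (by norm_num)).trans (ha.pi hq)

omit hpp in
include ha in
theorem bPF {x s q : ℕ} (hx : x < NP) (hs : s < 6 * K) (hq : q < 6) : v (pb x s 3 q) ↔ PF M x s q := by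
  have hK := M.hK
  have hNP := M.hNP
  exact (bB hv (q := 24 + q) (by omega) (by omega) (by norm_num)).trans (ha.pf hq)

include ha

theorem hp4 (x q : ℕ) : Ho v (p4 K NP NW TB x q) := by
  refine ho_cd fun h => ?_
  have hNP := M.hNP
  simp only [Bool.and_eq_true, lb_iff] at h
  obtain ⟨hx, hq⟩ := h
  refine hn fun h1 => ?_
  rcases hpp.part hx hq ((bX hv (by omega)).1 h1) with ⟨s, hs, h2⟩ | ⟨s, hs, h2⟩ | ⟨s, hs, h2⟩
  · exact ho_mp hs (lv_ps.2 ((bPO ha hv hx hs hq).2 h2))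
  · exact ho_mp_r (ho_mp hs (lv_ps.2 ((bPI ha hv hx hs hq).2 h2)))
  · exact ho_mp_r (ho_mp_r (ho_mp hs (lv_ps.2 ((bPF ha hv hx hs hq).2 h2))))

omit hpp in
theorem hp5 (x s j k c q : ℕ) : Ho v (p5 K NP NW TB x s j k c q) := by
  refine ho_cd fun h => ?_
  have hK := M.hK
  have hNP := M.hNP
  simp only [Bool.and_eq_true, lb_iff, Nat.mul_eq] at h
  obtain ⟨⟨⟨⟨⟨hx, hs⟩, hj⟩, hk⟩, hq⟩, hc⟩ := h
  refine hn fun h1 => ?_
  have key : ∃ r < 6, r ≠ q ∧ M.V k x j r := by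
    unfold pcell at hc
    cases h2 : Nat.beq c 1
    · rw [h2, cond_false] at hc
      cases h3 : Nat.beq c 2
      · rw [h3, cond_false, Bool.and_eq_true, nbeq] at hc
        obtain ⟨rfl, hc⟩ := hc
        exact ((bPF ha hv hx hs hq).1 h1).1 k hk j hj hc
      · rw [h3, cond_true, Bool.not_eq_true'] at hc
        rw [nbeq] at h3; subst h3
        exact ((bPI ha hv hx hs hq).1 h1).1 k hk j hj hc
    · rw [h2, cond_true] at hc
      rw [nbeq] at h2; subst h2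
      exact ((bPO ha hv hx hs hq).1 h1).1 k hk j hj hc
  obtain ⟨r, hr, hrq, h2⟩ := key
  exact ho_ne hr hrq (lv_ps.2 ((bV hv (by omega) (by omega) (by omega)).2 h2))

omit hpp in
theorem hp6 (x s c q : ℕ) : Ho v (p6 K NP NW TB x s c q) := by
  refine ho_cd fun h => ?_
  have hNP := M.hNP
  simp only [Bool.and_eq_true, Bool.or_eq_true, lb_iff, Nat.mul_eq, nbeq] at h
  obtain ⟨⟨⟨⟨hx, hs⟩, hq⟩, hc⟩, hy⟩ := h
  refine hn fun h1 => hp ((bP hv (by omega)).2 ?_)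
  rcases hc with rfl | rfl
  · exact (((bPO ha hv hx hs hq).1 h1).2.1 hy).1
  · exact (((bPI ha hv hx hs hq).1 h1).2.1 hy).1

omit hpp in
theorem hp7 (x s c q : ℕ) : Ho v (p7 K NP NW TB x s c q) := by
  refine ho_cd fun h => ?_
  have hK := M.hK
  have hNP := M.hNP
  simp only [Bool.and_eq_true, Bool.or_eq_true, lb_iff, Nat.mul_eq, nbeq] at h
  obtain ⟨⟨⟨⟨hx, hs⟩, hq⟩, hc⟩, hy⟩ := h
  refine hn fun h1 => ?_
  rcases hc with rfl | rfl
  · obtain ⟨k, hk, j, hj, h2, h3⟩ := (((bPO ha hv hx hs hq).1 h1).2.1 hy).2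
    obtain ⟨e0, e1, e2⟩ := cix (K := K) hk hj
    refine ho_mf (i := 6 * K * k + j) e0 ?_ (lv_ps.2 ?_)
    · rw [Nat.mul_eq, e1, e2, Nat.beq_refl, cond_true, Nat.mul_eq, h2]; rfl
    · rw [Nat.mul_eq, e1, e2]; exact (bPV hv (by omega) (by omega) (by omega)).2 h3
  · obtain ⟨k, hk, j, hj, h2, h3⟩ := (((bPI ha hv hx hs hq).1 h1).2.1 hy).2
    obtain ⟨e0, e1, e2⟩ := cix (K := K) hk hj
    refine ho_mf (i := 6 * K * k + j) e0 ?_ (lv_ps.2 ?_)
    · rw [Nat.mul_eq, e1, e2, show Nat.beq 2 1 = false from rfl, cond_false, Nat.mul_eq, h2]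
    · rw [Nat.mul_eq, e1, e2]; exact (bPV hv (by omega) (by omega) (by omega)).2 h3

omit hpp ha in
/-- a colour in one of two zones -/
theorem ho_thin {k k' x j q : ℕ} (hx : x < NP) (hj : j < 6 * K) (hk : k < 4) (hk' : k' < 4)
    (h : ∃ r < 6, r ≠ q ∧ (M.V k x j r ∨ M.V k' x j r)) : Ho v (ne (lV k x j) q (ne (lV k' x j) q [])) := by
  have hK := M.hK
  have hNP := M.hNP
  obtain ⟨r, hr, hrq, h1 | h1⟩ := h
  · exact ho_ne hr hrq (lv_ps.2 ((bV hv (by omega) (by omega) (by omega)).2 h1))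
  · exact ho_ne_r (ho_ne hr hrq (lv_ps.2 ((bV hv (by omega) (by omega) (by omega)).2 h1)))

omit hpp in
theorem hp8 (x s c q w : ℕ) : Ho v (p8 K NP NW TB x s c q w) := by
  refine ho_cd fun h => ?_
  have hK := M.hK
  have hNP := M.hNP
  have hadl := ad_lt (K := K) (a := s) (s := 3 * K) M.hK0
  simp only [Bool.and_eq_true, Bool.or_eq_true, lb_iff, Nat.mul_eq, nbeq] at h
  obtain ⟨⟨⟨hx, hs⟩, hq⟩, hc⟩ := h
  refine hn fun h1 => ?_
  rcases hc with (rfl | rfl) | rfl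
  · have h2 := (bPO ha hv hx hs hq).1 h1
    rw [show Nat.beq 1 3 = false from rfl, cond_false]
    exact ho_bif (ho_thin hv hx hs (by norm_num) (by norm_num) h2.2.2.1)
      (ho_thin hv hx hadl (by norm_num) (by norm_num) h2.2.2.2)
  · have h2 := (bPI ha hv hx hs hq).1 h1
    rw [show Nat.beq 2 3 = false from rfl, cond_false]
    exact ho_bif (ho_thin hv hx hs (by norm_num) (by norm_num) h2.2.2.1)
      (ho_thin hv hx hadl (by norm_num) (by norm_num) h2.2.2.2)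
  · have h2 := (bPF ha hv hx hs hq).1 h1
    rw [Nat.beq_refl, cond_true]
    cases Nat.beq w 0
    · obtain ⟨r, hr, hrq, h3⟩ := h2.2.2
      exact ho_ne hr hrq (lv_ps.2 ((bV hv (by omega) (by simpa using by omega) (by norm_num)).2 h3))
    · obtain ⟨r, hr, hrq, h3⟩ := h2.2.1
      exact ho_ne hr hrq (lv_ps.2 ((bV hv (by omega) (by simpa using by omega) (by norm_num)).2 h3))

omit hpp in
theorem hp9 (x s q : ℕ) : Ho v (p9 K NP NW TB x s q) := by
  refine ho_cd fun h => ?_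
  have hK := M.hK
  have hNP := M.hNP
  simp only [Bool.and_eq_true, lb_iff, Nat.mul_eq] at h
  obtain ⟨⟨hx, hs⟩, hq⟩ := h
  refine hn fun h1 => hp ((bNS hv (by omega) (by omega)).2 fun k hk j hj hc h2 => ?_)
  obtain ⟨r, hr, hrq, h3⟩ := ((bPO ha hv hx hs hq).1 h1).1 k hk j hj hc
  exact h2 r hr hrq h3

/-! joint colourings -/

omit hpp in
theorem bJE {x t b q : ℕ} (hx : x < NP) (ht : t < 6 * K) (hb : b < 4) :
    v (En 13 x t (Nat.add b 4) q) ↔ Jd.JE t (b / 2) (b % 2) x = q := by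
  have hK := M.hK
  have hNP := M.hNP
  have h1 := bJ hv (x := x) (j := t) (k := b + 4) (q := q) (by omega) (by omega) (by omega)
  have h2 := ha.je (t := t) (sd := b / 2) (io := b % 2) (x := x) (by omega) (by omega)
  rw [show 2 * (b / 2) + b % 2 + 4 = b + 4 by omega] at h2
  rw [h2] at h1
  exact h1

omit hpp in
theorem hp10 (x t b : ℕ) : Ho v (p10 K NP NW TB x t b) := by
  refine ho_cd fun h => ?_
  simp only [Bool.and_eq_true, lb_iff, Nat.mul_eq] at h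
  obtain ⟨⟨hx, ht⟩, hb⟩ := h
  exact ho_mp (Jd.jlt ht (sd := b / 2) (io := b % 2) (by omega) (by omega) hx) (lv_ps.2 ((bJE ha hv hx ht hb).2 rfl))

omit hpp in
theorem hp11 (x t b q r : ℕ) : Ho v (p11 K NP NW TB x t b q r) := by
  refine ho_cd fun h => ?_
  simp only [Bool.and_eq_true, lb_iff, Nat.mul_eq, nbne] at h
  obtain ⟨⟨⟨hx, ht⟩, hb⟩, hqr⟩ := h
  exact hn fun h1 => hng fun h2 => hqr (((bJE ha hv hx ht hb).1 h1).symm.trans ((bJE ha hv hx ht hb).1 h2))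

omit hpp in
theorem hp12 (x t b s q : ℕ) : Ho v (p12 K NP NW TB x t b s q) := by
  refine ho_cd fun h => ?_
  simp only [Bool.and_eq_true, lb_iff, Nat.mul_eq] at h
  obtain ⟨⟨⟨⟨hx, ht⟩, hb⟩, hs⟩, hy⟩ := h
  exact hn fun h1 => hng fun h2 => Jd.jne ht (sd := b / 2) (io := b % 2) (by omega) (by omega) hx hs hy
    (((bJE ha hv hx ht hb).1 h1).trans ((bJE ha hv hy ht hb).1 h2).symm)

omit hpp in
theorem hp13 (x t b q : ℕ) : Ho v (p13 K NP NW TB x t b q) := by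
  refine ho_cd fun h => ?_
  have hK := M.hK
  have hNP := M.hNP
  simp only [Bool.and_eq_true, lb_iff, Nat.mul_eq] at h
  obtain ⟨⟨hx, ht⟩, hb⟩ := h
  refine hn fun h1 => hp ?_
  have h2 := Jd.jv ht (sd := b / 2) (io := b % 2) (by omega) (by omega) hx
  rw [(bJE ha hv hx ht hb).1 h1] at h2
  have hgk : gk (b / 2) (b % 2) < 8 := by
    unfold gk
    cases Nat.beq (b % 2) 0
    · simp
    · cases Nat.beq (b / 2) 1 <;> simp
  have hgt : gt K (b / 2) t < 6 * K := by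
    unfold gt
    cases Nat.beq (b / 2) 1
    · exact ad_lt M.hK0
    · exact ht
  have hgt' : gt K (Nat.div b 2) t < 256 := by
    show gt K (b / 2) t < 256
    omega
  exact (bV hv (by omega) hgt' hgk).2 h2

omit hpp in
theorem hp14 (x t b q : ℕ) : Ho v (p14 K NP NW TB x t b q) := by
  refine ho_cd fun h => ?_
  have hK := M.hK
  have hNP := M.hNP
  have hNW := M.hNW
  simp only [Bool.and_eq_true, lb_iff, Nat.mul_eq] at h
  obtain ⟨⟨⟨hx, ht⟩, hb⟩, hy⟩ := h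
  refine hn fun h1 => hp ((bLT hv (by omega) (by omega) hb).2 ?_)
  have h2 := Jd.jl ht (sd := b / 2) (io := b % 2) (by omega) (by omega) hx hy
  rwa [(bJE ha hv hy ht hb).1 h1] at h2

omit hpp in
theorem hp15 (x t b q : ℕ) : Ho v (p15 K NP NW TB x t b q) := by
  refine ho_cd fun h => ?_
  have hNW := M.hNW
  simp only [Bool.and_eq_true, lb_iff, Nat.mul_eq] at h
  obtain ⟨⟨hx, ht⟩, hb⟩ := h
  refine hn fun h1 => hng fun h3 => ?_
  have h2 := Jd.jn ht (sd := b / 2) (io := b % 2) (by omega) (by omega) hx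
  rw [(bJE ha hv (by omega) ht hb).1 h1] at h2
  exact h2 ((bU hv hx ht (sd := b / 2) (by omega)).1 h3)

omit hpp in
theorem hp16 (x t b r q : ℕ) : Ho v (p16 K NP NW TB x t b r q) := by
  refine ho_cd fun h => ?_
  simp only [Bool.and_eq_true, lb_iff, Nat.mul_eq] at h
  obtain ⟨⟨⟨⟨⟨hx, ht⟩, hb⟩, hr⟩, hy⟩, hy'⟩ := h
  refine hn fun h1 => hng fun h3 => ?_
  have h2 := Jd.jx ht (sd := b / 2) (io := b % 2) (by omega) (by omega) hx hr hy hy'
  rw [(bJE ha hv hy' ht hb).1 h1] at h2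
  exact h2 ((bU hv hx ht (sd := b / 2) (by omega)).1 h3)

/-! walls -/

omit hpp hv ha in
theorem nk_lt {k : ℕ} (hk : k < 4) : nk k < 4 := by
  unfold nk
  cases h : Nat.beq k 3
  · rw [Bool.eq_false_iff, ne_eq, nbeq] at h
    show k + 1 < 4
    omega
  · show 0 < 4
    norm_num

omit hpp hv ha in
theorem nj_lt {k j : ℕ} (hK : 0 < K) (hj : j < 6 * K) : nj K k j < 6 * K := by
  unfold nj
  cases Nat.beq k 0
  · exact hj
  · exact ad_lt hK

omit hpp ha in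
theorem bnx {x j k q : ℕ} (hx : x < NP) (hj : j < 6 * K) (hk : k < 4) :
    v (nx K x j k 1 q) ↔ M.V (nk k) x (nj K k j) q := by
  have hK := M.hK
  have hNP := M.hNP
  have h1 := nk_lt hk
  have h2 := nj_lt (k := k) M.hK0 hj
  exact bV hv (by omega) (by omega) (by omega)

omit hpp ha in
theorem bnf {x j k f q : ℕ} (hx : x < NP) (hj : j < 6 * K) (hk : k < 4) (h : v (nx K x j k f q)) :
    M.V k x j q ∨ M.V (nk k) x (nj K k j) q := by
  have hK := M.hK
  have hNP := M.hNP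
  unfold nx at h
  cases hf : Nat.beq f 0
  · rw [hf, cond_false] at h
    exact Or.inr ((bnx hv hx hj hk).1 h)
  · rw [hf, cond_true] at h
    exact Or.inl ((bV hv (by omega) (by omega) (by omega)).1 h)

omit hpp in
theorem bwb {x j c i l : ℕ} (hx : x < NP) (hj : j < 6 * K) : v (wb x j c i l) ↔ M.B x j 5 (64 * c + (8 * i + l)) := by
  have hK := M.hK
  have hNP := M.hNP
  exact bB hv (by omega) (by omega) (by norm_num)

omit hpp ha in
theorem bWl {x i l : ℕ} (hx : x < NP) (hi : i < 6) : v (En 14 x i 5 l) ↔ M.B x i 5 l := by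
  have hNP := M.hNP
  exact bB hv (by omega) (by omega) (by norm_num)

omit hpp in
theorem hp22 (x j k i l b : ℕ) : Ho v (p22 K NP NW TB x j k i l b) := by
  refine ho_cd fun h => ?_
  have hK := M.hK
  have hNP := M.hNP
  simp only [Bool.and_eq_true, lb_iff, Nat.mul_eq] at h
  obtain ⟨⟨⟨⟨hx, hj⟩, hk⟩, hi⟩, hl⟩ := h
  have e := (bwb ha hv (c := k + 1) (i := i) (l := l) hx hj).trans (ha.ed (x := x) (j := j) hk hi hl)
  refine ho_bif (hn fun h1 => hp ((bV hv (by omega) (by omega) (by omega)).2 (e.1 h1).1))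
    (ho_bif (hn fun h1 => hp ((bV hv (by omega) (by omega) (by omega)).2 (e.1 h1).2.1))
      (ho_bif (hn fun h1 => hp ((bWl hv hx hi).2 (e.1 h1).2.2))
        (hp' fun h1 => hn fun h2 => hn fun h3 => hng fun h4 => h1 (e.2 ⟨(bV hv (by omega) (by omega) (by omega)).1 h2,
          (bV hv (by omega) (by omega) (by omega)).1 h3, (bWl hv hx hi).1 h4⟩))))

omit hpp in
theorem hp23 (x j k r b : ℕ) : Ho v (p23 K NP NW TB x j k r b) := by
  refine ho_cd fun h => ?_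
  have hK := M.hK
  have hNP := M.hNP
  simp only [Bool.and_eq_true, lb_iff, Nat.mul_eq] at h
  obtain ⟨⟨⟨hx, hj⟩, hk⟩, hr⟩ := h
  refine ho_bif (hn fun h1 => hp ?_) (hn fun h1 => ?_)
  · have h2 := (ha.al (x := x) (j := j) hk).1 ((bwb ha hv (c := k + 1) (i := 6) (l := 0) hx hj).1 h1)
    exact (bV hv (by omega) (by omega) (by omega)).2 (h2 r hr)
  · have h2 := (ha.au (x := x) (j := j) hk).1 ((bwb ha hv (c := k + 5) (i := 6) (l := 0) hx hj).1 h1)
    rcases h2 r hr with h3 | h3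
    · exact hp ((bV hv (by omega) (by omega) (by omega)).2 h3)
    · exact ht (hp ((bnx hv hx hj hk).2 h3))

omit hpp in
theorem hp24 (x j k i l b : ℕ) : Ho v (p24 K NP NW TB x j k i l b) := by
  refine ho_cd fun h => ?_
  have hK := M.hK
  have hNP := M.hNP
  simp only [Bool.and_eq_true, lb_iff, Nat.mul_eq] at h
  obtain ⟨⟨⟨⟨hx, hj⟩, hk⟩, hi⟩, hl⟩ := h
  have e := (bwb ha hv (c := k + 5) (i := i) (l := l) hx hj).trans (ha.eu (x := x) (j := j) hk hi hl)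
  refine ho_bif (hn fun h1 => ?_) (ho_bif (hn fun h1 => ?_) (hn fun h1 => hp ((bWl hv hx hi).2 (e.1 h1).2.2)))
  · rcases (e.1 h1).1 with h2 | h2
    · exact hp ((bV hv (by omega) (by omega) (by omega)).2 h2)
    · exact ht (hp ((bnx hv hx hj hk).2 h2))
  · rcases (e.1 h1).2.1 with h2 | h2
    · exact hp ((bV hv (by omega) (by omega) (by omega)).2 h2)
    · exact ht (hp ((bnx hv hx hj hk).2 h2))

omit hpp in
theorem hp25 (x j k l b : ℕ) : Ho v (p25 K NP NW TB x j k l b) := by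
  refine ho_cd fun h => ?_
  have hK := M.hK
  have hNP := M.hNP
  simp only [Bool.and_eq_true, lb_iff, Nat.mul_eq] at h
  obtain ⟨⟨⟨hx, hj⟩, hk⟩, hl⟩ := h
  have e0 : 64 * (k + 5) + (8 * 7 + l) = 64 * (k + 5) + (56 + l) := by omega
  have e := bwb ha hv (c := k + 5) (i := 7) (l := l) hx hj
  rw [e0, ha.cu (x := x) (j := j) hk hl] at e
  exact ho_bif (hn fun h1 => hp ((bV hv (by omega) (by omega) (by omega)).2 (e.1 h1).1))
    (hn fun h1 => hp ((bnx hv hx hj hk).2 (e.1 h1).2))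

omit hpp in
theorem hp26 (x j k i l b : ℕ) : Ho v (p26 K NP NW TB x j k i l b) := by
  refine ho_cd fun h => ?_
  have hK := M.hK
  have hNP := M.hNP
  simp only [Bool.and_eq_true, lb_iff, Nat.mul_eq] at h
  obtain ⟨⟨⟨⟨hx, hj⟩, hk⟩, hi⟩, hl⟩ := h
  have e := (bwb ha hv (c := k + 9) (i := i) (l := l) hx hj).trans (ha.aw (x := x) (j := j) hk hi hl)
  exact ho_bif (hn fun h1 => hp ((bV hv (by omega) (by omega) (by omega)).2 (e.1 h1).1))
    (ho_bif (hn fun h1 => hp ((bnx hv hx hj hk).2 (e.1 h1).2.1)) (hn fun h1 => hp ((bWl hv hx hi).2 (e.1 h1).2.2)))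

omit hpp in
/-- a wall of a mask -/
theorem ho_wall {x j c S : ℕ} {r : List ℕ} (hx : x < NP) (hj : j < 6 * K)
    (h : (∃ i < 6, ∃ l < 6, i ∈ sm S ∧ l ∉ sm S ∧ M.B x j 5 (64 * c + (8 * i + l))) ∨ Ho v r) :
    Ho v (mf (fun a => inm S (Nat.div a 6) && !(inm S (Nat.mod a 6)))
        (fun a => ps (wb x j c (Nat.div a 6) (Nat.mod a 6))) 36 r) := by
  rcases h with ⟨i, hi, l, hl, hiS, hlS, h1⟩ | h
  · have e1 : Nat.div (6 * i + l) 6 = i := by show (6 * i + l) / 6 = i; omega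
    have e2 : Nat.mod (6 * i + l) 6 = l := by show (6 * i + l) % 6 = l; omega
    refine ho_mf (i := 6 * i + l) (by omega) ?_ (lv_ps.2 ?_)
    · rw [e1, e2, Bool.and_eq_true, Bool.not_eq_true', Bool.eq_false_iff]
      exact ⟨(mem_sm.1 hiS).2, fun h3 => hlS (mem_sm.2 ⟨hl, h3⟩)⟩
    · rw [e1, e2]; exact (bwb ha hv hx hj).2 h1
  · exact ho_mf_r h

omit hpp in
include hg in
theorem hp20 (x j k S i l : ℕ) : Ho v (p20 K NP NW TB x j k S i l) := by
  refine ho_cd fun h => ?_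
  have hK := M.hK
  have hNP := M.hNP
  simp only [Bool.and_eq_true, lb_iff, Nat.mul_eq, Bool.not_eq_true'] at h
  obtain ⟨⟨⟨⟨⟨⟨hx, hj⟩, hk⟩, hi⟩, hl⟩, hiS⟩, hlS⟩ := h
  refine hn fun h1 => hn fun h2 => ho_wall ha hv hx hj ?_
  rcases hg.wc (sm S) hk hx hj hi hl (mem_sm.2 ⟨hi, hiS⟩) (fun h3 => by
      rw [(mem_sm.1 h3).2] at hlS; cases hlS) ((bV hv (by omega) (by omega) (by omega)).1 h1)
    ((bV hv (by omega) (by omega) (by omega)).1 h2) with ⟨i', hi', l', hl', h3, h4, h5, h6, h7⟩ | h3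
  · exact Or.inl ⟨i', hi', l', hl', h3, h4, (ha.ed hk hi' hl').2 ⟨h5, h6, h7⟩⟩
  · exact Or.inr (hp ((bwb ha hv (c := k + 1) (i := 6) (l := 0) hx hj).2 ((ha.al hk).2 h3)))

omit hpp in
include hg in
theorem hp21 (x j k S i l f g : ℕ) : Ho v (p21 K NP NW TB x j k S i l f g) := by
  refine ho_cd fun h => ?_
  have hK := M.hK
  have hNP := M.hNP
  simp only [Bool.and_eq_true, lb_iff, Nat.mul_eq, Bool.not_eq_true'] at h
  obtain ⟨⟨⟨⟨⟨⟨hx, hj⟩, hk⟩, hi⟩, hl⟩, hiS⟩, hlS⟩ := h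
  refine hn fun h1 => hn fun h2 => ho_wall ha hv hx hj ?_
  rcases hg.wu (sm S) hk hx hj hi hl (mem_sm.2 ⟨hi, hiS⟩) (fun h3 => by
      rw [(mem_sm.1 h3).2] at hlS; cases hlS) (bnf hv hx hj hk h1) (bnf hv hx hj hk h2) with
    ⟨i', hi', l', hl', h3, h4, h5, h6, h7⟩ | h3
  · exact Or.inl ⟨i', hi', l', hl', h3, h4, (ha.eu hk hi' hl').2 ⟨h5, h6, h7⟩⟩
  · exact Or.inr (hp ((bwb ha hv (c := k + 5) (i := 6) (l := 0) hx hj).2 ((ha.au hk).2 h3)))

omit hpp in
include hg in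
theorem hp27 (x j k : ℕ) : Ho v (p27 K NP NW TB x j k) := by
  classical
  refine ho_cd fun h => ?_
  have hK := M.hK
  have hNP := M.hNP
  simp only [Bool.and_eq_true, lb_iff, Nat.mul_eq] at h
  obtain ⟨⟨hx, hj⟩, hk⟩ := h
  refine hp' fun h1 => ho_mp_or fun h2 => ?_
  have h2' : ∀ l < 6, M.V k x j l → ¬ M.V (nk k) x (nj K k j) l := fun l hl h3 h4 => by
    refine h2 l hl (lv_ps.2 ?_)
    have e := bwb ha hv (c := k + 5) (i := 7) (l := l) hx hj
    rw [show 64 * (k + 5) + (8 * 7 + l) = 64 * (k + 5) + (56 + l) by omega, ha.cu (x := x) (j := j) hk hl] at e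
    exact e.2 ⟨h3, h4⟩
  obtain ⟨i, hi, h3⟩ := M.cell hk hx hj
  obtain ⟨l, hl, h4⟩ := M.cell (nk_lt hk) hx (nj_lt (k := k) M.hK0 hj)
  have hS : ∀ q, q ∈ (Finset.range 6).filter (fun q => M.V k x j q) ↔ q < 6 ∧ M.V k x j q := fun q => by
    rw [Finset.mem_filter, Finset.mem_range]
  rcases hg.wu ((Finset.range 6).filter fun q => M.V k x j q) hk hx hj hi hl ((hS i).2 ⟨hi, h3⟩)
    (fun h5 => h2' l hl ((hS l).1 h5).2 h4) (Or.inl h3) (Or.inr h4) with
    ⟨i', hi', l', hl', h5, h6, h7, h8, h9⟩ | h5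
  · have h10 : M.V (nk k) x (nj K k j) l' := by
      rcases h8 with h8 | h8
      · exact absurd ((hS l').2 ⟨hl', h8⟩) h6
      · exact h8
    have e1 : Nat.div (6 * i' + l') 6 = i' := by show (6 * i' + l') / 6 = i'; omega
    have e2 : Nat.mod (6 * i' + l') 6 = l' := by show (6 * i' + l') % 6 = l'; omega
    refine ho_mf (i := 6 * i' + l') (by omega) ?_ (lv_ps.2 ?_)
    · rw [e1, e2, nbne]
      rintro rfl
      exact h6 h5
    · rw [e1, e2]
      exact (bwb ha hv (c := k + 9) hx hj).2 ((ha.aw hk hi' hl').2 ⟨((hS i').1 h5).2, h10, h9⟩)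
  · exact absurd ((bwb ha hv (c := k + 5) (i := 6) (l := 0) hx hj).2 ((ha.au hk).2 h5)) h1

omit hpp ha in
include hg in
theorem hpx (x s r j j' k k' e m p q : ℕ) : Ho v (px K NP NW TB x s r j j' k k' e m p q) := by
  refine ho_cd fun h => ?_
  have hK := M.hK
  have hNP := M.hNP
  simp only [Bool.and_eq_true, lb_iff, Nat.mul_eq, nbne] at h
  obtain ⟨⟨⟨⟨⟨⟨⟨⟨⟨⟨⟨⟨⟨⟨⟨⟨hx, hs⟩, hr⟩, hj⟩, hj'⟩, hk⟩, hk'⟩, he⟩, hm⟩, hp'⟩, hq⟩, hy⟩, hy'⟩, h1⟩, h2⟩, h3⟩, h4⟩ := h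
  refine hn fun h5 => hn fun h6 => ho_o2_or fun h7 => ?_
  obtain ⟨c, hc, h8, h9, h10⟩ := hg.xr hx hs hr hk hj hk' hj' he hm hp' hq hy hy' h1 h2 h3 h4
    ((bPV hv (by omega) (by omega) (by omega)).1 h5) ((bPV hv (by omega) (by omega) (by omega)).1 h6)
  have hxz : xz e m < 8 := by
    unfold xz
    cases Nat.beq m 0
    · simp
    · cases Nat.beq e 1 <;> simp
  have hxt : xt K e r < 6 * K := by
    unfold xt
    cases Nat.beq e 1
    · exact ad_lt M.hK0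
    · exact hr
  exact absurd (lv_ps.2 ((bV hv (by omega) (by omega) hxz).2 h10)) (h7 c hc h8 h9)

end

/-! ### the generator -/

/-- the clause of a code of kind `62`, by the last field -/
def gp (K NP NW TB k n : ℕ) : List ℕ :=
  bif Nat.ble k 9 then
    (bif Nat.beq k 5 then
      p5 K NP NW TB (fx n) (fa n) (fb n) (Nat.mod (fc n) 4) (Nat.div (fc n) 4) (fd n) else
     bif Nat.beq k 0 then p0 K NP NW TB (fx n) (fa n) (fb n) else
     bif Nat.beq k 1 then p1 K NP NW TB (fx n) (fa n) (fb n) else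
     bif Nat.beq k 2 then p2 K NP NW TB (fx n) (fa n) (fb n) else
     bif Nat.beq k 4 then p4 K NP NW TB (fx n) (fa n) else
     bif Nat.beq k 6 then p6 K NP NW TB (fx n) (fa n) (fb n) (fc n) else
     bif Nat.beq k 7 then p7 K NP NW TB (fx n) (fa n) (fb n) (fc n) else
     bif Nat.beq k 8 then p8 K NP NW TB (fx n) (fa n) (fb n) (fc n) (fd n) else p9 K NP NW TB (fx n) (fa n) (fb n))
  else bif Nat.ble k 16 then
    (bif Nat.beq k 10 then p10 K NP NW TB (fx n) (fa n) (fb n) else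
     bif Nat.beq k 11 then p11 K NP NW TB (fx n) (fa n) (fb n) (fc n) (fd n) else
     bif Nat.beq k 12 then p12 K NP NW TB (fx n) (fa n) (fb n) (fc n) (fd n) else
     bif Nat.beq k 13 then p13 K NP NW TB (fx n) (fa n) (fb n) (fc n) else
     bif Nat.beq k 14 then p14 K NP NW TB (fx n) (fa n) (fb n) (fc n) else
     bif Nat.beq k 15 then p15 K NP NW TB (fx n) (fa n) (fb n) (fc n) else
      p16 K NP NW TB (fx n) (fa n) (fb n) (fc n) (fd n))
  else
    (bif Nat.beq k 20 then p20 K NP NW TB (fx n) (fa n) (fb n) (fc n) (Nat.mod (fd n) 8) (Nat.div (fd n) 8) else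
     bif Nat.beq k 21 then
      p21 K NP NW TB (fx n) (fa n) (fb n) (fc n) (Nat.mod (fd n) 8) (Nat.mod (Nat.div (fd n) 8) 8)
        (Nat.mod (Nat.div (fd n) 64) 2) (Nat.div (fd n) 128) else
     bif Nat.beq k 22 then p22 K NP NW TB (fx n) (fa n) (fb n) (Nat.mod (fc n) 8) (Nat.div (fc n) 8) (fd n) else
     bif Nat.beq k 23 then p23 K NP NW TB (fx n) (fa n) (fb n) (fc n) (fd n) else
     bif Nat.beq k 24 then p24 K NP NW TB (fx n) (fa n) (fb n) (Nat.mod (fc n) 8) (Nat.div (fc n) 8) (fd n) else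
     bif Nat.beq k 25 then p25 K NP NW TB (fx n) (fa n) (fb n) (fc n) (fd n) else
     bif Nat.beq k 26 then p26 K NP NW TB (fx n) (fa n) (fb n) (Nat.mod (fc n) 8) (Nat.div (fc n) 8) (fd n) else
      p27 K NP NW TB (fx n) (fa n) (fb n))

/-- a field of `w` bits -/
def fw (n o w : ℕ) : ℕ := Nat.land (Nat.shiftRight n o) w

/-- the clause of a code of kind `63` (X-rule) -/
def gx (K NP NW TB n : ℕ) : List ℕ :=
  px K NP NW TB (fx n) (fw n 18 63) (fw n 24 63) (fw n 30 63) (fw n 36 63) (fw n 42 3) (fw n 44 3) (fw n 46 1)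
    (fw n 47 1) (fw n 48 7) (fw n 51 7)

section
variable {K NP NW TB : ℕ} {M : MdW K NP NW (nbf K TB)} {Jd : MdJ M} {v : ℕ → Prop} (hg : MdG M) (hpp : MdP M)
  (ha : Ax M Jd) (hv : Ag M v)
include hg hpp ha hv

theorem gp_ho (k n : ℕ) : Ho v (gp K NP NW TB k n) := by
  unfold gp
  exact ho_bif
    (ho_bif (hp5 ha hv _ _ _ _ _ _) (ho_bif (hp0 hpp hv _ _ _) (ho_bif (hp1 hpp hv _ _ _) (ho_bif (hp2 hpp hv _ _ _)
      (ho_bif (hp4 hpp ha hv _ _) (ho_bif (hp6 ha hv _ _ _ _) (ho_bif (hp7 ha hv _ _ _ _)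
        (ho_bif (hp8 ha hv _ _ _ _ _) (hp9 ha hv _ _ _)))))))))
    (ho_bif
      (ho_bif (hp10 ha hv _ _ _) (ho_bif (hp11 ha hv _ _ _ _ _) (ho_bif (hp12 ha hv _ _ _ _ _)
        (ho_bif (hp13 ha hv _ _ _ _) (ho_bif (hp14 ha hv _ _ _ _) (ho_bif (hp15 ha hv _ _ _ _)
          (hp16 ha hv _ _ _ _ _)))))))
      (ho_bif (hp20 hg ha hv _ _ _ _ _ _) (ho_bif (hp21 hg ha hv _ _ _ _ _ _ _ _) (ho_bif (hp22 ha hv _ _ _ _ _ _)
        (ho_bif (hp23 ha hv _ _ _ _ _) (ho_bif (hp24 ha hv _ _ _ _ _ _) (ho_bif (hp25 ha hv _ _ _ _ _)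
          (ho_bif (hp26 ha hv _ _ _ _ _ _) (hp27 hg ha hv _ _ _)))))))))

omit hpp ha in
theorem gx_ho (n : ℕ) : Ho v (gx K NP NW TB n) := hpx hg hv _ _ _ _ _ _ _ _ _ _ _

end

end Vale.Agent.P032.H240.W
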