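import Vale.Agent.P032.H240.W.Gen3
import Vale.Agent.P032.H254.DZ

/-!
# P032: the clauses of the zone block `DZ`, by code

* `BZ M Z` : the bits `M.B` which carry the data of the zone block `Z : DZ M`,
* `gz` : the clause of a code (subkind in the last field), `gz_ho` : it holds in every model.
-/

namespace Vale.Agent.P032.H240.W

open Vale.Agent.P032.H820.K (df ad hcell gk gt nbf En mp ps ng trv cd lb lb_iff cix ad_lt fx fa fb fc fd fe)
open Vale.Agent.P032.H254 (DZ Exl NS2)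

/-- the bits of the zone block -/
structure BZ {K NP NW : ℕ} {nb : ℕ → ℕ → ℕ} (M : MdW K NP NW nb) (Z : DZ M) : Prop where
  w0 : 0 < NW
  /-- the zone code at the position `3 t + k` -/
  zc : ∀ {t k c}, t < 6 * K → k < 3 → c < 8 → (M.B (3 * t + k) 0 6 c ↔ Z.Zc t k = c)
  /-- the advance -/
  za : ∀ {i n}, i ≤ 18 * K → (M.B i 0 7 n ↔ n ≤ Z.Za i)
  ze : M.B 0 1 7 0 ↔ Z.E
  /-- exact letters -/
  zx0 : ∀ {t sd}, t < 6 * K → sd < 2 → (M.B t (sd + 2) 7 0 ↔ Exl M t sd 0 1)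
  zx1 : ∀ {t sd}, t < 6 * K → sd < 2 → (M.B t (sd + 2) 7 1 ↔ Exl M t sd 2 3)
  /-- wedges -/
  zm : ∀ {t sd q}, t < 6 * K → sd < 2 → q < 6 → (M.B 0 t sd q ↔ Z.MW t sd q)

/-- `e = 2` : pair `0 1`; `e = 0, 1` : pair `2 3`, `E` false / true -/
def zz (e o c : ℕ) : Bool :=
  bif Nat.beq e 2 then
    (bif Nat.beq o 0 then Nat.ble c 2 || Nat.ble 6 c else Nat.ble 2 c && Nat.ble c 6)
  else (bif Nat.beq o 0 then Nat.ble c 4 else Nat.beq c 0 || Nat.ble 4 c)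

/-- the colour inside -/
def zi (e o : ℕ) : ℕ :=
  bif Nat.beq e 2 then (bif Nat.beq o 0 then 0 else 1) else (bif Nat.beq e o then 2 else 3)

/-- the colour outside -/
def zj (e o : ℕ) : ℕ :=
  bif Nat.beq e 2 then (bif Nat.beq o 0 then 1 else 0) else (bif Nat.beq e o then 3 else 2)

/-- the literal of `E` -/
def zel (e : ℕ) (r : List ℕ) : List ℕ :=
  bif Nat.beq e 2 then r else bif Nat.beq e 0 then ps (En 14 0 1 7 0) :: r else ng (En 14 0 1 7 0) :: r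

/-- position `3 t + k` -/
def po (t k : ℕ) : ℕ := Nat.add (Nat.mul 3 t) k

def z0 (K NP NW TB i : ℕ) : List ℕ := cd (lb i (Nat.mul 18 K)) (mp (fun c => ps (En 14 i 0 6 c)) 8 [])

def z1 (K NP NW TB i c c' : ℕ) : List ℕ :=
  cd (lb i (Nat.mul 18 K) && lb c 8 && lb c' 8 && !(Nat.beq c c')) [ng (En 14 i 0 6 c), ng (En 14 i 0 6 c')]

def z2 (K NP NW TB i c : ℕ) : List ℕ :=
  cd (lb i (Nat.mul 18 K) && lb c 8) [ng (En 14 i 0 6 c),
    ps (En 14 (po (ad K (Nat.div i 3) (Nat.mul 3 K)) (Nat.mod i 3)) 0 6 (Nat.mod (Nat.add c 4) 8))]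

def z3 (K NP NW TB i n b : ℕ) : List ℕ :=
  cd (lb i (Nat.mul 18 K))
    (bif Nat.beq b 0 then [ps (En 14 i 0 7 0)] else
     bif Nat.beq b 1 then [ng (En 14 i 0 7 (Nat.succ n)), ps (En 14 i 0 7 n)] else
     bif Nat.beq b 2 then [ng (En 14 i 0 7 n), ps (En 14 (Nat.succ i) 0 7 n)] else
     bif Nat.beq b 3 then [ng (En 14 0 0 7 (Nat.succ n))] else
     bif Nat.beq b 4 then cd (Nat.ble n 4) [ps (En 14 (Nat.mul 9 K) 0 7 n)] else
      cd (Nat.ble 5 n) [ng (En 14 (Nat.mul 9 K) 0 7 n)])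

def z4 (K NP NW TB i c n : ℕ) : List ℕ :=
  cd (lb i (Nat.mul 18 K) && lb c 8)
    (ng (En 14 0 0 6 c) :: ps (En 14 i 0 6 (Nat.mod (Nat.add c n) 8)) ::
      ((bif Nat.beq n 0 then [] else [ng (En 14 i 0 7 n)]) ++
        (bif Nat.beq n 4 && Nat.ble i (Nat.mul 9 K) then [] else [ps (En 14 i 0 7 (Nat.succ n))])))

def z5 (K NP NW TB t c w : ℕ) : List ℕ :=
  cd (lb t (Nat.mul 6 K) && lb c 8 && Nat.beq (Nat.mod c 2) 0 && lb w 3)
    [ng (En 14 (po t 1) 0 6 c), ps (En 14 (po t w) 0 6 c)]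

/-- letters and the code -/
def z6 (K NP NW TB t sd io c o e : ℕ) : List ℕ :=
  cd (lb t (Nat.mul 6 K) && lb sd 2 && lb c 8 && lb o 2 && lb e 3 && zz e o c)
    (ng (En 14 (po t (Nat.mul 2 sd)) 0 6 c) :: zel e
      (bif Nat.beq io 0 then [ng (En 11 0 t (Nat.mul 2 sd) (zj e o))] else
        [ng (En 11 0 t (Nat.succ (Nat.mul 2 sd)) (zi e o))]))

def z7 (K NP NW TB t sd c q : ℕ) : List ℕ :=
  cd (lb t (Nat.mul 6 K) && lb sd 2 &&
      (((Nat.beq c 2 || Nat.beq c 6) && lb q 2) || ((Nat.beq c 0 || Nat.beq c 4) && Nat.ble 2 q && lb q 4)))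
    [ng (En 14 (po t (Nat.mul 2 sd)) 0 6 c), ng (En 11 0 t (Nat.add sd 4) q)]

/-- exact letters only in own zones -/
def z8 (K NP NW TB t sd pr c : ℕ) : List ℕ :=
  cd (lb t (Nat.mul 6 K) && lb sd 2 && lb pr 2 && lb c 8 && !(Nat.beq (Nat.mod c 4) (Nat.mul 2 pr)))
    [ng (En 14 (po t (Nat.mul 2 sd)) 0 6 c), ng (En 11 0 t (Nat.add sd 4) (Nat.mul 2 pr)),
      ng (En 11 0 t (Nat.add sd 4) (Nat.succ (Nat.mul 2 pr))), ps (En 11 0 t (Nat.add sd 4) 4),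
      ps (En 11 0 t (Nat.add sd 4) 5)]

def z9 (K NP NW TB t sd : ℕ) : List ℕ :=
  cd (lb t (Nat.mul 6 K) && lb sd 2)
    [ps (En 11 0 t (Nat.add sd 4) 4), ps (En 11 0 t (Nat.add sd 4) 5), ps (En 14 t (Nat.add sd 2) 7 0),
      ps (En 14 t (Nat.add sd 2) 7 1)]

def z10 (K NP NW TB t sd pr q b : ℕ) : List ℕ :=
  cd (lb t (Nat.mul 6 K) && lb sd 2 && lb pr 2 && lb q 6)
    (bif Nat.beq b 0 then cd (Nat.beq (Nat.div q 2) pr)
        [ng (En 14 t (Nat.add sd 2) 7 pr), ps (En 11 0 t (Nat.add sd 4) q)] else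
     bif Nat.beq b 1 then cd (!(Nat.beq (Nat.div q 2) pr))
        [ng (En 14 t (Nat.add sd 2) 7 pr), ng (En 11 0 t (Nat.add sd 4) q)] else
      [ps (En 14 t (Nat.add sd 2) 7 pr), ng (En 11 0 t (Nat.add sd 4) (Nat.mul 2 pr)),
        ng (En 11 0 t (Nat.add sd 4) (Nat.succ (Nat.mul 2 pr))), ps (En 11 0 t (Nat.add sd 4) 4),
        ps (En 11 0 t (Nat.add sd 4) 5)])

def z11 (K NP NW TB t sd pr : ℕ) : List ℕ :=
  cd (lb t (Nat.mul 6 K) && lb sd 2 && lb pr 2)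
    [ng (En 14 t (Nat.add sd 2) 7 pr), ps (En 14 (po t (Nat.mul 2 sd)) 0 6 (Nat.mul 2 pr)),
      ps (En 14 (po t (Nat.mul 2 sd)) 0 6 (Nat.add (Nat.mul 2 pr) 4))]

/-- the four atoms of `NS2` -/
def zn (K y t i j w : ℕ) : ℕ :=
  bif Nat.beq w 0 then En 3 y t 0 i else bif Nat.beq w 1 then En 1 y t 2 i else
  bif Nat.beq w 2 then En 1 y (ad K t (Nat.mul 3 K)) 2 i else En 3 y (ad K t (Nat.mul 3 K)) 0 j

/-- points of the circle and the code -/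
def z12 (K NP NW TB t c o e w : ℕ) : List ℕ :=
  cd (lb t (Nat.mul 6 K) && lb c 8 && lb o 2 && lb e 3 && zz e o c && lb (nbf K TB 0 t) NP)
    (ng (En 14 (po t 1) 0 6 c) :: zel e [ng (zn K (nbf K TB 0 t) t (zi e o) (zj e o) w)])

def z13 (K NP NW TB t c q : ℕ) : List ℕ :=
  cd (lb t (Nat.mul 6 K) && lb (nbf K TB 0 t) NP &&
      (((Nat.beq c 2 || Nat.beq c 6) && lb q 2) || ((Nat.beq c 0 || Nat.beq c 4) && Nat.ble 2 q && lb q 4)))
    [ng (En 14 (po t 1) 0 6 c), ng (En 5 (nbf K TB 0 t) 0 0 q)]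

/-- wedges and sectors -/
def z14 (K NP NW TB t q b : ℕ) : List ℕ :=
  cd (lb t (Nat.mul 6 K) && lb q 6)
    (bif Nat.beq b 0 then [ng (En 14 0 t 1 q), ps (En 0 0 t 0 q)] else
      [ng (En 14 0 (ad K t 1) 0 q), ps (En 0 0 t 0 q)])

def z15 (K NP NW TB t sd : ℕ) : List ℕ :=
  cd (lb t (Nat.mul 6 K) && lb sd 2) (mp (fun q => ps (En 14 0 t sd q)) 4 [])

/-- the colour of the wedge at `+90` (`s = 0`) / `-90` (`s = 1`) of an exact letter with the code `c` -/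
def zw (c e s : ℕ) : ℕ :=
  bif Nat.beq (Nat.mod c 4) 0 then Nat.add 2 (Nat.mod (Nat.add (Nat.add e (Nat.div c 4)) s) 2) else
    Nat.mod (Nat.add (Nat.succ (Nat.div c 4)) s) 2

/-- wedges at exact letters -/
def z16 (K NP NW TB t sd s c e q b : ℕ) : List ℕ :=
  cd (lb t (Nat.mul 6 K) && lb sd 2 && lb s 2 && lb q 6 && lb c 8 && Nat.beq (Nat.mod c 2) 0 && lb e 3 &&
      (bif Nat.beq (Nat.mod c 4) 0 then lb e 2 else Nat.beq e 2) &&
      (bif Nat.beq b 0 then Nat.beq q (zw c e s) else !(Nat.beq q (zw c e s))))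
    (ng (En 14 t (Nat.add sd 2) 7 (Nat.div (Nat.mod c 4) 2)) :: ng (En 14 (po t (Nat.mul 2 sd)) 0 6 c) :: zel e
      [bif Nat.beq b 0 then ps (En 14 0 (bif Nat.beq s 0 then t else ad K t (Nat.mul 3 K)) sd q) else
        ng (En 14 0 (bif Nat.beq s 0 then t else ad K t (Nat.mul 3 K)) sd q)])

def z17 (K NP NW TB t sd s q : ℕ) : List ℕ :=
  cd (lb t (Nat.mul 6 K) && lb sd 2 && lb q 6)
    [ng (En 14 0 (bif Nat.beq s 0 then t else ad K t (Nat.mul 3 K)) sd q), ng (En 11 0 t (Nat.add sd 4) q)]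

def z18 (K NP NW TB q : ℕ) : List ℕ :=
  bif Nat.beq q 6 then [ps (En 6 0 0 0 0)] else cd (lb q 6) (bif lb q 4 then [ps (En 4 0 0 0 q)] else [ng (En 4 0 0 0 q)])

/-- an exact choice: cells -/
def z19 (K NP NW TB t sd w i j k u : ℕ) : List ℕ :=
  cd (lb t (Nat.mul 6 K) && lb sd 2 && lb w 2 && lb i 4 && lb j 4 && lb k 4 && lb u (Nat.mul 6 K) &&
      vcell K sd w k u t)
    [ng (En 9 0 t (Nat.mul 2 sd) i), ng (En 9 0 t (Nat.succ (Nat.mul 2 sd)) j),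
      ng (En 1 0 u k (bif Nat.beq w 0 then i else j))]

/-- an exact choice: pairs -/
def z20 (K NP NW TB t sd i j : ℕ) : List ℕ :=
  cd (lb t (Nat.mul 6 K) && lb sd 2 && lb i 4 && lb j 4 && !(Nat.beq (Nat.div i 2) (Nat.div j 2)))
    [ng (En 9 0 t (Nat.mul 2 sd) i), ng (En 9 0 t (Nat.succ (Nat.mul 2 sd)) j)]

/-! ### facts -/

theorem zz20 {c : ℕ} : zz 2 0 c = true ↔ c ≤ 2 ∨ 6 ≤ c := by
  show (Nat.ble c 2 || Nat.ble 6 c) = true ↔ _
  rw [Bool.or_eq_true, Nat.ble_eq, Nat.ble_eq]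

theorem zz21 {c : ℕ} : zz 2 1 c = true ↔ 2 ≤ c ∧ c ≤ 6 := by
  show (Nat.ble 2 c && Nat.ble c 6) = true ↔ _
  rw [Bool.and_eq_true, Nat.ble_eq, Nat.ble_eq]

theorem zz00 {c : ℕ} : zz 0 0 c = true ↔ c ≤ 4 := by
  show Nat.ble c 4 = true ↔ _
  rw [Nat.ble_eq]

theorem zz10 {c : ℕ} : zz 1 0 c = true ↔ c ≤ 4 := zz00

theorem zz01 {c : ℕ} : zz 0 1 c = true ↔ c = 0 ∨ 4 ≤ c := by
  show (Nat.beq c 0 || Nat.ble 4 c) = true ↔ _
  rw [Bool.or_eq_true, Nat.ble_eq, nbeq]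

theorem zz11 {c : ℕ} : zz 1 1 c = true ↔ c = 0 ∨ 4 ≤ c := zz01

section
variable {K NP NW : ℕ} {nb : ℕ → ℕ → ℕ} {M : MdW K NP NW nb} (Z : DZ M) {t sd e o : ℕ}
include Z

theorem zlet (ht : t < 6 * K) (hs : sd < 2) (he : e < 3) (ho : o < 2) (h : zz e o (Z.Zc t (2 * sd)) = true)
    (h0 : e = 0 → ¬ Z.E) (h1 : e = 1 → Z.E) : ¬ M.LT 0 t sd 1 (zi e o) ∧ ¬ M.LT 0 t sd 0 (zj e o) := by
  interval_cases e <;> interval_cases o
  · exact Z.lC ht hs (zz00.1 h) (h0 rfl)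
  · exact Z.lD ht hs (zz01.1 h) (h0 rfl)
  · exact Z.lC' ht hs (zz10.1 h) (h1 rfl)
  · exact Z.lD' ht hs (zz11.1 h) (h1 rfl)
  · exact Z.lA ht hs (zz20.1 h)
  · exact Z.lB ht hs (zz21.1 h).1 (zz21.1 h).2

theorem zpt (ht : t < 6 * K) (hn : nb 0 t < NP) (he : e < 3) (ho : o < 2) (h : zz e o (Z.Zc t 1) = true)
    (h0 : e = 0 → ¬ Z.E) (h1 : e = 1 → Z.E) : NS2 M (nb 0 t) t (zi e o) (zj e o) := by
  interval_cases e <;> interval_cases o
  · exact Z.nC ht hn (zz00.1 h) (h0 rfl)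
  · exact Z.nD ht hn (zz01.1 h) (h0 rfl)
  · exact Z.nC' ht hn (zz10.1 h) (h1 rfl)
  · exact Z.nD' ht hn (zz11.1 h) (h1 rfl)
  · exact Z.nA ht hn (zz20.1 h)
  · exact Z.nB ht hn (zz21.1 h).1 (zz21.1 h).2

/-- a letter without foreign colours: one colour inside, one colour outside -/
theorem zcrisp (ht : t < 6 * K) (hs : sd < 2) (h4 : ¬ M.LU 0 t sd 4) (h5 : ¬ M.LU 0 t sd 5) :
    ∃ i j, i < 4 ∧ j < 4 ∧ i / 2 = j / 2 ∧ (∀ r < 6, M.LT 0 t sd 0 r → r = i) ∧ ∀ r < 6, M.LT 0 t sd 1 r → r = j := by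
  rcases Z.lex ht hs h4 h5 with h | h
  · have h2 : ∀ r < 6, M.LU 0 t sd r → r = 0 ∨ r = 1 := fun r hr h1 => by
      have := Z.lex1 ht hs hr h h1; omega
    rcases Z.lAB ht hs h with h3 | h3
    · obtain ⟨h6, h7⟩ := Z.lA ht hs (Or.inl (by omega))
      refine ⟨0, 1, by omega, by omega, rfl, fun r hr h8 => ?_, fun r hr h8 => ?_⟩
      · rcases h2 r hr (Or.inl h8) with rfl | rfl
        · rfl
        · exact absurd h8 h7
      · rcases h2 r hr (Or.inr h8) with rfl | rfl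
        · exact absurd h8 h6
        · rfl
    · obtain ⟨h6, h7⟩ := Z.lB ht hs (by omega) (by omega)
      refine ⟨1, 0, by omega, by omega, rfl, fun r hr h8 => ?_, fun r hr h8 => ?_⟩
      · rcases h2 r hr (Or.inl h8) with rfl | rfl
        · exact absurd h8 h7
        · rfl
      · rcases h2 r hr (Or.inr h8) with rfl | rfl
        · rfl
        · exact absurd h8 h6
  · have h2 : ∀ r < 6, M.LU 0 t sd r → r = 2 ∨ r = 3 := fun r hr h1 => by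
      have := Z.lex2 ht hs hr h h1
      have h4' : r ≠ 4 := fun e => h4 (e ▸ h1)
      have h5' : r ≠ 5 := fun e => h5 (e ▸ h1)
      omega
    have key : (¬ M.LT 0 t sd 1 2 ∧ ¬ M.LT 0 t sd 0 3) ∨ (¬ M.LT 0 t sd 1 3 ∧ ¬ M.LT 0 t sd 0 2) := by
      rcases Z.lCD ht hs h with h3 | h3
      · by_cases hE : Z.E
        · exact Or.inr (Z.lC' ht hs (by omega) hE)
        · exact Or.inl (Z.lC ht hs (by omega) hE)
      · by_cases hE : Z.E
        · exact Or.inl (Z.lD' ht hs (by omega) hE)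
        · exact Or.inr (Z.lD ht hs (by omega) hE)
    rcases key with ⟨h6, h7⟩ | ⟨h6, h7⟩
    · refine ⟨2, 3, by omega, by omega, rfl, fun r hr h8 => ?_, fun r hr h8 => ?_⟩
      · rcases h2 r hr (Or.inl h8) with rfl | rfl
        · rfl
        · exact absurd h8 h7
      · rcases h2 r hr (Or.inr h8) with rfl | rfl
        · exact absurd h8 h6
        · rfl
    · refine ⟨3, 2, by omega, by omega, rfl, fun r hr h8 => ?_, fun r hr h8 => ?_⟩
      · rcases h2 r hr (Or.inl h8) with rfl | rfl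
        · exact absurd h8 h7
        · rfl
      · rcases h2 r hr (Or.inr h8) with rfl | rfl
        · rfl
        · exact absurd h8 h6

/-- two chosen colours of the palette: an exact letter -/
theorem zchoice {i j : ℕ} (hw : 0 < NW) (ht : t < 6 * K) (hs : sd < 2) (hi : i < 4) (hj : j < 4)
    (h0 : M.W 0 t sd 0 = i) (h1 : M.W 0 t sd 1 = j) :
    i / 2 = j / 2 ∧ (∀ r < 6, M.LT 0 t sd 0 r → r = i) ∧ ∀ r < 6, M.LT 0 t sd 1 r → r = j := by
  have hT : ∀ io < 2, ∀ q < 6, M.LT 0 t sd io q → q < 4 := by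
    intro io hio q hq h2
    by_contra h3
    have h4 : ¬ M.T 0 q := fun h5 => h3 ((Z.t0 hq).1 h5)
    rcases M.wf hw ht hs hio hq h2 h4 with h5 | h5
    · exact h5 (h0 ▸ (Z.t0 (by omega)).2 hi)
    · exact h5 (h1 ▸ (Z.t0 (by omega)).2 hj)
  have hn : ∀ q, 4 ≤ q → q < 6 → ¬ M.LU 0 t sd q := by
    rintro q h2 h3 (h4 | h4)
    · exact absurd (hT 0 (by omega) q h3 h4) (by omega)
    · exact absurd (hT 1 (by omega) q h3 h4) (by omega)
  obtain ⟨i', j', -, -, h5, h6, h7⟩ := zcrisp Z ht hs (hn 4 (by omega) (by omega)) (hn 5 (by omega) (by omega))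
  have e0 := h6 (M.W 0 t sd 0) (M.wlt hw ht hs (by omega)) (M.wm hw ht hs (by omega))
  have e1 := h7 (M.W 0 t sd 1) (M.wlt hw ht hs (by omega)) (M.wm hw ht hs (by omega))
  rw [h0] at e0
  rw [h1] at e1
  subst e0; subst e1
  exact ⟨h5, h6, h7⟩

end

end Vale.Agent.P032.H240.W
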