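import Vale.Agent.P032.H240.W.GenZ

/-!
# P032: the clauses of the zone block hold
-/

namespace Vale.Agent.P032.H240.W

open Vale.Agent.P032.H820.K (df ad hcell gk gt nbf En mp ps ng trv cd lb lb_iff cix ad_lt fx fa fb fc fd fe)
open Vale.Agent.P032.H254 (DZ Exl NS2)

section
variable {K NP NW TB : ℕ} {M : MdW K NP NW (nbf K TB)} {Z : DZ M} {v : ℕ → Prop} (hb : BZ M Z) (hv : Ag M v)
include hb hv

theorem bC {t k c : ℕ} (ht : t < 6 * K) (hk : k < 3) (hc : c < 8) : v (En 14 (3 * t + k) 0 6 c) ↔ Z.Zc t k = c := by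
  have hK := M.hK
  rw [bB hv (by omega) (by norm_num) (by norm_num)]
  exact hb.zc ht hk hc

theorem bC' {i c : ℕ} (hi : i < 18 * K) (hc : c < 8) : v (En 14 i 0 6 c) ↔ Z.Zc (i / 3) (i % 3) = c := by
  have h := bC hb hv (t := i / 3) (k := i % 3) (c := c) (by omega) (by omega) hc
  have e : 3 * (i / 3) + i % 3 = i := by omega
  rw [e] at h
  exact h

theorem bZa {i n : ℕ} (hi : i ≤ 18 * K) : v (En 14 i 0 7 n) ↔ n ≤ Z.Za i := by
  have hK := M.hK
  rw [bB hv (by omega) (by norm_num) (by norm_num)]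
  exact hb.za hi

theorem bE : v (En 14 0 1 7 0) ↔ Z.E := by
  rw [bB hv (by norm_num) (by norm_num) (by norm_num)]
  exact hb.ze

theorem bX0 {t sd : ℕ} (ht : t < 6 * K) (hs : sd < 2) : v (En 14 t (sd + 2) 7 0) ↔ Exl M t sd 0 1 := by
  have hK := M.hK
  rw [bB hv (by omega) (by omega) (by norm_num)]
  exact hb.zx0 ht hs

theorem bX1 {t sd : ℕ} (ht : t < 6 * K) (hs : sd < 2) : v (En 14 t (sd + 2) 7 1) ↔ Exl M t sd 2 3 := by
  have hK := M.hK
  rw [bB hv (by omega) (by omega) (by norm_num)]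
  exact hb.zx1 ht hs

theorem bMW {t sd q : ℕ} (ht : t < 6 * K) (hs : sd < 2) (hq : q < 6) : v (En 14 0 t sd q) ↔ Z.MW t sd q := by
  have hK := M.hK
  rw [bB hv (by omega) (by omega) (by omega)]
  exact hb.zm ht hs hq

theorem ho_zel {e : ℕ} {r : List ℕ} (he : e < 3) (h : (e = 0 → ¬ Z.E) → (e = 1 → Z.E) → Ho v r) : Ho v (zel e r) := by
  interval_cases e
  · exact hp' fun h1 => h (fun _ h2 => h1 ((bE hb hv).2 h2)) (fun h2 => absurd h2 (by norm_num))
  · exact hn fun h1 => h (fun h2 => absurd h2 (by norm_num)) (fun _ => (bE hb hv).1 h1)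
  · exact h (fun h2 => absurd h2 (by norm_num)) (fun h2 => absurd h2 (by norm_num))

theorem hz0 (i : ℕ) : Ho v (z0 K NP NW TB i) := by
  refine ho_cd fun h => ?_
  simp only [lb_iff, Nat.mul_eq] at h
  exact ho_mp (i := Z.Zc (i / 3) (i % 3)) Z.zlt (lv_ps.2 ((bC' hb hv h Z.zlt).2 rfl))

theorem hz1 (i c c' : ℕ) : Ho v (z1 K NP NW TB i c c') := by
  refine ho_cd fun h => ?_
  simp only [Bool.and_eq_true, lb_iff, Nat.mul_eq, nbne] at h
  obtain ⟨⟨⟨hi, hc⟩, hc'⟩, hne⟩ := h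
  exact hn fun h1 => hng fun h2 => hne (((bC' hb hv hi hc).1 h1).symm.trans ((bC' hb hv hi hc').1 h2))

theorem hz2 (i c : ℕ) : Ho v (z2 K NP NW TB i c) := by
  refine ho_cd fun h => ?_
  simp only [Bool.and_eq_true, lb_iff, Nat.mul_eq] at h
  obtain ⟨hi, hc⟩ := h
  refine hn fun h1 => hp ?_
  have h2 := (bC' hb hv hi hc).1 h1
  have h3 : Nat.mod (Nat.add c 4) 8 < 8 := Nat.mod_lt _ (by norm_num)
  show v (En 14 (3 * ad K (i / 3) (3 * K) + i % 3) 0 6 ((c + 4) % 8))
  rw [bC hb hv (ad_lt M.hK0) (by omega) (Nat.mod_lt _ (by norm_num)), Z.zhalf (by omega) (by omega), h2]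

theorem hz3 (i n b : ℕ) : Ho v (z3 K NP NW TB i n b) := by
  refine ho_cd fun h => ?_
  simp only [lb_iff, Nat.mul_eq] at h
  refine ho_bif ?_ (ho_bif ?_ (ho_bif ?_ (ho_bif ?_ (ho_bif ?_ ?_))))
  · exact hp ((bZa hb hv (by omega)).2 (Nat.zero_le _))
  · exact hn fun h1 => hp ((bZa hb hv (by omega)).2 (le_trans (Nat.le_succ n) ((bZa hb hv (by omega)).1 h1)))
  · exact hn fun h1 => hp ((bZa hb hv (i := i + 1) (by omega)).2 (((bZa hb hv (by omega)).1 h1).trans Z.zamono))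
  · refine hng fun h1 => ?_
    have h2 := (bZa hb hv (i := 0) (by omega)).1 h1
    rw [Z.za0] at h2
    omega
  · refine ho_cd fun h1 => hp ((bZa hb hv (i := 9 * K) (by omega)).2 ?_)
    rw [Z.zatop]
    exact Nat.le_of_ble_eq_true h1
  · refine ho_cd fun h1 => hng fun h2 => ?_
    have h3 := (bZa hb hv (i := 9 * K) (by omega)).1 h2
    rw [Z.zatop] at h3
    have h4 : 5 ≤ n := Nat.le_of_ble_eq_true h1
    omega

omit hb hv in
theorem za_mono {i j : ℕ} (h : i ≤ j) : Z.Za i ≤ Z.Za j := by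
  induction j with
  | zero => rw [Nat.le_zero.1 h]
  | succ j ih =>
    rcases Nat.le_succ_iff.1 h with h1 | h1
    · exact (ih h1).trans Z.zamono
    · rw [h1]

theorem hz4 (i c n : ℕ) : Ho v (z4 K NP NW TB i c n) := by
  refine ho_cd fun h => ?_
  simp only [Bool.and_eq_true, lb_iff, Nat.mul_eq] at h
  obtain ⟨hi, hc⟩ := h
  refine hn fun h1 => hp' fun h2 => ?_
  have h3 : Z.Zc 0 0 = c := (bC' hb hv (i := 0) (by omega) hc).1 h1
  have h4 : Z.Za i ≠ n := by
    intro h5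
    apply h2
    show v (En 14 i 0 6 ((c + n) % 8))
    rw [bC' hb hv hi (Nat.mod_lt _ (by norm_num)), Z.zcza (by omega) (by omega), h3, ← h5]
    congr 3
    omega
  have e1 : ∀ (b : Bool) (x y : List ℕ), (b = true → False) → Ho v y → Ho v (bif b then x else y) := by
    intro b x y hb' hy
    cases b
    · exact hy
    · exact (hb' rfl).elim
  by_cases h5 : Z.Za i < n
  · obtain ⟨l, hl, h6⟩ : Ho v (bif Nat.beq n 0 then [] else [ng (En 14 i 0 7 n)]) := by
      refine e1 _ _ _ (fun h6 => ?_) (hng fun h6 => ?_)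
      · rw [nbeq] at h6; omega
      · have := (bZa hb hv (by omega)).1 h6; omega
    exact ⟨l, List.mem_append_left _ hl, h6⟩
  · obtain ⟨l, hl, h6⟩ : Ho v (bif Nat.beq n 4 && Nat.ble i (Nat.mul 9 K) then [] else [ps (En 14 i 0 7 (Nat.succ n))]) := by
      refine e1 _ _ _ (fun h6 => ?_) (hp ((bZa hb hv (by omega)).2 (by omega)))
      rw [Bool.and_eq_true, nbeq, Nat.ble_eq, Nat.mul_eq] at h6
      have h7 := za_mono (Z := Z) h6.2
      rw [Z.zatop] at h7
      omega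
    exact ⟨l, List.mem_append_right _ hl, h6⟩

theorem hz5 (t c w : ℕ) : Ho v (z5 K NP NW TB t c w) := by
  refine ho_cd fun h => ?_
  simp only [Bool.and_eq_true, lb_iff, Nat.mul_eq, nbeq] at h
  obtain ⟨⟨⟨ht, hc⟩, he⟩, hw⟩ := h
  refine hn fun h1 => hp ?_
  have h2 := (bC hb hv ht (by norm_num) hc).1 h1
  refine (bC hb hv ht hw hc).2 ?_
  have h3 := Z.zeven ht (by rw [h2]; exact he)
  interval_cases w
  · rw [h3.1, h2]
  · exact h2
  · rw [h3.2, h2]

theorem hz6 (t sd io c o e : ℕ) : Ho v (z6 K NP NW TB t sd io c o e) := by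
  refine ho_cd fun h => ?_
  have hK := M.hK
  have hNP := M.hNP
  have hNW := M.hNW
  simp only [Bool.and_eq_true, lb_iff, Nat.mul_eq] at h
  obtain ⟨⟨⟨⟨⟨ht, hs⟩, hc⟩, ho⟩, he⟩, hz⟩ := h
  refine hn fun h1 => ho_zel hb hv he fun h2 h3 => ?_
  have h4 : Z.Zc t (2 * sd) = c := (bC hb hv ht (by omega) hc).1 h1
  obtain ⟨h5, h6⟩ := zlet Z ht hs he ho (by rw [h4]; exact hz) h2 h3
  refine ho_bif (hng fun h7 => h6 ?_) (hng fun h7 => h5 ?_)
  · have := (bLT hv (x := 0) (j := t) (k := 2 * sd) (q := zj e o) (by omega) (by omega) (by omega)).1 h7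
    rw [show 2 * sd / 2 = sd by omega, show 2 * sd % 2 = 0 by omega] at this
    exact this
  · have := (bLT hv (x := 0) (j := t) (k := 2 * sd + 1) (q := zi e o) (by omega) (by omega) (by omega)).1 h7
    rw [show (2 * sd + 1) / 2 = sd by omega, show (2 * sd + 1) % 2 = 1 by omega] at this
    exact this

theorem hz7 (t sd c q : ℕ) : Ho v (z7 K NP NW TB t sd c q) := by
  refine ho_cd fun h => ?_
  have hK := M.hK
  simp only [Bool.and_eq_true, Bool.or_eq_true, lb_iff, Nat.mul_eq, nbeq, Nat.ble_eq] at h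
  obtain ⟨⟨ht, hs⟩, h⟩ := h
  have hc : c < 8 := by omega
  refine hn fun h1 => hng fun h2 => ?_
  have h4 : Z.Zc t (2 * sd) = c := (bC hb hv ht (by omega) hc).1 h1
  rw [show Nat.add sd 4 = sd + 4 from rfl, bLU hv (by norm_num) (by omega) hs] at h2
  rcases h with ⟨h5, h6⟩ | ⟨⟨h5, h6⟩, h7⟩
  · have h8 := Z.lA ht hs (by omega)
    have h9 := Z.lB ht hs (by omega) (by omega)
    interval_cases q
    · rcases h2 with h2 | h2
      · exact h9.2 h2
      · exact h8.1 h2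
    · rcases h2 with h2 | h2
      · exact h8.2 h2
      · exact h9.1 h2
  · by_cases hE : Z.E
    · have h8 := Z.lC' ht hs (by omega) hE
      have h9 := Z.lD' ht hs (by omega) hE
      interval_cases q
      · rcases h2 with h2 | h2
        · exact h8.2 h2
        · exact h9.1 h2
      · rcases h2 with h2 | h2
        · exact h9.2 h2
        · exact h8.1 h2
    · have h8 := Z.lC ht hs (by omega) hE
      have h9 := Z.lD ht hs (by omega) hE
      interval_cases q
      · rcases h2 with h2 | h2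
        · exact h9.2 h2
        · exact h8.1 h2
      · rcases h2 with h2 | h2
        · exact h8.2 h2
        · exact h9.1 h2

/-- the atom of an exact letter -/
theorem bEx {t sd pr : ℕ} (ht : t < 6 * K) (hs : sd < 2) (hp : pr < 2) :
    v (En 14 t (sd + 2) 7 pr) ↔ Exl M t sd (2 * pr) (2 * pr + 1) := by
  interval_cases pr
  · exact bX0 hb hv ht hs
  · exact bX1 hb hv ht hs

theorem hz8 (t sd pr c : ℕ) : Ho v (z8 K NP NW TB t sd pr c) := by
  refine ho_cd fun h => ?_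
  have hK := M.hK
  simp only [Bool.and_eq_true, lb_iff, Nat.mul_eq, nbne] at h
  obtain ⟨⟨⟨⟨ht, hs⟩, hp⟩, hc⟩, hne⟩ := h
  refine hn fun h1 => hn fun h2 => hn fun h3 => hp' fun h4 => hp' fun h5 => ?_
  exfalso
  have e4 : Z.Zc t (2 * sd) = c := (bC hb hv ht (by omega) hc).1 h1
  have hx : Exl M t sd (2 * pr) (2 * pr + 1) := by
    constructor
    · exact (bLU hv (by norm_num) (by omega) hs).1 h2
    · exact (bLU hv (by norm_num) (by omega) hs).1 h3
    · exact fun h6 => h4 ((bLU hv (by norm_num) (by omega) hs).2 h6)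
    · exact fun h6 => h5 ((bLU hv (by norm_num) (by omega) hs).2 h6)
  have hne' : c % 4 ≠ 2 * pr := hne
  interval_cases pr
  · have := Z.lAB ht hs hx; omega
  · have := Z.lCD ht hs hx; omega

theorem hz9 (t sd : ℕ) : Ho v (z9 K NP NW TB t sd) := by
  refine ho_cd fun h => ?_
  have hK := M.hK
  simp only [Bool.and_eq_true, lb_iff, Nat.mul_eq] at h
  obtain ⟨ht, hs⟩ := h
  refine hp' fun h4 => hp' fun h5 => ?_
  rcases Z.lex ht hs (fun h6 => h4 ((bLU hv (by norm_num) (by omega) hs).2 h6))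
    (fun h6 => h5 ((bLU hv (by norm_num) (by omega) hs).2 h6)) with h6 | h6
  · exact hp ((bX0 hb hv ht hs).2 h6)
  · exact Vale.Agent.P032.H240.W.ht (hp ((bX1 hb hv ht hs).2 h6))

theorem hz10 (t sd pr q b : ℕ) : Ho v (z10 K NP NW TB t sd pr q b) := by
  refine ho_cd fun h => ?_
  have hK := M.hK
  simp only [Bool.and_eq_true, lb_iff, Nat.mul_eq] at h
  obtain ⟨⟨⟨ht, hs⟩, hpr⟩, hq⟩ := h
  refine ho_bif (ho_cd fun h => ?_) (ho_bif (ho_cd fun h => ?_) ?_)
  · rw [nbeq] at h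
    have h' : q / 2 = pr := h
    refine hn fun h1 => hp ((bLU hv (by norm_num) (by omega) hs).2 ?_)
    have h2 := (bEx hb hv ht hs hpr).1 h1
    have h3 : q = 2 * pr ∨ q = 2 * pr + 1 := by omega
    rcases h3 with rfl | rfl
    · exact h2.l1
    · exact h2.l2
  · rw [nbne] at h
    have h' : q / 2 ≠ pr := h
    refine hn fun h1 => hng fun h4 => ?_
    have h2 := (bEx hb hv ht hs hpr).1 h1
    have h3 := (bLU hv (by norm_num) (by omega) hs).1 h4
    have h5 : q ≠ 4 := fun e => h2.f4 (e ▸ h3)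
    have h6 : q ≠ 5 := fun e => h2.f5 (e ▸ h3)
    interval_cases pr
    · have := Z.lex1 ht hs hq h2 h3; omega
    · have := Z.lex2 ht hs hq h2 h3; omega
  · refine hp' fun h1 => hn fun h2 => hn fun h3 => hp' fun h4 => hp' fun h5 => ?_
    exfalso
    refine h1 ((bEx hb hv ht hs hpr).2 ?_)
    constructor
    · exact (bLU hv (by norm_num) (by omega) hs).1 h2
    · exact (bLU hv (by norm_num) (by omega) hs).1 h3
    · exact fun h6 => h4 ((bLU hv (by norm_num) (by omega) hs).2 h6)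
    · exact fun h6 => h5 ((bLU hv (by norm_num) (by omega) hs).2 h6)

theorem hz11 (t sd pr : ℕ) : Ho v (z11 K NP NW TB t sd pr) := by
  refine ho_cd fun h => ?_
  simp only [Bool.and_eq_true, lb_iff, Nat.mul_eq] at h
  obtain ⟨⟨ht, hs⟩, hpr⟩ := h
  refine hn fun h1 => ?_
  have h2 := (bEx hb hv ht hs hpr).1 h1
  have h3 : Z.Zc t (2 * sd) = 2 * pr ∨ Z.Zc t (2 * sd) = 2 * pr + 4 := by
    interval_cases pr
    · exact Z.lAB ht hs h2
    · exact Z.lCD ht hs h2
  rcases h3 with h3 | h3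
  · exact hp ((bC hb hv (k := 2 * sd) (c := 2 * pr) ht (by omega) (by omega)).2 h3)
  · exact Vale.Agent.P032.H240.W.ht (hp ((bC hb hv (k := 2 * sd) (c := 2 * pr + 4) ht (by omega) (by omega)).2 h3))

theorem hz12 (t c o e w : ℕ) : Ho v (z12 K NP NW TB t c o e w) := by
  refine ho_cd fun h => ?_
  have hK := M.hK
  have hNP := M.hNP
  have hadl := ad_lt (K := K) (a := t) (s := 3 * K) M.hK0
  simp only [Bool.and_eq_true, lb_iff, Nat.mul_eq] at h
  obtain ⟨⟨⟨⟨⟨ht, hc⟩, ho⟩, he⟩, hz⟩, hy⟩ := h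
  refine hn fun h1 => ho_zel hb hv he fun h2 h3 => ?_
  have h4 : Z.Zc t 1 = c := (bC hb hv ht (by norm_num) hc).1 h1
  have h5 := zpt Z ht hy he ho (by rw [h4]; exact hz) h2 h3
  refine hng fun h6 => ?_
  unfold zn at h6
  cases hw0 : Nat.beq w 0
  · rw [hw0, cond_false] at h6
    cases hw1 : Nat.beq w 1
    · rw [hw1, cond_false] at h6
      cases hw2 : Nat.beq w 2
      · rw [hw2, cond_false] at h6
        exact h5.near ((bPH hv (by omega) (by simpa using by omega)).1 h6)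
      · rw [hw2, cond_true] at h6
        exact h5.m2 ((bPV hv (by omega) (by simpa using by omega) (by norm_num)).1 h6)
    · rw [hw1, cond_true] at h6
      exact h5.m1 ((bPV hv (by omega) (by omega) (by norm_num)).1 h6)
  · rw [hw0, cond_true] at h6
    exact h5.far ((bPH hv (by omega) (by omega)).1 h6)

theorem hz13 (t c q : ℕ) : Ho v (z13 K NP NW TB t c q) := by
  refine ho_cd fun h => ?_
  have hK := M.hK
  have hNP := M.hNP
  simp only [Bool.and_eq_true, Bool.or_eq_true, lb_iff, Nat.mul_eq, nbeq, Nat.ble_eq] at h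
  obtain ⟨⟨ht, hy⟩, h⟩ := h
  have hc : c < 8 := by omega
  refine hn fun h1 => hng fun h2 => ?_
  have h4 : Z.Zc t 1 = c := (bC hb hv ht (by norm_num) hc).1 h1
  have h2 := (bP hv (by omega)).1 h2
  rcases h with ⟨h5, h6⟩ | ⟨⟨h5, h6⟩, h7⟩
  · have h8 := Z.pAB ht hy (by omega)
    interval_cases q
    · exact h8.1 h2
    · exact h8.2 h2
  · have h8 := Z.pCD ht hy (by omega)
    interval_cases q
    · exact h8.1 h2
    · exact h8.2 h2

theorem hz14 (t q b : ℕ) : Ho v (z14 K NP NW TB t q b) := by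
  refine ho_cd fun h => ?_
  have hK := M.hK
  have hadl := ad_lt (K := K) (a := t) (s := 1) M.hK0
  simp only [Bool.and_eq_true, lb_iff, Nat.mul_eq] at h
  obtain ⟨ht, hq⟩ := h
  refine ho_bif ?_ ?_
  · exact hn fun h1 => hp ((bV hv (by norm_num) (by omega) (by norm_num)).2
      (Z.mR ht hq ((bMW hb hv ht (by norm_num) hq).1 h1)))
  · exact hn fun h1 => hp ((bV hv (by norm_num) (by omega) (by norm_num)).2
      (Z.mL ht hq ((bMW hb hv hadl (by norm_num) hq).1 h1)))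

theorem hz15 (t sd : ℕ) : Ho v (z15 K NP NW TB t sd) := by
  refine ho_cd fun h => ?_
  simp only [Bool.and_eq_true, lb_iff, Nat.mul_eq] at h
  obtain ⟨ht, hs⟩ := h
  obtain ⟨q, hq, h1⟩ := Z.mne ht hs
  exact ho_mp hq (lv_ps.2 ((bMW hb hv ht hs (by omega)).2 h1))

omit hb hv in
/-- the wedges of an exact letter -/
theorem zwed {t sd s c e q : ℕ} (ht : t < 6 * K) (hs : sd < 2) (hs2 : s < 2) (hc : c < 8) (hce : c % 2 = 0)
    (he : e < 3) (hce' : (c % 4 = 0 → e < 2) ∧ (c % 4 ≠ 0 → e = 2)) (hq : q < 6)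
    (hx : Exl M t sd (2 * (c % 4 / 2)) (2 * (c % 4 / 2) + 1)) (h4 : Z.Zc t (2 * sd) = c)
    (h0 : e = 0 → ¬ Z.E) (h1 : e = 1 → Z.E) :
    Z.MW (bif Nat.beq s 0 then t else ad K t (3 * K)) sd q ↔ q = zw c e s := by
  have hc' : c = 0 ∨ c = 2 ∨ c = 4 ∨ c = 6 := by omega
  rcases hc' with rfl | rfl | rfl | rfl
  · have he' := hce'.1 rfl
    interval_cases e <;> interval_cases s
    · exact (Z.d0 ht hs hq hx h4 (h0 rfl)).1
    · exact (Z.d0 ht hs hq hx h4 (h0 rfl)).2
    · exact (Z.d0' ht hs hq hx h4 (h1 rfl)).1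
    · exact (Z.d0' ht hs hq hx h4 (h1 rfl)).2
  · obtain rfl := hce'.2 (by norm_num)
    interval_cases s
    · exact (Z.d2 ht hs hq hx h4).1
    · exact (Z.d2 ht hs hq hx h4).2
  · have he' := hce'.1 rfl
    interval_cases e <;> interval_cases s
    · exact (Z.d4 ht hs hq hx h4 (h0 rfl)).1
    · exact (Z.d4 ht hs hq hx h4 (h0 rfl)).2
    · exact (Z.d4' ht hs hq hx h4 (h1 rfl)).1
    · exact (Z.d4' ht hs hq hx h4 (h1 rfl)).2
  · obtain rfl := hce'.2 (by norm_num)
    interval_cases s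
    · exact (Z.d6 ht hs hq hx h4).1
    · exact (Z.d6 ht hs hq hx h4).2

theorem hz16 (t sd s c e q b : ℕ) : Ho v (z16 K NP NW TB t sd s c e q b) := by
  refine ho_cd fun h => ?_
  have hK := M.hK
  simp only [Bool.and_eq_true, lb_iff, Nat.mul_eq, nbeq] at h
  obtain ⟨⟨⟨⟨⟨⟨⟨⟨ht, hs⟩, hs2⟩, hq⟩, hc⟩, hce⟩, he⟩, hce'⟩, hbq⟩ := h
  have hce : c % 2 = 0 := hce
  have hce2 : (c % 4 = 0 → e < 2) ∧ (c % 4 ≠ 0 → e = 2) := by
    constructor
    · intro h1
      rw [show Nat.mod c 4 = 0 from h1, Nat.beq_refl, cond_true, lb_iff] at hce'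
      exact hce'
    · intro h1
      rw [nbf0 (show Nat.mod c 4 ≠ 0 from h1), cond_false, nbeq] at hce'
      exact hce'
  refine hn fun h1 => hn fun h2 => ho_zel hb hv he fun h3 h4 => ?_
  have h5 : Z.Zc t (2 * sd) = c := (bC hb hv ht (by omega) hc).1 h2
  have h6 := (bEx hb hv ht hs (pr := c % 4 / 2) (by omega)).1 h1
  have h7 := zwed (Z := Z) ht hs hs2 hc hce he hce2 hq h6 h5 h3 h4
  have hT : (bif Nat.beq s 0 then t else ad K t (3 * K)) < 6 * K := by
    cases Nat.beq s 0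
    · exact ad_lt M.hK0
    · exact ht
  have h8 := bMW hb hv hT hs hq
  cases hb0 : Nat.beq b 0
  · rw [hb0, cond_false, nbne] at hbq
    exact hng fun h9 => hbq (h7.1 (h8.1 h9))
  · rw [hb0, cond_true, nbeq] at hbq
    exact hp (h8.2 (h7.2 hbq))

theorem hz17 (t sd s q : ℕ) : Ho v (z17 K NP NW TB t sd s q) := by
  refine ho_cd fun h => ?_
  have hK := M.hK
  simp only [Bool.and_eq_true, lb_iff, Nat.mul_eq] at h
  obtain ⟨⟨ht, hs⟩, hq⟩ := h
  refine hn fun h1 => hng fun h2 => ?_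
  have h3 := (bLU hv (by norm_num) (by omega) hs).1 h2
  cases hs0 : Nat.beq s 0
  · rw [hs0, cond_false] at h1
    exact Z.mdis' ht hs hq ((bMW hb hv (ad_lt M.hK0) hs hq).1 h1) h3
  · rw [hs0, cond_true] at h1
    exact Z.mdis ht hs hq ((bMW hb hv ht hs hq).1 h1) h3

theorem hz18 (q : ℕ) : Ho v (z18 K NP NW TB q) := by
  refine ho_bif ?_ (ho_cd fun hq => ?_)
  · exact hp ((bX hv (by norm_num)).2 Z.x0)
  · rw [lb_iff] at hq
    have h1 := Z.t0 hq
    cases h2 : lb q 4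
    · rw [Bool.eq_false_iff, ne_eq, lb_iff] at h2
      exact hng fun h3 => h2 (h1.1 ((bT hv (by norm_num)).1 h3))
    · rw [lb_iff] at h2
      exact hp ((bT hv (by norm_num)).2 (h1.2 h2))

theorem hz19 (t sd w i j k u : ℕ) : Ho v (z19 K NP NW TB t sd w i j k u) := by
  refine ho_cd fun h => ?_
  have hK := M.hK
  have hNP := M.hNP
  have hNW := M.hNW
  have hw := hb.w0
  simp only [Bool.and_eq_true, lb_iff, Nat.mul_eq] at h
  obtain ⟨⟨⟨⟨⟨⟨⟨ht, hs⟩, hw2⟩, hi⟩, hj⟩, hk⟩, hu⟩, hvc⟩ := h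
  refine hn fun h1 => hn fun h2 => hng fun h3 => ?_
  have e1 : M.W 0 t sd 0 = i := by
    have := (bW hv (x := 0) (j := t) (k := 2 * sd) (q := i) (by omega) (by omega) (by omega)).1 h1
    rw [show 2 * sd / 2 = sd by omega, show 2 * sd % 2 = 0 by omega] at this
    exact this
  have e2 : M.W 0 t sd 1 = j := by
    have := (bW hv (x := 0) (j := t) (k := 2 * sd + 1) (q := j) (by omega) (by omega) (by omega)).1 h2
    rw [show (2 * sd + 1) / 2 = sd by omega, show (2 * sd + 1) % 2 = 1 by omega] at this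
    exact this
  obtain ⟨-, h5, h6⟩ := zchoice Z hw ht hs hi hj e1 e2
  have h7 : w = 0 ∨ w = 1 := by omega
  rcases h7 with rfl | rfl
  · exact M.lhalf hw ht hs (by norm_num) hk hu (by omega) hvc (fun r hr hri h8 => hri (h5 r hr h8))
      ((bPV hv (by omega) (by omega) (by omega)).1 h3)
  · exact M.lhalf hw ht hs (by norm_num) hk hu (by omega) hvc (fun r hr hri h8 => hri (h6 r hr h8))
      ((bPV hv (by omega) (by omega) (by omega)).1 h3)

theorem hz20 (t sd i j : ℕ) : Ho v (z20 K NP NW TB t sd i j) := by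
  refine ho_cd fun h => ?_
  have hK := M.hK
  have hNP := M.hNP
  have hNW := M.hNW
  have hw := hb.w0
  simp only [Bool.and_eq_true, lb_iff, Nat.mul_eq, nbne] at h
  obtain ⟨⟨⟨⟨ht, hs⟩, hi⟩, hj⟩, hij⟩ := h
  refine hn fun h1 => hng fun h2 => ?_
  have e1 : M.W 0 t sd 0 = i := by
    have := (bW hv (x := 0) (j := t) (k := 2 * sd) (q := i) (by omega) (by omega) (by omega)).1 h1
    rw [show 2 * sd / 2 = sd by omega, show 2 * sd % 2 = 0 by omega] at this
    exact this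
  have e2 : M.W 0 t sd 1 = j := by
    have := (bW hv (x := 0) (j := t) (k := 2 * sd + 1) (q := j) (by omega) (by omega) (by omega)).1 h2
    rw [show (2 * sd + 1) / 2 = sd by omega, show (2 * sd + 1) % 2 = 1 by omega] at this
    exact this
  exact hij (zchoice Z hw ht hs hi hj e1 e2).1

end

/-! ### the generator -/

/-- the clause of a code of the zone block, by the last field -/
def gz (K NP NW TB k n : ℕ) : List ℕ :=
  bif Nat.ble k 10 then
    (bif Nat.ble k 5 then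
      (bif Nat.beq k 0 then z0 K NP NW TB (fx n) else
       bif Nat.beq k 1 then z1 K NP NW TB (fx n) (fa n) (fb n) else
       bif Nat.beq k 2 then z2 K NP NW TB (fx n) (fa n) else
       bif Nat.beq k 3 then z3 K NP NW TB (fx n) (fa n) (fb n) else
       bif Nat.beq k 4 then z4 K NP NW TB (fx n) (fa n) (fb n) else z5 K NP NW TB (fx n) (fa n) (fb n))
    else
      (bif Nat.beq k 6 then z6 K NP NW TB (fx n) (Nat.mod (fa n) 2) (Nat.div (fa n) 2) (fb n) (fc n) (fd n) else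
       bif Nat.beq k 7 then z7 K NP NW TB (fx n) (fa n) (fb n) (fc n) else
       bif Nat.beq k 8 then z8 K NP NW TB (fx n) (fa n) (fb n) (fc n) else
       bif Nat.beq k 9 then z9 K NP NW TB (fx n) (fa n) else z10 K NP NW TB (fx n) (fa n) (fb n) (fc n) (fd n)))
  else
    (bif Nat.ble k 15 then
      (bif Nat.beq k 11 then z11 K NP NW TB (fx n) (fa n) (fb n) else
       bif Nat.beq k 12 then z12 K NP NW TB (fx n) (fa n) (fb n) (fc n) (fd n) else
       bif Nat.beq k 13 then z13 K NP NW TB (fx n) (fa n) (fb n) else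
       bif Nat.beq k 14 then z14 K NP NW TB (fx n) (fa n) (fb n) else z15 K NP NW TB (fx n) (fa n))
    else
      (bif Nat.beq k 16 then
        z16 K NP NW TB (fx n) (Nat.mod (fa n) 2) (Nat.div (fa n) 2) (fb n) (fc n) (Nat.mod (fd n) 8) (Nat.div (fd n) 8) else
       bif Nat.beq k 17 then z17 K NP NW TB (fx n) (fa n) (fb n) (fc n) else
       bif Nat.beq k 18 then z18 K NP NW TB (fx n) else
       bif Nat.beq k 19 then
        z19 K NP NW TB (fx n) (Nat.mod (fa n) 2) (Nat.div (fa n) 2) (Nat.mod (fb n) 8) (Nat.div (fb n) 8) (fc n) (fd n) else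
        z20 K NP NW TB (fx n) (fa n) (fb n) (fc n)))

section
variable {K NP NW TB : ℕ} {M : MdW K NP NW (nbf K TB)} {Z : DZ M} {v : ℕ → Prop} (hb : BZ M Z) (hv : Ag M v)
include hb hv

theorem gz_ho (k n : ℕ) : Ho v (gz K NP NW TB k n) := by
  unfold gz
  exact ho_bif
    (ho_bif
      (ho_bif (hz0 hb hv _) (ho_bif (hz1 hb hv _ _ _) (ho_bif (hz2 hb hv _ _) (ho_bif (hz3 hb hv _ _ _)
        (ho_bif (hz4 hb hv _ _ _) (hz5 hb hv _ _ _))))))
      (ho_bif (hz6 hb hv _ _ _ _ _ _) (ho_bif (hz7 hb hv _ _ _ _) (ho_bif (hz8 hb hv _ _ _ _) (ho_bif (hz9 hb hv _ _)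
        (hz10 hb hv _ _ _ _ _))))))
    (ho_bif
      (ho_bif (hz11 hb hv _ _ _) (ho_bif (hz12 hb hv _ _ _ _ _) (ho_bif (hz13 hb hv _ _ _) (ho_bif (hz14 hb hv _ _ _)
        (hz15 hb hv _ _)))))
      (ho_bif (hz16 hb hv _ _ _ _ _ _ _) (ho_bif (hz17 hb hv _ _ _ _) (ho_bif (hz18 hb hv _)
        (ho_bif (hz19 hb hv _ _ _ _ _ _ _) (hz20 hb hv _ _ _ _))))))

end

end Vale.Agent.P032.H240.W
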