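import Vale.Agent.P032.H240.W.Val

/-!
# P032: the wild model of germs for several classes of directions

Index conventions of `H820/K/Md`: `K` classes of directions, `6 K` directions `t`, cells `(0, j)` sector, `(1, j)`
inside the circle about `x + u(j)`, `(2, j)` outside both circles, `(3, j)` inside the circle about `x - u(j)`; a
cell is read strictly (limit direction inside the sector / equal to the ray).  Only rules of the frame `Irr U T`.

* `MdW` : the rules;
* `MdW.bv` : meaning of the atoms (numbers).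
-/

namespace Vale.Agent.P032.H240.W

open Vale.Agent.P032.H820.K (df ad hcell gk gt)

/-- a cell `(k, j)` of one colour kills the colour just inside (`io = 0`) / just outside (`io = 1`) the circle at the
directions just before / after `t` -/
def scell (K sd io k j t : ℕ) : Bool :=
  bif Nat.beq k 0 then
    (bif Nat.beq io 1 then hcell K k j t else !(hcell K k j t)) ||
      (bif Nat.beq sd 1 then Nat.beq (df K j t) 0 || Nat.beq (df K j t) (Nat.mul 3 K)
        else Nat.beq (Nat.succ (df K j t)) (Nat.mul 6 K) || Nat.beq (Nat.succ (df K j t)) (Nat.mul 3 K))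
  else
    (bif Nat.beq io 1 then hcell K k j t || Nat.beq (df K j t) (bif Nat.beq sd 1 then 0 else Nat.mul 3 K)
      else !(hcell K k j t) || Nat.beq (df K j t) (bif Nat.beq sd 1 then Nat.mul 3 K else 0))

/-- cells excluded for the colour of a one coloured inner (`io = 0`) / outer (`io = 1`) letter (first order and the
tangent rays; wild form of `wcell`) -/
def vcell (K sd io k j t : ℕ) : Bool :=
  bif Nat.beq io 0 then
    (bif Nat.beq k 0 then Nat.ble (Nat.succ (df K j t)) (Nat.mul 3 K) else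
      (Nat.ble 1 (df K j t) && Nat.ble (Nat.succ (df K j t)) (Nat.mul 3 K)) ||
        Nat.beq (df K j t) (bif Nat.beq sd 1 then Nat.mul 3 K else 0))
  else
    (bif Nat.beq k 0 then Nat.ble (Nat.mul 3 K) (df K j t) else
      Nat.ble (Nat.succ (Nat.mul 3 K)) (df K j t) ||
        Nat.beq (df K j t) (bif Nat.beq sd 1 then 0 else Nat.mul 3 K))

/-- the germs of the colours at the `NP` points, wild frame -/
structure MdW (K NP NW : ℕ) (nb : ℕ → ℕ → ℕ) where
  hK0 : 0 < K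
  hK : 6 * K ≤ 256
  hNP : NP ≤ 4096
  hNW : NW ≤ NP
  /-- pure points of `q` accumulate at `x` in the cell `(k, j)` -/
  V : ℕ → ℕ → ℕ → ℕ → Prop
  /-- points of `U q` accumulate at `x` in the cell `(k, j)` -/
  PV : ℕ → ℕ → ℕ → ℕ → Prop
  /-- the same inside the circle about `x + u(s)` -/
  H : ℕ → ℕ → ℕ → Prop
  PH : ℕ → ℕ → ℕ → Prop
  T : ℕ → ℕ → Prop
  P : ℕ → ℕ → Prop
  X : ℕ → Prop
  /-- colours accumulating just inside (`io = 0`) / outside (`io = 1`) the circle about the word point `x`, just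
  before (`sd = 0`) / after (`sd = 1`) the direction `t`: `LT x t sd io q` -/
  LT : ℕ → ℕ → ℕ → ℕ → ℕ → Prop
  /-- the chosen letters `W x t sd io` -/
  W : ℕ → ℕ → ℕ → ℕ → ℕ
  /-- a joint colouring for every cell `(k, j)` of displacements: `J k x j` is the colour at the point `x` -/
  J : ℕ → ℕ → ℕ → ℕ
  /-- directions of the pure points of `q` accumulate at the ray `2 m` from the right, at the ray `2 m + 2` from the
  left (two classes) -/
  AR : ℕ → ℕ → ℕ → Prop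
  AL : ℕ → ℕ → ℕ → Prop
  /-- further bits; their rules are external clauses -/
  B : ℕ → ℕ → ℕ → ℕ → Prop
  -- cells
  cell : ∀ {k x j}, k < 4 → x < NP → j < 6 * K → ∃ q < 6, V k x j q
  vt : ∀ {k x j q}, k < 4 → x < NP → j < 6 * K → q < 6 → V k x j q → T x q
  tv : ∀ {x q}, x < NP → q < 6 → T x q → ∃ k < 4, ∃ j < 6 * K, V k x j q
  xx2 : ∀ {x q}, x < NP → q < 6 → X x → T x q → ∃ r < 6, r ≠ q ∧ T x r
  vh : ∀ {k x j s q}, k < 4 → x < NP → j < 6 * K → s < 6 * K → q < 6 → hcell K k j s = true → V k x j q → H x s q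
  tp : ∀ {x q}, x < NP → q < 6 → T x q → P x q
  vpv : ∀ {k x j q}, k < 4 → x < NP → j < 6 * K → q < 6 → V k x j q → PV k x j q
  pvp : ∀ {k x j q}, k < 4 → x < NP → j < 6 * K → q < 6 → PV k x j q → P x q
  ppv : ∀ {x q}, x < NP → q < 6 → P x q → ∃ k < 4, ∃ j < 6 * K, PV k x j q
  pvh : ∀ {k x j s q}, k < 4 → x < NP → j < 6 * K → s < 6 * K → q < 6 → hcell K k j s = true → PV k x j q → PH x s q
  hph : ∀ {x s q}, x < NP → s < 6 * K → q < 6 → H x s q → PH x s q
  xxp : ∀ {x t q}, x < NP → t < 6 * K → q < 6 → nb x t < NP → T x q → P (nb x t) q → X x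
  -- palettes of unit pairs
  /-- W1 -/
  w1 : ∀ {x s q}, x < NP → s < 6 * K → q < 6 → nb x s < NP → (∀ r < 6, r ≠ q → ¬ T x r) → ¬ P (nb x s) q
  /-- W2 -/
  w2 : ∀ {x s} (S : Finset ℕ), x < NP → s < 6 * K → nb x s < NP → S.card ≤ 3 → (∀ q < 6, T x q → q ∈ S) →
    ∃ q < 6, T (nb x s) q ∧ ¬ T x q
  /-- lemma X -/
  lx : ∀ {x s r t} (S : Finset ℕ), x < NP → s < 6 * K → r < 6 * K → t < 6 → nb x s < NP → nb (nb x s) r < NP →
    r ≠ s → r ≠ ad K s (3 * K) → S.card ≤ 3 → (∀ q < 6, T x q → q ∈ S) → (∀ q < 6, T (nb x s) q → T x q ∨ q = t) →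
      ¬ P (nb (nb x s) r) t
  /-- lemma B -/
  lb : ∀ {x s r i j}, x < NP → s < 6 * K → r < 6 * K → i < 6 → j < 6 → nb x s < NP → nb x r < NP →
    r ≠ s → r ≠ ad K s (3 * K) → (∀ q < 6, T x q → q = i ∨ q = j) → P (nb x s) i → ¬ P (nb x r) j
  -- solid cells against the neighbour
  /-- SOL, source inside -/
  si : ∀ {k x j s q}, k < 4 → x < NP → j < 6 * K → s < 6 * K → q < 6 → nb x s < NP → hcell K k j s = true →
    (∀ r < 6, r ≠ q → ¬ V k x j r) →
      ¬ PH (nb x s) s q ∧ ¬ PV 2 (nb x s) s q ∧ ¬ PV 2 (nb x s) (ad K s (3 * K)) q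
  /-- SOL, source outside -/
  so : ∀ {k x j s q}, k < 4 → x < NP → j < 6 * K → s < 6 * K → q < 6 → nb x s < NP → hcell K k j s = false →
    (∀ r < 6, r ≠ q → ¬ V k x j r) → ¬ PH (nb x s) (ad K s (3 * K)) q
  /-- R1' -/
  th1 : ∀ {x s q}, x < NP → s < 6 * K → q < 6 → nb x s < NP → P (nb x s) q →
    ∃ r < 6, r ≠ q ∧ (V 1 x s r ∨ V 2 x s r)
  th2 : ∀ {x s q}, x < NP → s < 6 * K → q < 6 → nb x s < NP → P (nb x s) q →
    ∃ r < 6, r ≠ q ∧ (V 3 x (ad K s (3 * K)) r ∨ V 2 x (ad K s (3 * K)) r)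
  -- letters as sets
  /-- L1 -/
  lne : ∀ {x t sd io}, x < NW → t < 6 * K → sd < 2 → io < 2 → ∃ q < 6, LT x t sd io q
  /-- L2 -/
  l2 : ∀ {x t sd q}, x < NW → t < 6 * K → sd < 2 → q < 6 → P x q → ∃ r < 6, r ≠ q ∧ (LT x t sd 0 r ∨ LT x t sd 1 r)
  /-- L3 -/
  l60 : ∀ {x t sd io io' q}, x < NW → t < 6 * K → sd < 2 → io < 2 → io' < 2 → q < 6 → LT x t sd io q →
    ¬ LT x (ad K t K) sd io' q
  /-- L4 -/
  lpair : ∀ {x s t sd io io' q}, x < NW → s < 6 * K → t < 6 * K → sd < 2 → io < 2 → io' < 2 → q < 6 → nb x s < NW →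
    LT x t sd io q → ¬ LT (nb x s) t sd io' q
  /-- L5 -/
  lfo : ∀ {x t sd} (S : Finset ℕ), x < NW → t < 6 * K → sd < 2 → S.card ≤ 3 → (∀ q < 6, T x q → q ∈ S) →
    ∃ q < 6, (LT x t sd 0 q ∨ LT x t sd 1 q) ∧ ¬ T x q
  /-- L6 -/
  lxx : ∀ {x t sd io q}, x < NW → t < 6 * K → sd < 2 → io < 2 → q < 6 → LT x t sd io q → T x q → X x
  lgap : ∀ {x t sd r}, x < NW → t < 6 * K → sd < 2 → X x → ∃ q < 6, q ≠ r ∧ T x q ∧ ¬ LT x t sd 0 q ∧ ¬ LT x t sd 1 q
  /-- L7 -/
  lglue : ∀ {x t sd io q}, x < NW → t < 6 * K → sd < 2 → io < 2 → q < 6 → nb x t < NP → LT x t sd io q →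
    V (gk sd io) (nb x t) (gt K sd t) q
  /-- L8, a cell of one colour against the letters -/
  lsol : ∀ {x t sd io k j q}, x < NW → t < 6 * K → sd < 2 → io < 2 → k < 4 → j < 6 * K → q < 6 →
    scell K sd io k j t = true → (∀ r < 6, r ≠ q → ¬ V k x j r) → ¬ LT x t sd io q
  /-- a one coloured letter against the cells -/
  lhalf : ∀ {x t sd io k j q}, x < NW → t < 6 * K → sd < 2 → io < 2 → k < 4 → j < 6 * K → q < 6 →
    vcell K sd io k j t = true → (∀ r < 6, r ≠ q → ¬ LT x t sd io r) → ¬ PV k x j q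
  /-- mixed rule: with a colour of `Pal x` in the letter the outer colours are in `Pal x` -/
  lmix : ∀ {x t sd io p q}, x < NW → t < 6 * K → sd < 2 → io < 2 → p < 6 → q < 6 → LT x t sd io p → P x p →
    LT x t sd 1 q → P x q
  /-- and the other colours are in the palette of `x + 2 u(t)` -/
  ltwo : ∀ {x t sd io io' p q}, x < NW → t < 6 * K → sd < 2 → io < 2 → io' < 2 → p < 6 → q < 6 → nb x t < NP →
    nb (nb x t) t < NP → LT x t sd io p → P x p → LT x t sd io' q → ¬ P x q → P (nb (nb x t) t) q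
  -- chosen letters
  wlt : ∀ {x t sd io}, x < NW → t < 6 * K → sd < 2 → io < 2 → W x t sd io < 6
  wm : ∀ {x t sd io}, x < NW → t < 6 * K → sd < 2 → io < 2 → LT x t sd io (W x t sd io)
  /-- equal letters are not in `Pal x` -/
  wa : ∀ {x t sd}, x < NW → t < 6 * K → sd < 2 → W x t sd 0 = W x t sd 1 → ¬ P x (W x t sd 0)
  wc : ∀ {x t sd}, x < NW → t < 6 * K → sd < 2 → P x (W x t sd 0) → P x (W x t sd 1)
  wc2 : ∀ {x t sd}, x < NW → t < 6 * K → sd < 2 → nb x t < NP → nb (nb x t) t < NP →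
    P x (W x t sd 1) → ¬ P x (W x t sd 0) → P (nb (nb x t) t) (W x t sd 0)
  /-- a colour outside `T x` in the letter: one chosen colour is outside `T x` -/
  wf : ∀ {x t sd io q}, x < NW → t < 6 * K → sd < 2 → io < 2 → q < 6 → LT x t sd io q → ¬ T x q →
    ¬ T x (W x t sd 0) ∨ ¬ T x (W x t sd 1)
  -- joint colourings
  jlt : ∀ {k x j}, k < 4 → x < NP → j < 6 * K → J k x j < 6
  jv : ∀ {k x j}, k < 4 → x < NP → j < 6 * K → V k x j (J k x j)
  jne : ∀ {k x j s}, k < 4 → x < NP → j < 6 * K → s < 6 * K → nb x s < NP → J k x j ≠ J k (nb x s) j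
  -- one sided accumulation of directions (two classes)
  ars : ∀ {c m q}, K = 2 → c < NP → m < 6 → q < 6 → AR c m q → V 0 c (2 * m) q
  arz : ∀ {c m q}, K = 2 → c < NP → m < 6 → q < 6 → AR c m q → V 3 c (2 * m) q
  als : ∀ {c m q}, K = 2 → c < NP → m < 6 → q < 6 → AL c m q → V 0 c (2 * m + 1) q
  alz : ∀ {c m q}, K = 2 → c < NP → m < 6 → q < 6 → AL c m q → V 1 c (ad K (2 * m) 2) q

variable {K NP NW : ℕ} {nb : ℕ → ℕ → ℕ}

namespace MdW

variable (M : MdW K NP NW nb)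

/-- the letter -/
def LU (x t sd q : ℕ) : Prop := M.LT x t sd 0 q ∨ M.LT x t sd 1 q

/-- the cell has only the colour `q` -/
def Pu (k x j q : ℕ) : Prop := ∀ r < 6, r ≠ q → ¬ M.V k x j r

/-- no cell of the half plane `s` has only the colour `q` -/
def NS (x s q : ℕ) : Prop := ∀ k < 4, ∀ j < 6 * K, hcell K k j s = true → ¬ M.Pu k x j q

/-- the directions of `q` meet the open sector between the rays `2 m` and `2 m + 2` -/
def S60 (c m q : ℕ) : Prop := M.V 0 c (2 * m) q ∨ M.V 0 c (2 * m + 1) q ∨ ∃ k < 3, M.V (k + 1) c (2 * m + 1) q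

/-- the bit `A` after the event -/
def Ap (c m q : ℕ) : Prop := M.V 0 c (2 * m) q ∨ ∃ k < 3, M.V (k + 1) c (2 * m + 1) q

/-- the bit `B` before the event -/
def Bm (c m q : ℕ) : Prop := M.V 0 c (2 * m + 1) q ∨ ∃ k < 3, M.V (k + 1) c (2 * m + 1) q

/-- at least `n` colours -/
def Fn (x n : ℕ) : Prop := ∃ S : Finset ℕ, n ≤ S.card ∧ ∀ q ∈ S, q < 6 ∧ M.T x q

open Classical in
/-- crisp letters: `6` = not exact -/
noncomputable def L (c t sd io : ℕ) : ℕ :=
  if M.T c (M.W c t sd 0) ∧ M.T c (M.W c t sd 1) then M.W c t sd io else 6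

end MdW

end Vale.Agent.P032.H240.W
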