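import Vale.Agent.P032.H820.K.Chk

/-!
# P032: certificates for an arbitrary valuation of atoms

* `lv`, `Ho` : literals and clauses for a valuation `v : ℕ → Prop` of the atoms (numbers),
* `vx` : the atoms `16 i + 15` are conjunctions of literals, given by a table (definitions),
* `genX` : a generator of clauses with external clauses and the clauses of the definitions,
* `chkG`, `chkG_sound` : the check of a certificate for any generator of clauses.
-/

namespace Vale.Agent.P032.H240.W

open Vale.Agent.P032.H139.Lrat (lit Sat Fal Db build check check_sound)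
open Vale.Agent.P032.H820.K (trv mp cd ps ng gl inC unL mpl dmk mpl_mem sat_three sat_bit sat_lor lb lb_iff nthC)

/-- the literal `l` is true -/
def lv (v : ℕ → Prop) (l : ℕ) : Prop := if l % 2 = 0 then v (l / 2) else ¬ v (l / 2)

/-- the clause `c` holds -/
def Ho (v : ℕ → Prop) (c : List ℕ) : Prop := ∃ l ∈ c, lv v l

section
variable {v : ℕ → Prop} {n l : ℕ} {c : List ℕ}

theorem lv_ps : lv v (ps n) ↔ v n := by
  have h1 : ps n % 2 = 0 := by have : ps n = 2 * n := rfl
                               omega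
  have h2 : ps n / 2 = n := by have : ps n = 2 * n := rfl
                               omega
  unfold lv; rw [h1, h2]; simp

theorem lv_ng : lv v (ng n) ↔ ¬ v n := by
  have h1 : ng n % 2 = 1 := by have : ng n = 2 * n + 1 := rfl
                               omega
  have h2 : ng n / 2 = n := by have : ng n = 2 * n + 1 := rfl
                               omega
  unfold lv; rw [h1, h2]; simp

theorem ht (h : Ho v c) : Ho v (l :: c) := by
  obtain ⟨l', h2, h3⟩ := h
  exact ⟨l', List.mem_cons_of_mem _ h2, h3⟩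

theorem hh (h : lv v l) : Ho v (l :: c) := ⟨l, List.mem_cons_self, h⟩

theorem hl (h : ¬ lv v l → Ho v c) : Ho v (l :: c) := by
  by_cases h1 : lv v l
  · exact hh h1
  · exact ht (h h1)

theorem hn (h : v n → Ho v c) : Ho v (ng n :: c) := hl fun h1 => h (by
  by_contra h2
  exact h1 (lv_ng.2 h2))

theorem hng (h : ¬ v n) : Ho v (ng n :: c) := hh (lv_ng.2 h)

theorem hp (h : v n) : Ho v (ps n :: c) := hh (lv_ps.2 h)

theorem hp' (h : ¬ v n → Ho v c) : Ho v (ps n :: c) := hl fun h1 => h fun h2 => h1 (lv_ps.2 h2)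

theorem ho_trv : Ho v trv := by
  by_cases h : v 0
  · exact ⟨0, by simp [trv], by unfold lv; simpa using h⟩
  · exact ⟨1, by simp [trv], by unfold lv; simpa using h⟩

theorem ho_mp {f : ℕ → ℕ} {n : ℕ} {r : List ℕ} {i : ℕ} (hi : i < n) (h : lv v (f i)) : Ho v (mp f n r) := by
  induction n with
  | zero => exact absurd hi (Nat.not_lt_zero _)
  | succ n ih =>
    rcases Nat.lt_succ_iff_lt_or_eq.1 hi with h1 | h1
    · exact ht (ih h1)
    · subst h1; exact hh h

theorem ho_mp_r {f : ℕ → ℕ} {n : ℕ} {r : List ℕ} (h : Ho v r) : Ho v (mp f n r) := by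
  induction n with
  | zero => exact h
  | succ n ih => exact ht ih

/-- either one of the literals is true or the rest -/
theorem ho_mp_or {f : ℕ → ℕ} {n : ℕ} {r : List ℕ} (h : (∀ i < n, ¬ lv v (f i)) → Ho v r) : Ho v (mp f n r) := by
  by_cases h1 : ∃ i < n, lv v (f i)
  · obtain ⟨i, hi, h2⟩ := h1
    exact ho_mp hi h2
  · push Not at h1
    exact ho_mp_r (h h1)

theorem ho_cd {b : Bool} {c : List ℕ} (h : b = true → Ho v c) : Ho v (cd b c) := by
  cases b
  · exact ho_trv
  · exact h rfl

theorem ho_bif {b : Bool} {c d : List ℕ} (h1 : Ho v c) (h2 : Ho v d) : Ho v (bif b then c else d) := by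
  cases b
  · exact h2
  · exact h1

theorem nthC_ho {e : List (List ℕ)} (h : ∀ c ∈ e, Ho v c) (i : ℕ) : Ho v (nthC e i) := by
  induction e generalizing i with
  | nil => exact ho_trv
  | cons c e ih =>
    show Ho v (bif Nat.beq i 0 then c else nthC e (Nat.sub i 1))
    cases Nat.beq i 0
    · exact ih (fun c hc => h c (List.mem_cons_of_mem _ hc)) _
    · exact h c List.mem_cons_self

end

/-! ### definitions -/

/-- the value of the defined atom `16 i + 15`: all literals of `t i` hold; the literals are about other atoms or about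
defined atoms with smaller number -/
def ex (v : ℕ → Prop) (t : ℕ → List ℕ) (i : ℕ) : Prop :=
  ∀ l ∈ t i, if h : l / 2 % 16 = 15 ∧ l / 2 / 16 < i then
    (if l % 2 = 0 then ex v t (l / 2 / 16) else ¬ ex v t (l / 2 / 16)) else lv v l
termination_by i
decreasing_by all_goals exact h.2

/-- the valuation with the defined atoms -/
def vx (v : ℕ → Prop) (t : ℕ → List ℕ) (n : ℕ) : Prop := if n % 16 = 15 then ex v t (n / 16) else v n

/-- legal literal in the definition `i` -/
def okl (i l : ℕ) : Bool :=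
  bif Nat.beq (Nat.land (Nat.shiftRight l 1) 15) 15 then lb (Nat.shiftRight l 5) i else true

theorem okl_iff {i l : ℕ} : okl i l = true ↔ (l / 2 % 16 = 15 → l / 2 / 16 < i) := by
  have e1 : Nat.land (Nat.shiftRight l 1) 15 = l / 2 % 16 := by
    show (l >>> 1) &&& 15 = l / 2 % 16
    rw [Nat.shiftRight_one]
    exact Nat.and_two_pow_sub_one_eq_mod (l / 2) 4
  have e2 : Nat.shiftRight l 5 = l / 2 / 16 := by
    show l >>> 5 = l / 2 / 16
    rw [Nat.shiftRight_eq_div_pow, Nat.div_div_eq_div_mul]
  unfold okl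
  rw [e1, e2]
  by_cases h : l / 2 % 16 = 15
  · rw [h, Nat.beq_refl, cond_true, lb_iff]
    exact ⟨fun h1 _ => h1, fun h1 => h1 rfl⟩
  · have h2 : Nat.beq (l / 2 % 16) 15 = false := by rw [Bool.eq_false_iff, ne_eq, Nat.beq_eq]; exact h
    rw [h2, cond_false]
    exact ⟨fun _ h1 => absurd h1 h, fun _ => rfl⟩

theorem part_iff {v : ℕ → Prop} {t : ℕ → List ℕ} {i l : ℕ} (h : okl i l = true) :
    (if h : l / 2 % 16 = 15 ∧ l / 2 / 16 < i then
      (if l % 2 = 0 then ex v t (l / 2 / 16) else ¬ ex v t (l / 2 / 16)) else lv v l) ↔ lv (vx v t) l := by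
  have h := okl_iff.1 h
  by_cases h1 : l / 2 % 16 = 15
  · rw [dif_pos ⟨h1, h h1⟩]
    unfold lv vx
    rw [if_pos h1]
  · rw [dif_neg (fun h2 => h1 h2.1)]
    unfold lv vx
    rw [if_neg h1]

/-- the negation of a literal -/
def nl (l : ℕ) : ℕ := bif Nat.beq (Nat.land l 1) 0 then Nat.succ l else Nat.sub l 1

theorem lv_nl {v : ℕ → Prop} {l : ℕ} : lv v (nl l) ↔ ¬ lv v l := by
  have e2 : Nat.land l 1 = l % 2 := by
    show l &&& 1 = l % 2
    exact Nat.and_one_is_mod l
  unfold nl
  rw [e2]
  rcases Nat.mod_two_eq_zero_or_one l with h | h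
  · rw [h, Nat.beq_refl, cond_true]
    have h1 : Nat.succ l % 2 = 1 := by omega
    have h2 : Nat.succ l / 2 = l / 2 := by omega
    unfold lv
    rw [h1, h2, h]; simp
  · rw [h]
    have h0 : Nat.beq 1 0 = false := rfl
    rw [h0, cond_false]
    have h1 : Nat.sub l 1 % 2 = 0 := by show (l - 1) % 2 = 0; omega
    have h2 : Nat.sub l 1 / 2 = l / 2 := by show (l - 1) / 2 = l / 2; omega
    unfold lv
    rw [h1, h2, h]; simp

/-- the number of the defined atom -/
def en (i : ℕ) : ℕ := Nat.add (Nat.mul 16 i) 15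

theorem vx_en {v : ℕ → Prop} {t : ℕ → List ℕ} {i : ℕ} : vx v t (en i) ↔ ex v t i := by
  have h1 : en i % 16 = 15 := by show (16 * i + 15) % 16 = 15; omega
  have h2 : en i / 16 = i := by show (16 * i + 15) / 16 = i; omega
  unfold vx
  rw [if_pos h1, h2]

/-- the clause: definition `i` implies its literal `j` -/
def x1 (i : ℕ) (L : List ℕ) : ℕ → List ℕ :=
  @List.rec ℕ (fun _ => ℕ → List ℕ) (fun _ => trv)
    (fun l _ ih j => bif Nat.beq j 0 then cd (okl i l) [ng (en i), l] else ih (Nat.sub j 1)) L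

/-- the clause: all literals imply the definition `i` -/
def x2 (i : ℕ) (L : List ℕ) : List ℕ :=
  @List.rec ℕ (fun _ => List ℕ) [ps (en i)] (fun l _ ih => bif okl i l then nl l :: ih else trv) L

theorem x1_ho {v : ℕ → Prop} {t : ℕ → List ℕ} {i : ℕ} (L : List ℕ) (hL : ∀ l ∈ L, l ∈ t i) (j : ℕ) :
    Ho (vx v t) (x1 i L j) := by
  induction L generalizing j with
  | nil => exact ho_trv
  | cons l L ih =>
    show Ho (vx v t) (bif Nat.beq j 0 then cd (okl i l) [ng (en i), l] else x1 i L (Nat.sub j 1))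
    cases Nat.beq j 0
    · exact ih (fun m hm => hL m (List.mem_cons_of_mem _ hm)) _
    · refine ho_cd fun h => hn fun h1 => hh ?_
      rw [vx_en, ex] at h1
      exact (part_iff h).1 (h1 l (hL l List.mem_cons_self))

theorem x2_ho {v : ℕ → Prop} {t : ℕ → List ℕ} {i : ℕ} (L : List ℕ) (hL : (∀ l ∈ L, if h : l / 2 % 16 = 15 ∧
    l / 2 / 16 < i then (if l % 2 = 0 then ex v t (l / 2 / 16) else ¬ ex v t (l / 2 / 16)) else lv v l) →
      ex v t i) : Ho (vx v t) (x2 i L) := by
  induction L with
  | nil => exact hp (vx_en.2 (hL fun l hl => absurd hl List.not_mem_nil))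
  | cons l L ih =>
    show Ho (vx v t) (bif okl i l then nl l :: x2 i L else trv)
    cases h : okl i l
    · exact ho_trv
    · refine hl fun h1 => ih fun h2 => hL fun m hm => ?_
      rcases List.mem_cons.1 hm with rfl | hm
      · exact (part_iff h).2 (by_contra fun h3 => h1 (lv_nl.2 h3))
      · exact h2 m hm

/-- digits of 32 bits (literal plus one) -/
noncomputable def dg (fuel : ℕ) : ℕ → List ℕ := @Nat.rec (fun _ => ℕ → List ℕ) (fun _ => [])
  (fun _ ih x => bif Nat.beq x 0 then [] else
    Nat.sub (Nat.land x 4294967295) 1 :: ih (Nat.shiftRight x 32)) fuel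

/-- the definitions of a table -/
noncomputable def tx (t : Db) (i : ℕ) : List ℕ := dg 4096 (t.get i)

/-- **The generator with external clauses (kind 56) and definitions (kinds 57, 58).** -/
noncomputable def genX (gen : ℕ → List ℕ) (e : List (List ℕ)) (t : ℕ → List ℕ) (n : ℕ) : List ℕ :=
  bif Nat.beq (Nat.land n 63) 56 then nthC e (Nat.shiftRight n 6) else
  bif Nat.beq (Nat.land n 63) 57 then
    x1 (Nat.land (Nat.shiftRight n 6) 16777215) (t (Nat.land (Nat.shiftRight n 6) 16777215)) (Nat.shiftRight n 30) else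
  bif Nat.beq (Nat.land n 63) 58 then
    x2 (Nat.land (Nat.shiftRight n 6) 16777215) (t (Nat.land (Nat.shiftRight n 6) 16777215)) else gen n

theorem genX_ho {v : ℕ → Prop} {gen : ℕ → List ℕ} {e : List (List ℕ)} {t : ℕ → List ℕ}
    (hg : ∀ n, Ho (vx v t) (gen n)) (he : ∀ c ∈ e, Ho (vx v t) c) (n : ℕ) : Ho (vx v t) (genX gen e t n) := by
  unfold genX
  refine ho_bif (nthC_ho he _) (ho_bif (x1_ho _ (fun l hl => hl) _) (ho_bif (x2_ho _ fun h => ?_) (hg n)))
  rw [ex]; exact h

/-! ### the check -/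

open Classical in
/-- the local assignment -/
noncomputable def aV (v : ℕ → Prop) (A : Db) (i : ℕ) : Bool := decide (v (A.get i))

theorem lit_gl {v : ℕ → Prop} {A : Db} {l : ℕ} : lit (aV v A) l = true ↔ lv v (gl A l) := by
  classical
  have e1 : Nat.shiftRight l 1 = l / 2 := by
    show l >>> 1 = l / 2
    rw [Nat.shiftRight_one]
  have e2 : Nat.land l 1 = l % 2 := by
    show l &&& 1 = l % 2
    exact Nat.and_one_is_mod l
  have e3 : gl A l = 2 * A.get (l / 2) + l % 2 := by
    unfold gl; rw [e1, e2]; rfl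
  unfold lit lv
  rw [e3]
  have e4 : (2 * A.get (l / 2) + l % 2) % 2 = l % 2 := by omega
  have e5 : (2 * A.get (l / 2) + l % 2) / 2 = A.get (l / 2) := by omega
  rw [e4, e5]
  rcases Nat.mod_two_eq_zero_or_one l with h | h
  · rw [h]; simp [aV]
  · rw [h]; simp [aV]

theorem inC_mono {a : ℕ → Bool} {B mB : ℕ} {A : Db} : ∀ (g : List ℕ) (x m : ℕ), Sat a m →
    Sat a (inC B mB A g x m) := by
  intro g
  induction g with
  | nil => intro x m h; exact h
  | cons c g ih =>
    intro x m h
    show Sat a (bif Nat.beq (gl A (Nat.land x mB)) c then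
      inC B mB A g (Nat.shiftRight x B) (Nat.lor m (Nat.shiftLeft 1 (Nat.land x mB))) else 3)
    cases Nat.beq (gl A (Nat.land x mB)) c
    · exact sat_three a
    · exact ih _ _ (sat_lor h)

theorem inC_sat {v : ℕ → Prop} {B mB : ℕ} {A : Db} : ∀ (g : List ℕ) (x m : ℕ), Ho v g →
    Sat (aV v A) (inC B mB A g x m) := by
  intro g
  induction g with
  | nil => rintro x m ⟨l, hl, -⟩; exact absurd hl List.not_mem_nil
  | cons c g ih =>
    intro x m h
    show Sat _ (bif Nat.beq (gl A (Nat.land x mB)) c then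
      inC B mB A g (Nat.shiftRight x B) (Nat.lor m (Nat.shiftLeft 1 (Nat.land x mB))) else 3)
    cases h1 : Nat.beq (gl A (Nat.land x mB)) c
    · exact sat_three _
    · rw [cond_true]
      rw [Nat.beq_eq] at h1
      obtain ⟨l, hl, h2⟩ := h
      rcases List.mem_cons.1 hl with h3 | h3
      · rw [h3, ← h1] at h2
        exact inC_mono _ _ _ (sat_bit (lit_gl.2 h2))
      · exact ih _ _ ⟨l, h3, h2⟩

/-- the mask of an input block: 58 bits of code, then the local literals -/
noncomputable def inG (gen : ℕ → List ℕ) (B mB : ℕ) (A : Db) (x : ℕ) : ℕ :=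
  inC B mB A (gen (Nat.land x 288230376151711743)) (Nat.shiftRight x 58) 0

/-- the check with the tree of atoms `A` -/
noncomputable def chkG1 (gen : ℕ → List ℕ) (B mB HB d : ℕ) (C D H : List ℕ) (A : Db) : Bool :=
  check HB 100000 (build d (mpl (inG gen B mB A) (unL C) (mpl (dmk B mB 100000) (unL D) [])) 0 (fun t _ => t))
    (mpl (inG gen B mB A) (unL C) []) (unL H)

/-- **The check of a certificate.** -/
noncomputable def chkG (gen : ℕ → List ℕ) (B HB dA d : ℕ) (A C D H : List ℕ) : Bool :=
  chkG1 gen B (Nat.sub (Nat.shiftLeft 1 B) 1) HB d C D H (build dA (unL A) 0 (fun t _ => t))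

/-- **Soundness.** -/
theorem chkG_sound {gen : ℕ → List ℕ} {B HB dA d : ℕ} {A C D H : List ℕ}
    (h : chkG gen B HB dA d A C D H = true) {v : ℕ → Prop} (hg : ∀ n, Ho v (gen n)) : False := by
  unfold chkG chkG1 at h
  refine check_sound h (aV v (build dA (unL A) 0 fun t _ => t)) fun K hK => ?_
  obtain ⟨x, rfl⟩ := mpl_mem hK
  exact inC_sat _ _ _ (hg _)

end Vale.Agent.P032.H240.W
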